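import Crest.Agent.R118.Defs

/-! Row 118: the bootstrap (**BOOT**). -/

set_option autoImplicit false

namespace Crest.Agent.R118

namespace BOOT

theorem pow_le_two {m : ℕ} (hm : 1 ≤ m) : (1 + 1 / (4 * (m : ℝ))) ^ (2 * m) ≤ 2 := by
  have hm' : (0 : ℝ) < m := by exact_mod_cast hm
  have h1 : 1 + 1 / (4 * (m : ℝ)) ≤ Real.exp (1 / (4 * (m : ℝ))) := by
    have := Real.add_one_le_exp (1 / (4 * (m : ℝ)))
    linarith
  have h2 := pow_le_pow_left₀ (by positivity) h1 (2 * m)
  rw [← Real.exp_nat_mul] at h2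
  have h3 : ((2 * m : ℕ) : ℝ) * (1 / (4 * (m : ℝ))) = 1 / 2 := by
    push_cast; field_simp; norm_num
  rw [h3] at h2
  have h4 : Real.exp (1 / 2) ^ 2 = Real.exp 1 := by
    rw [← Real.exp_nat_mul]; norm_num
  have h5 := Real.exp_one_lt_d9
  have h6 : Real.exp (1 / 2) ≤ 2 := by
    by_contra hh
    have h7 := Real.exp_pos (1 / 2)
    nlinarith [not_le.1 hh]
  exact h2.trans h6

end BOOT

open BOOT in
theorem BOOT_proof : BootStmt := by
  intro m M hm hM
  have hm' : (1 : ℝ) ≤ m := by exact_mod_cast hm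
  set l : ℝ := 1 + 1 / (4 * (m : ℝ)) with hl
  have hx0 : 0 < 1 / (4 * (m : ℝ)) := by positivity
  have hx1 : 1 / (4 * (m : ℝ)) ≤ 1 / 4 :=
    one_div_le_one_div_of_le (by norm_num) (by linarith)
  have hl1 : 1 < l := by linarith
  have hl0 : 0 < l := by linarith
  have hl2 : l ^ (2 * m) ≤ 2 := pow_le_two hm
  obtain ⟨n₁, hn₁⟩ : ∃ n₁ : ℕ, 16 * M ≤ l ^ n₁ := by
    obtain ⟨n, hn⟩ := pow_unbounded_of_one_lt (16 * M) hl1
    exact ⟨n, hn.le⟩
  refine ⟨l, l ^ (n₁ + 2 * m), hl1, by nlinarith, by positivity, ?_⟩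
  intro H U d hU hd hmono hlim htriv hfin hstep
  set C : ℝ := l ^ (n₁ + 2 * m) with hC
  have hC0 : 0 < C := by positivity
  have hCU : 0 ≤ C * U := by positivity
  have key : ∀ j k n : ℕ, H k n (2 ^ k * (C * U + d / 2 ^ j) / l ^ n) := by
    intro j
    induction j with
    | zero =>
      intro k n
      refine hmono k n _ _ (hfin k n) (div_le_div_of_nonneg_right ?_ (by positivity))
      have h1 : (1 : ℝ) ≤ 2 ^ k := one_le_pow₀ (by norm_num)
      rw [pow_zero, div_one]
      nlinarith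
    | succ j ih =>
      intro k n
      have hdj : 0 ≤ d / 2 ^ (j + 1) := by positivity
      by_cases hn : n < n₁ + 2 * m
      · refine hmono k n _ _ (htriv k n) ?_
        rw [le_div_iff₀ (by positivity)]
        have h1 : l ^ n ≤ C := pow_le_pow_right₀ hl1.le hn.le
        have h2 : (0 : ℝ) < 2 ^ k := by positivity
        have h3 : U * l ^ n ≤ C * U + d / 2 ^ (j + 1) := by nlinarith
        have := mul_le_mul_of_nonneg_left h3 h2.le
        linarith
      · obtain ⟨n', rfl⟩ : ∃ n', n = n' + 2 * m := ⟨n - 2 * m, by omega⟩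
        have hn' : n₁ ≤ n' := by omega
        set E : ℝ := C * U + d / 2 ^ j with hE
        have hE0 : 0 ≤ E := by positivity
        have h1 := hstep k n' _ _ (by positivity) (by positivity) (ih (k + 1) n')
          (ih (k + 1) (n' + n'))
        refine hmono _ _ _ _ h1 ?_
        have hp : 0 < l ^ n' := by positivity
        have h2 : 16 * M ≤ l ^ n' := hn₁.trans (pow_le_pow_right₀ hl1.le hn')
        have h3 : M / l ^ n' ≤ 1 / 16 := by
          rw [div_le_iff₀ hp]; linarith
        set A : ℝ := 2 ^ k * E / l ^ n' with hA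
        have hA0 : 0 ≤ A := by positivity
        have h4 : 2 ^ (k + 1) * E / l ^ n' / 16 + M * (2 ^ (k + 1) * E / l ^ (n' + n')) =
            A / 8 + 2 * A * (M / l ^ n') := by
          rw [hA, pow_add l, pow_succ]; field_simp; ring
        have h5 : A / 8 + 2 * A * (M / l ^ n') ≤ A / 4 := by
          have := mul_le_mul_of_nonneg_left h3 (show 0 ≤ 2 * A by positivity)
          linarith
        have h6 : A / 4 ≤ 2 ^ k * (C * U + d / 2 ^ (j + 1)) / l ^ (n' + 2 * m) := by
          rw [le_div_iff₀ (by positivity), pow_add l]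
          have h7 : A / 4 * (l ^ n' * l ^ (2 * m)) = 2 ^ k * (E / 4 * l ^ (2 * m)) := by
            rw [hA]; field_simp
          rw [h7]
          refine mul_le_mul_of_nonneg_left ?_ (by positivity)
          have h8 : E / 4 * l ^ (2 * m) ≤ E / 4 * 2 :=
            mul_le_mul_of_nonneg_left hl2 (by positivity)
          have h9 : d / 2 ^ (j + 1) = d / 2 ^ j / 2 := by rw [pow_succ, div_div]
          rw [h9]
          linarith
        rw [h4]
        exact h5.trans h6
  intro n
  refine hlim 0 n _ fun δ hδ => ?_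
  obtain ⟨j, hj⟩ := pow_unbounded_of_one_lt (d / δ) (show (1 : ℝ) < 2 by norm_num)
  refine hmono _ _ _ _ (key j 0 n) ?_
  have h1 : d / 2 ^ j ≤ δ := by
    rw [div_lt_iff₀ hδ] at hj
    rw [div_le_iff₀ (by positivity)]
    linarith
  have h2 : d / 2 ^ j / l ^ n ≤ d / 2 ^ j :=
    div_le_self (by positivity) (one_le_pow₀ hl1.le)
  rw [pow_zero, one_mul, add_div]
  linarith

end Crest.Agent.R118
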