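import Crest.Agent.R118.Defs

/-! Row 118: task CNT. -/

set_option autoImplicit false

namespace Crest.Agent.R118

open Finset Crest.AnalysisR

namespace CNT

/-- nonzero rows -/
def RI {m : ℕ} (A : Mat m) : Finset (Fin m) := univ.filter fun i => ∃ j, A i j ≠ 0
/-- nonzero columns -/
def CJ {m : ℕ} (A : Mat m) : Finset (Fin m) := univ.filter fun j => ∃ i, A i j ≠ 0

theorem ne_iff {m : ℕ} {A : Mat m} (h : IsRect A) (i j : Fin m) :
    A i j ≠ 0 ↔ i ∈ RI A ∧ j ∈ CJ A := by
  simp only [RI, CJ, mem_filter, mem_univ, true_and]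
  constructor
  · intro h1; exact ⟨⟨j, h1⟩, ⟨i, h1⟩⟩
  · rintro ⟨⟨j1, h1⟩, ⟨i2, h2⟩⟩; exact h i j1 i2 j h1 h2

theorem inj {m : ℕ} {A A' : Mat m} (h : IsRect A) (h' : IsRect A') (h1 : RI A = RI A')
    (h2 : CJ A = CJ A') : A = A' := by
  funext i j
  have e1 := ne_iff h i j
  have e2 := ne_iff h' i j
  rw [h1, h2, ← e2] at e1
  rcases z2_cases (A i j) with a | a <;> rcases z2_cases (A' i j) with b | b <;> simp_all

theorem row_le {m : ℕ} (A : Mat m) : wt (rowp A) ≤ (RI A).card := by
  apply Finset.card_le_card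
  intro i hi
  simp only [RI, mem_filter, mem_univ, true_and, rowp] at hi ⊢
  by_contra hc
  push Not at hc
  exact hi (Finset.sum_eq_zero fun j _ => hc j)

theorem col_le {m : ℕ} (A : Mat m) : wt (colp A) ≤ (CJ A).card := by
  apply Finset.card_le_card
  intro j hj
  simp only [CJ, mem_filter, mem_univ, true_and, colp] at hj ⊢
  by_contra hc
  push Not at hc
  exact hj (Finset.sum_eq_zero fun i _ => hc i)

theorem wt2_ge {m : ℕ} {A : Mat m} (h : IsRect A) : (RI A).card * (CJ A).card ≤ wt2 A := by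
  unfold wt2
  calc (RI A).card * (CJ A).card = ∑ _i ∈ RI A, (CJ A).card := by simp
    _ ≤ ∑ i ∈ RI A, wt (A i) := by
        refine Finset.sum_le_sum fun i hi => Finset.card_le_card fun j hj => ?_
        simp only [mem_filter, mem_univ, true_and]
        exact (ne_iff h i j).2 ⟨hi, hj⟩
    _ ≤ ∑ i, wt (A i) := Finset.sum_le_sum_of_subset (Finset.subset_univ _)

theorem sum_pow (m : ℕ) (x : ℝ) : ∑ I : Finset (Fin m), x ^ I.card = (1 + x) ^ m := by
  have := Finset.prod_one_add (f := fun _ : Fin m => x) univ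
  simp only [prod_const, card_univ, Fintype.card_fin, powerset_univ] at this
  exact this.symm

end CNT

open CNT in
theorem CNT_proof : CntStmt := by
  intro m ℓ τ h0 h1 hm
  classical
  set x := τ ^ ℓ with hx
  have hx0 : 0 ≤ x := by positivity
  set s := univ.filter (fun A : Mat m => IsRect A ∧ 2 * ℓ < wt (rowp A) ∧ 2 * ℓ < wt (colp A))
    with hs
  have h2 : ∑ A ∈ s, τ ^ wt2 A ≤ ∑ A ∈ s, x ^ (RI A).card * x ^ (CJ A).card := by
    refine Finset.sum_le_sum fun A hA => ?_
    simp only [hs, mem_filter, mem_univ, true_and] at hA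
    rw [hx, ← pow_mul, ← pow_mul, ← pow_add]
    apply pow_le_pow_of_le_one h0 h1
    have a1 := row_le A
    have a2 := col_le A
    have a3 := wt2_ge hA.1
    have a4 : 2 * ℓ ≤ (RI A).card := by omega
    have a5 : 2 * ℓ ≤ (CJ A).card := by omega
    nlinarith
  have h3 : ∑ A ∈ s, x ^ (RI A).card * x ^ (CJ A).card ≤
      ∑ p : Finset (Fin m) × Finset (Fin m), x ^ p.1.card * x ^ p.2.card := by
    rw [← Finset.sum_image (s := s) (g := fun A => (RI A, CJ A))
      (f := fun p : Finset (Fin m) × Finset (Fin m) => x ^ p.1.card * x ^ p.2.card)]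
    · exact Finset.sum_le_sum_of_subset_of_nonneg (Finset.subset_univ _)
        (fun p _ _ => by positivity)
    · intro A hA A' hA' h
      simp only [hs, coe_filter, mem_univ, true_and, Set.mem_setOf_eq] at hA hA'
      exact inj hA.1 hA'.1 (congrArg Prod.fst h) (congrArg Prod.snd h)
  have h4 : ∑ p : Finset (Fin m) × Finset (Fin m), x ^ p.1.card * x ^ p.2.card =
      (1 + x) ^ m * (1 + x) ^ m := by
    rw [Fintype.sum_prod_type, ← sum_pow, Finset.sum_mul_sum]
  have h5 : (1 + x) ^ m ≤ 3 := by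
    calc (1 + x) ^ m ≤ Real.exp x ^ m :=
          pow_le_pow_left₀ (by linarith) (by linarith [Real.add_one_le_exp x]) m
      _ = Real.exp (x * m) := by rw [← Real.exp_nat_mul, mul_comm]
      _ ≤ Real.exp 1 := Real.exp_le_exp.2 hm
      _ ≤ 3 := by linarith [Real.exp_one_lt_d9]
  have h6 : 0 ≤ (1 + x) ^ m := by positivity
  have h7 : (1 + x) ^ m * (1 + x) ^ m ≤ 9 := by nlinarith
  convert h2.trans (h3.trans (h4.le.trans h7)) using 2

end Crest.Agent.R118
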