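import Crest.Agent.R118.Defs

/-! Row 118: task COL. -/

set_option autoImplicit false

namespace Crest.Agent.R118

open Finset Crest.AnalysisR

universe u

namespace COL

theorem wt_cast {ι : Type*} [Fintype ι] (x : ι → ZMod 2) : (wt x : ZMod 2) = ∑ i, x i := by
  unfold wt
  rw [Finset.card_filter]
  push_cast
  refine Finset.sum_congr rfl fun i _ => ?_
  rcases z2_cases (x i) with h | h <;> simp [h]

theorem wt_single {m : ℕ} (j : Fin m) : wt (Pi.single j 1 : Fin m → ZMod 2) = 1 := by
  unfold wt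
  rw [Finset.card_eq_one]
  refine ⟨j, ?_⟩
  ext i
  by_cases h : i = j
  · subst h; simp
  · simp [h]

theorem wt_eq_one {m : ℕ} (x : Fin m → ZMod 2) (h : wt x = 1) : ∃ j, x = Pi.single j 1 := by
  unfold wt at h
  obtain ⟨j, hj⟩ := Finset.card_eq_one.1 h
  refine ⟨j, funext fun i => ?_⟩
  have h1 : x i ≠ 0 ↔ i = j := by
    have := Finset.ext_iff.1 hj i
    simpa using this
  by_cases h2 : i = j
  · subst h2
    simpa using (z2_cases (x i)).resolve_left (h1.2 rfl)
  · have : x i = 0 := by
      by_contra h3; exact h2 (h1.1 h3)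
    simp [h2, this]

theorem single_inj {m : ℕ} {j j' : Fin m}
    (h : (Pi.single j 1 : Fin m → ZMod 2) = Pi.single j' 1) : j = j' := by
  by_contra hne
  have := congrFun h j
  simp [hne] at this

theorem prod_exp {m : ℕ} (x : ℝ) (z : Fin m → ZMod 2) :
    ∑ α : Fin m → ZMod 2, x ^ wt α * e (dot α z) = ∏ i, (1 + x * e (z i)) := by
  have h1 : ∀ i, (1 + x * e (z i)) = ∑ b : ZMod 2, (if b = 0 then 1 else x) * e (b * z i) := by
    intro i
    have : (univ : Finset (ZMod 2)) = {0, 1} := by decide
    rw [this, Finset.sum_pair (by decide)]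
    simp
  simp only [h1]
  rw [Finset.prod_univ_sum, Fintype.piFinset_univ]
  refine Finset.sum_congr rfl fun α _ => ?_
  rw [Finset.prod_mul_distrib, dot, e_sum]
  congr 1
  rw [Finset.prod_ite]
  simp [wt]

theorem avg_col {m : ℕ} (j : Fin m) (f : (Fin m → ZMod 2) → ℝ) :
    avg (fun S : Mat m => f (fun i => S i j)) = avg f := by
  rw [← avg_eval j f]
  exact avg_equiv (Equiv.piComm fun (_ : Fin m) (_ : Fin m) => ZMod 2)
    (fun T : Fin m → Fin m → ZMod 2 => f (T j))

theorem avg_ker {m : ℕ} (x : ℝ) (hx : |x| ≤ 1) (ε : Fin m → ZMod 2) :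
    avg (fun z : Fin m → ZMod 2 =>
      |∑ α : Fin m → ZMod 2, x ^ wt α * e (dot α (fun i => z i + ε i))|) = 1 := by
  have h1 : ∀ z : Fin m → ZMod 2,
      |∑ α : Fin m → ZMod 2, x ^ wt α * e (dot α (fun i => z i + ε i))| =
        ∑ α : Fin m → ZMod 2, x ^ wt α * e (dot α ε) * e (dot α z) := by
    intro z
    rw [abs_of_nonneg]
    · refine Finset.sum_congr rfl fun α _ => ?_
      have : dot α (fun i => z i + ε i) = dot α z + dot α ε := dot_add_right α z ε
      rw [this, e_add]; ring
    · rw [prod_exp]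
      refine Finset.prod_nonneg fun i _ => ?_
      have h2 : |x * e (z i + ε i)| ≤ 1 := by rw [abs_mul, abs_e]; simpa using hx
      linarith [neg_abs_le (x * e (z i + ε i))]
  simp only [h1]
  rw [avg_sum]
  simp only [avg_mul_left, avg_e_dot]
  rw [Finset.sum_eq_single 0]
  · simp [wt, dot]
  · intro b _ hb; simp [hb]
  · simp

/-- the matrix with one column -/
def cm {m : ℕ} (j : Fin m) (α : Fin m → ZMod 2) : Mat m := fun i j' => if j' = j then α i else 0

theorem rowp_cm {m : ℕ} (j : Fin m) (α : Fin m → ZMod 2) : rowp (cm j α) = α := by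
  funext i; simp [rowp, cm]

theorem wt2_cm {m : ℕ} (j : Fin m) (α : Fin m → ZMod 2) : wt2 (cm j α) = wt α := by
  unfold wt2 wt
  rw [Finset.card_filter]
  refine Finset.sum_congr rfl fun i _ => ?_
  rw [Finset.card_filter, Finset.sum_eq_single j]
  · simp [cm]
  · intro b _ hb; simp [cm, hb]
  · simp

theorem colp_cm {m : ℕ} (j : Fin m) (α : Fin m → ZMod 2) :
    colp (cm j α) = Pi.single j (∑ i, α i) := by
  funext j'
  by_cases h : j' = j
  · subst h; simp [colp, cm]
  · simp [colp, cm, h]

theorem TT_sum {E₁ E₂ : Type*} [NormedAddCommGroup E₁] [NormedSpace ℝ E₁]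
    [NormedAddCommGroup E₂] [NormedSpace ℝ E₂] (B : E₁ →ₗ[ℝ] E₂ →ₗ[ℝ] ℝ) {m : ℕ} {ι : Type}
    [Fintype ι] [DecidableEq ι] {β : Type*} (s : Finset β) (c : β → ℝ)
    (K : β → Mat m → (Fin m → ZMod 2) → (Fin m → ZMod 2) → ℝ)
    (Ft : Side m ι → E₁) (Gt : Side m ι → E₂) :
    TT B (fun S ε ε' => ∑ b ∈ s, c b * K b S ε ε') Ft Gt = ∑ b ∈ s, c b * TT B (K b) Ft Gt := by
  unfold TT
  simp only [Finset.sum_mul, mul_assoc, avg_sum, avg_mul_left]

theorem avg_side {m : ℕ} {ι : Type} [Fintype ι] [DecidableEq ι] (j : Fin m)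
    (g : (Fin m → ZMod 2) × (ι → ZMod 2) → ℝ) :
    avg (fun s : Side m ι => g (s.1 j, s.2.1 j)) = avg g := by
  rw [avg_prod, avg_prod g]
  rw [← avg_eval j (fun a : Fin m → ZMod 2 => avg fun b => g (a, b))]
  congr 1
  funext p
  rw [avg_prod]
  simp only [avg_const]
  exact avg_eval j (fun b => g (p j, b))

end COL

open COL in
theorem COL_proof (hGen : GenStmt.{u}) (hR : Red2Stmt.{u}) : ColStmt.{u} := by
  intro E₁ E₂ _ _ _ _ B m ι _ _ V a τ c L N w σ ha hc hH hτ hL Gt Φ f hf hΦ
  classical
  set K : Fin m → (Fin m → ZMod 2) → Mat m → (Fin m → ZMod 2) → (Fin m → ZMod 2) → ℝ :=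
    fun j α S ε _ => e (dot α (fun i => S i j + ε i)) with hK
  set F : Fin m → Side m ι → E₁ := fun j s => f j (s.1 j, s.2.1 j) with hF
  have hodd : ∀ α : Fin m → ZMod 2, ∑ i, α i ≠ 1 → lam w σ (wt α) = 0 := by
    intro α h
    apply hL.2.2.1
    rw [← ZMod.natCast_eq_zero_iff_even, wt_cast]
    exact (z2_cases _).resolve_right h
  have step1 : ∑ A ∈ univ.filter (fun A : Mat m => wt (colp A) = 1),
      coef τ w σ A * TT B (mono A) (lifted Φ f) Gt =
      ∑ j, ∑ A ∈ univ.filter (fun A : Mat m => colp A = Pi.single j 1),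
        coef τ w σ A * TT B (mono A) (lifted Φ f) Gt := by
    simp only [Finset.sum_filter]
    rw [Finset.sum_comm]
    refine Finset.sum_congr rfl fun A _ => ?_
    split_ifs with h
    · obtain ⟨j, hj⟩ := wt_eq_one _ h
      rw [Finset.sum_eq_single j, if_pos hj]
      · intro b _ hb
        rw [if_neg]
        intro h'
        exact hb (single_inj (h'.symm.trans hj))
      · simp
    · refine (Finset.sum_eq_zero fun j _ => ?_).symm
      rw [if_neg]
      intro h'
      exact h (by rw [h', wt_single])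
  have step2 : ∀ j, ∑ A ∈ univ.filter (fun A : Mat m => colp A = Pi.single j 1),
      coef τ w σ A * TT B (mono A) (lifted Φ f) Gt =
      ∑ α : Fin m → ZMod 2, (τ ^ wt α * lam w σ (wt α)) * TT B (K j α) (F j) Gt := by
    intro j
    have h1 : ∑ A ∈ univ.filter (fun A : Mat m => colp A = Pi.single j 1),
        coef τ w σ A * TT B (mono A) (lifted Φ f) Gt =
        ∑ A ∈ (univ.filter (fun A : Mat m => colp A = Pi.single j 1)).filter
          (fun A => ∀ j', j' ≠ j → ∀ i, A i j' = 0),
          coef τ w σ A * TT B (K j (fun i => A i j)) (F j) Gt := by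
      rw [Finset.sum_filter (s := univ.filter (fun A : Mat m => colp A = Pi.single j 1))]
      refine Finset.sum_congr rfl fun A hA => ?_
      rw [hR E₁ E₂ B m ι Gt Φ f hΦ A j (Finset.mem_filter.1 hA).2]
      split_ifs <;> simp [hK, hF]
    have h2 : ∑ α : Fin m → ZMod 2, (τ ^ wt α * lam w σ (wt α)) * TT B (K j α) (F j) Gt =
        ∑ α ∈ univ.filter (fun α : Fin m → ZMod 2 => ∑ i, α i = 1),
          (τ ^ wt α * lam w σ (wt α)) * TT B (K j α) (F j) Gt := by
      rw [Finset.sum_filter]
      refine Finset.sum_congr rfl fun α _ => ?_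
      split_ifs with h
      · rfl
      · rw [hodd α h]; simp
    rw [h1, h2]
    symm
    refine Finset.sum_bij' (fun α _ => cm j α) (fun A _ => fun i => A i j) ?_ ?_ ?_ ?_ ?_
    · intro α hα
      simp only [mem_filter, mem_univ, true_and] at hα ⊢
      refine ⟨by rw [colp_cm, hα], fun j' hj' i => by simp [cm, hj']⟩
    · intro A hA
      simp only [mem_filter, mem_univ, true_and] at hA ⊢
      have := congrFun hA.1 j
      simpa [colp] using this
    · intro α _; funext i; simp [cm]
    · intro A hA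
      simp only [mem_filter, mem_univ, true_and] at hA
      funext i j'
      by_cases h : j' = j
      · subst h; simp [cm]
      · simp [cm, h, hA.2 j' h i]
    · intro α hα
      simp only [mem_filter, mem_univ, true_and] at hα
      have h3 : (fun i => cm j α i j) = α := by funext i; simp [cm]
      rw [h3, coef, wt2_cm, rowp_cm, colp_cm, hα, wt_single, hL.2.1, mul_one]
  rw [step1]
  refine (Finset.abs_sum_le_sum_abs _ _).trans (Finset.sum_le_sum fun j _ => ?_)
  rw [step2, ← TT_sum]
  have h4 := hGen E₁ E₂ B m ι ι V a (tv w) c ha hc hH (fun h _ => h) (fun h _ => h)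
    (fun S ε ε' => ∑ α : Fin m → ZMod 2, (τ ^ wt α * lam w σ (wt α)) * K j α S ε ε') ?_ ?_
    (F j) Gt (fun s => hf _ _)
  · rw [← avg_side j (fun v => ‖f j v‖ ^ 2)]
    exact h4
  · intro h h' S ε ε'
    rw [Finset.mul_sum]
    refine Finset.sum_congr rfl fun α _ => ?_
    by_cases hα : ∑ i, α i = 1
    · have h5 : dot α (fun i => S i j + dot h h' + ε i) =
          dot h h' + dot α (fun i => S i j + ε i) := by
        have : dot α (fun i => S i j + dot h h' + ε i) =
            (∑ i, α i) * dot h h' + dot α (fun i => S i j + ε i) := by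
          rw [Finset.sum_mul]
          unfold dot
          rw [← Finset.sum_add_distrib]
          refine Finset.sum_congr rfl fun i _ => by ring
        rw [this, hα, one_mul]
      simp only [hK]
      rw [h5, e_add]; ring
    · rw [hodd α hα]; simp
  · intro ε ε'
    have h5 : ∀ S : Mat m,
        |∑ α : Fin m → ZMod 2, (τ ^ wt α * lam w σ (wt α)) * K j α S ε ε'| ≤
          ∑ l, |w l| * |∑ α : Fin m → ZMod 2,
            (τ * σ l) ^ wt α * e (dot α (fun i => S i j + ε i))| := by
      intro S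
      have : ∑ α : Fin m → ZMod 2, (τ ^ wt α * lam w σ (wt α)) * K j α S ε ε' =
          ∑ l, w l * ∑ α : Fin m → ZMod 2,
            (τ * σ l) ^ wt α * e (dot α (fun i => S i j + ε i)) := by
        simp only [lam, hK, Finset.mul_sum, Finset.sum_mul]
        rw [Finset.sum_comm]
        refine Finset.sum_congr rfl fun l _ => Finset.sum_congr rfl fun α _ => ?_
        rw [mul_pow]; ring
      rw [this]
      refine (Finset.abs_sum_le_sum_abs _ _).trans (le_of_eq ?_)
      simp only [abs_mul]
    refine (avg_le_avg h5).trans (le_of_eq ?_)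
    rw [avg_sum]
    unfold tv
    refine Finset.sum_congr rfl fun l _ => ?_
    rw [avg_mul_left, avg_col j (fun z => |∑ α : Fin m → ZMod 2,
      (τ * σ l) ^ wt α * e (dot α (fun i => z i + ε i))|), avg_ker, mul_one]
    rw [abs_mul]
    exact mul_le_one₀ hτ (abs_nonneg _) (hL.1 l)

end Crest.Agent.R118
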