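import Crest.Agent.R118.Defs

/-! Row 118, task CONV. -/

set_option autoImplicit false

namespace Crest.Agent.R118

open Finset Crest.AnalysisR

universe u

namespace CONV

/-- `0 ↦ true`, `1 ↦ false` -/
def zb : ZMod 2 ≃ Bool where
  toFun z := decide (z = 0)
  invFun b := if b then 0 else 1
  left_inv z := by rcases z2_cases z with h | h <;> subst h <;> decide
  right_inv b := by cases b <;> decide

theorem sign_zb (z : ZMod 2) : signVal (zb z) = e z := by
  rcases z2_cases z with h | h <;> subst h <;> simp [zb, signVal]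

theorem wt_single {s : ℕ} (i : Fin s) : wt (Pi.single i 1 : Fin s → ZMod 2) = 1 := by
  unfold wt
  rw [card_eq_one]
  refine ⟨i, ?_⟩
  ext j
  by_cases h : j = i <;> simp [Pi.single_apply, h]

theorem wt_one {s : ℕ} (A : Fin s → ZMod 2) (h : wt A = 1) : ∃ i, A = Pi.single i 1 := by
  unfold wt at h
  obtain ⟨i, hi⟩ := card_eq_one.1 h
  refine ⟨i, funext fun j => ?_⟩
  have hj : A j ≠ 0 ↔ j = i := by
    have := congrArg (fun S => j ∈ S) hi
    simpa using this
  by_cases hji : j = i
  · subst hji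
    rw [Pi.single_eq_same]
    exact (z2_cases _).resolve_left (hj.2 rfl)
  · rw [Pi.single_eq_of_ne hji]
    by_contra hn
    exact hji (hj.1 hn)

theorem ker {s : ℕ} (z : Fin s → ZMod 2) :
    ∑ A : Fin s → ZMod 2, (Pi.single 1 1 : ℕ → ℝ) (wt A) * e (dot A z) = ∑ i, e (z i) := by
  have hinj : Function.Injective fun i : Fin s => (Pi.single i 1 : Fin s → ZMod 2) := by
    intro i j hij
    by_contra hne
    have := congrFun hij i
    simp [Pi.single_apply, hne] at this
  have h1 : ∑ i, e (z i) = ∑ A ∈ univ.image fun i : Fin s => (Pi.single i 1 : Fin s → ZMod 2),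
      (Pi.single 1 1 : ℕ → ℝ) (wt A) * e (dot A z) := by
    rw [sum_image fun i _ j _ h => hinj h]
    refine sum_congr rfl fun i _ => ?_
    rw [wt_single, Pi.single_eq_same, one_mul]
    congr 1
    simp [dot, Pi.single_apply]
  rw [h1]
  refine (sum_subset (subset_univ _) fun A _ hA => ?_).symm
  have : wt A ≠ 1 := by
    intro h
    obtain ⟨i, rfl⟩ := wt_one A h
    exact hA (mem_image.2 ⟨i, mem_univ _, rfl⟩)
  rw [Pi.single_eq_of_ne this, zero_mul]

end CONV

open CONV in
theorem CONV_proof : ConvStmt.{u} := by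
  intro X _ _ κ hκ
  refine ⟨κ, fun s f => ?_⟩
  let σ : (Fin s → ZMod 2) ≃ (Fin s → Bool) := Equiv.piCongrRight fun _ => zb
  have hσ : ∀ ω i, signVal (σ ω i) = e (ω i) := fun ω i => sign_zb (ω i)
  have h := hκ s (fun η => f (σ η))
  have hk : ∀ ω, kop (fun A : Fin s → ZMod 2 => (Pi.single 1 1 : ℕ → ℝ) (wt A))
      (fun η => f (σ η)) ω = ∑ i : Fin s, signVal (σ ω i) •
        (((2 : ℝ) ^ s)⁻¹ • ∑ η : Fin s → Bool, signVal (η i) • f η) := by
    intro ω
    unfold kop
    simp only [ker, ← Equiv.sum_comp σ, hσ, Pi.add_apply, e_add, sum_smul, smul_sum, smul_smul]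
    rw [sum_comm]
    refine sum_congr rfl fun i _ => sum_congr rfl fun η _ => ?_
    congr 1
    ring
  simp only [hk] at h
  unfold signAverage
  simp only [Real.rpow_two]
  rw [← Equiv.sum_comp σ, ← Equiv.sum_comp σ (fun ε => ‖f ε‖ ^ 2), mul_left_comm]
  exact mul_le_mul_of_nonneg_left h (by positivity)

end Crest.Agent.R118
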