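import Crest.Agent.R118.Defs

set_option autoImplicit false

namespace Crest.Agent.R118

open Finset

universe u

namespace CORE

variable {m : ℕ} {ι : Type}

/-- vector-side point -/
def xx (j : Fin m) (u : (Fin m → ZMod 2) × (ι → ZMod 2)) : Fin m ⊕ Fin m ⊕ ι → ZMod 2 :=
  Sum.elim (Pi.single j 1) (Sum.elim u.1 u.2)

/-- functional-side point -/
def xi (i : Fin m) (v : (Fin m → ZMod 2) × (ι → ZMod 2)) : Fin m ⊕ Fin m ⊕ ι → ZMod 2 :=
  Sum.elim v.1 (Sum.elim (Pi.single i 1) v.2)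

theorem dot_xx_xi [Fintype ι] (i j : Fin m) (u v : (Fin m → ZMod 2) × (ι → ZMod 2)) :
    dot (xx j u) (xi i v) = v.1 j + u.1 i + dot u.2 v.2 := by
  simp [dot, xx, xi, Fintype.sum_sum_type, Pi.single_apply, add_assoc]

theorem norm_e_smul {E : Type*} [NormedAddCommGroup E] [NormedSpace ℝ E] (z : ZMod 2) (v : E) :
    ‖e z • v‖ = ‖v‖ := by
  rw [norm_smul, Real.norm_eq_abs, abs_e, one_mul]

theorem e_smul_mem {E : Type*} [NormedAddCommGroup E] [NormedSpace ℝ E] {V : Set E}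
    (hV : ∀ v ∈ V, -v ∈ V) (z : ZMod 2) {v : E} (hv : v ∈ V) : e z • v ∈ V := by
  rcases z2_cases z with h | h <;> subst h
  · simpa using hv
  · simpa using hV v hv

theorem avg_shift {κ : Type} [Fintype κ] [DecidableEq κ] (x : κ → ZMod 2)
    (φ : (κ → ZMod 2) → ℝ) : avg (fun a => φ (x + a)) = avg φ :=
  avg_bij (fun a => x + a) (add_right_injective x) φ

/-- moving a double average inside two sums and two averages -/
theorem avg_swap {α β γ δ : Type*} [Fintype α] [Fintype β] [Fintype γ] [Fintype δ]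
    (φ : α → β → γ → δ → ℝ) :
    avg (fun a => avg fun b => avg fun c => avg fun d => φ a b c d) =
      avg fun c => avg fun d => avg fun a => avg fun b => φ a b c d := by
  have h1 : ∀ a, avg (fun b => avg fun c => avg fun d => φ a b c d) =
      avg fun c => avg fun d => avg fun b => φ a b c d := by
    intro a
    rw [avg_comm]
    congr 1
    funext c
    rw [avg_comm]
  simp only [h1]
  rw [avg_comm]
  congr 1
  funext c
  rw [avg_comm]

end CORE

open CORE in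
theorem CORE_proof (h0 : Core0Stmt.{u}) : CoreStmt.{u} := by
  intro E₁ E₂ _ _ _ _ B m ℓ ι _ _ V V' a₁ a₂ τ κ Δ N w σ ha₁ ha₂ hH₁ hH₂ hℓ hτ hτ1 hτm hL hΔ hκ hm
    hVV hV Φ hΦ hΨ F G hF
  choose Ψ hΨ using hΨ
  set C : ℝ := (10 * tv w ^ 2 * Δ ^ 2 + 2 * m * tv w * Δ) * a₁ +
    2 ^ (m * m) * tv w ^ 2 * Δ ^ 2 * a₂ with hC
  set P : ℝ := avg fun x => avg fun ξ => e (dot x ξ) * B (F x) (G ξ) with hP
  set NF : ℝ := avg fun x => ‖F x‖ ^ 2 with hNF
  set NG : ℝ := avg fun ξ => ‖G ξ‖ ^ 2 with hNG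
  have hmpos : (0 : ℝ) < m := by exact_mod_cast hm
  -- the estimate for fixed shifts
  have key : ∀ a b : Fin m ⊕ Fin m ⊕ ι → ZMod 2,
      τ * m * |∑ i : Fin m, ∑ j : Fin m, avg fun u : (Fin m → ZMod 2) × (ι → ZMod 2) =>
          avg fun v : (Fin m → ZMod 2) × (ι → ZMod 2) =>
            e (dot (xx j u + a) (xi i v + b)) * B (F (xx j u + a)) (G (xi i v + b))| ≤
        C / 2 * ((∑ j : Fin m, avg fun u : (Fin m → ZMod 2) × (ι → ZMod 2) => ‖F (xx j u + a)‖ ^ 2) +
          ∑ i : Fin m, avg fun v : (Fin m → ZMod 2) × (ι → ZMod 2) => ‖G (xi i v + b)‖ ^ 2) := by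
    intro a b
    have hfV : ∀ (j : Fin m) (u : (Fin m → ZMod 2) × (ι → ZMod 2)),
        e (dot (xx j u) b) • F (xx j u + a) ∈ V := fun j u => e_smul_mem hV _ (hF _)
    have h := h0 E₁ E₂ B m ℓ ι V' a₁ a₂ τ κ Δ N w σ ha₁ ha₂ hH₁ hH₂ hℓ hτ.le hτ1 hτm hL hΔ hκ Φ Ψ
      (fun j u => e (dot (xx j u) b) • F (xx j u + a))
      (fun i v => e (dot a (xi i v + b)) • G (xi i v + b))
      (fun j u => hVV (hfV j u))
      (fun s => (hΦ _ fun j => hfV j _).2 _)
      (fun c => (hΦ _ fun j => hfV j _).1)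
      (fun c => hΨ _) hm
    simp only [norm_e_smul] at h
    convert h using 9 with i _ j _ u v
    rw [← dot_xx_xi, dot_add_left, dot_add_right (xx j u), e_add, e_add]
    simp only [map_smul, LinearMap.smul_apply, smul_eq_mul]
    ring
  -- averaging the left side
  have hL1 : avg (fun a : Fin m ⊕ Fin m ⊕ ι → ZMod 2 => avg fun b : Fin m ⊕ Fin m ⊕ ι → ZMod 2 =>
      ∑ i : Fin m, ∑ j : Fin m, avg fun u : (Fin m → ZMod 2) × (ι → ZMod 2) =>
          avg fun v : (Fin m → ZMod 2) × (ι → ZMod 2) =>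
            e (dot (xx j u + a) (xi i v + b)) * B (F (xx j u + a)) (G (xi i v + b))) =
      m ^ 2 * P := by
    have h1 : ∀ i j : Fin m, avg (fun a : Fin m ⊕ Fin m ⊕ ι → ZMod 2 =>
        avg fun b : Fin m ⊕ Fin m ⊕ ι → ZMod 2 =>
          avg fun u : (Fin m → ZMod 2) × (ι → ZMod 2) =>
            avg fun v : (Fin m → ZMod 2) × (ι → ZMod 2) =>
              e (dot (xx j u + a) (xi i v + b)) * B (F (xx j u + a)) (G (xi i v + b))) = P := by
      intro i j
      rw [avg_swap]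
      have h2 : ∀ u v : (Fin m → ZMod 2) × (ι → ZMod 2),
          avg (fun a : Fin m ⊕ Fin m ⊕ ι → ZMod 2 => avg fun b : Fin m ⊕ Fin m ⊕ ι → ZMod 2 =>
            e (dot (xx j u + a) (xi i v + b)) * B (F (xx j u + a)) (G (xi i v + b))) = P := by
        intro u v
        refine Eq.trans ?_ (avg_shift (xx j u) fun x => avg fun ξ => e (dot x ξ) * B (F x) (G ξ))
        congr 1
        funext a
        exact avg_shift (xi i v) fun ξ => e (dot (xx j u + a) ξ) * B (F (xx j u + a)) (G ξ)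
      simp only [h2, avg_const]
    simp only [avg_sum, h1]
    simp only [sum_const, card_univ, Fintype.card_fin, nsmul_eq_mul]
    ring
  -- averaging the right side
  have hR1 : avg (fun a : Fin m ⊕ Fin m ⊕ ι → ZMod 2 => avg fun b : Fin m ⊕ Fin m ⊕ ι → ZMod 2 =>
      C / 2 * ((∑ j : Fin m, avg fun u : (Fin m → ZMod 2) × (ι → ZMod 2) => ‖F (xx j u + a)‖ ^ 2) +
          ∑ i : Fin m, avg fun v : (Fin m → ZMod 2) × (ι → ZMod 2) => ‖G (xi i v + b)‖ ^ 2)) =
      C / 2 * (m * NF + m * NG) := by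
    have h1 : ∀ j : Fin m, avg (fun a : Fin m ⊕ Fin m ⊕ ι → ZMod 2 =>
        avg fun u : (Fin m → ZMod 2) × (ι → ZMod 2) => ‖F (xx j u + a)‖ ^ 2) = NF := by
      intro j
      rw [avg_comm]
      have h2 : ∀ u : (Fin m → ZMod 2) × (ι → ZMod 2),
          avg (fun a : Fin m ⊕ Fin m ⊕ ι → ZMod 2 => ‖F (xx j u + a)‖ ^ 2) = NF :=
        fun u => avg_shift (xx j u) fun x => ‖F x‖ ^ 2
      simp only [h2, avg_const]
    have h1' : ∀ i : Fin m, avg (fun b : Fin m ⊕ Fin m ⊕ ι → ZMod 2 =>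
        avg fun v : (Fin m → ZMod 2) × (ι → ZMod 2) => ‖G (xi i v + b)‖ ^ 2) = NG := by
      intro i
      rw [avg_comm]
      have h2 : ∀ v : (Fin m → ZMod 2) × (ι → ZMod 2),
          avg (fun b : Fin m ⊕ Fin m ⊕ ι → ZMod 2 => ‖G (xi i v + b)‖ ^ 2) = NG :=
        fun v => avg_shift (xi i v) fun x => ‖G x‖ ^ 2
      simp only [h2, avg_const]
    simp only [avg_mul_left, avg_add, avg_const, avg_sum, h1, h1']
    simp only [sum_const, card_univ, Fintype.card_fin, nsmul_eq_mul]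
  have hmain : τ * m * (m ^ 2 * |P|) ≤ C / 2 * (m * NF + m * NG) := by
    have habs : m ^ 2 * |P| = |(m : ℝ) ^ 2 * P| := by
      rw [abs_mul, abs_of_nonneg (by positivity : (0 : ℝ) ≤ (m : ℝ) ^ 2)]
    rw [habs, ← hL1, ← hR1]
    refine le_trans (mul_le_mul_of_nonneg_left (abs_avg_le _) (by positivity)) ?_
    rw [← avg_mul_left]
    refine avg_le_avg fun a => ?_
    refine le_trans (mul_le_mul_of_nonneg_left (abs_avg_le _) (by positivity)) ?_
    rw [← avg_mul_left]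
    exact avg_le_avg fun b => key a b
  have hpos : 0 < τ * (m : ℝ) ^ 2 := by positivity
  have hfin : |P| * (τ * m ^ 2) ≤ C / 2 * (NF + NG) := by
    have : m * (|P| * (τ * m ^ 2)) ≤ m * (C / 2 * (NF + NG)) := by nlinarith [hmain]
    exact le_of_mul_le_mul_left this hmpos
  rw [show C / (τ * m ^ 2) / 2 * (NF + NG) = C / 2 * (NF + NG) / (τ * m ^ 2) by ring]
  exact (le_div_iff₀ hpos).2 hfin

end Crest.Agent.R118
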