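import Crest.Agent.R118.Defs

set_option autoImplicit false

namespace Crest.Agent.R118

open Finset Crest.AnalysisR

universe u

namespace CORE0

theorem lam_cases {L N : ℕ} {w σ : Fin N → ℝ} (h : LamOK L w σ) (a : ℕ) :
    lam w σ a = 0 ∨ a = 1 ∨ L < a := by
  rcases Nat.lt_or_ge L a with h1 | h1
  · exact Or.inr (Or.inr h1)
  · rcases Nat.lt_or_ge a 2 with h2 | h2
    · interval_cases a
      · exact Or.inl (h.2.2.1 0 (by decide))
      · exact Or.inr (Or.inl rfl)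
    · exact Or.inl (h.2.2.2 a h2 h1)

theorem split {m ℓ N : ℕ} {w σ : Fin N → ℝ} (hℓ : 1 ≤ ℓ) (h : LamOK (2 * ℓ) w σ) (τ : ℝ)
    (T : Mat m → ℝ) :
    ∑ A ∈ univ.filter (fun A : Mat m => wt (rowp A) = 1 ∧ wt (colp A) = 1), coef τ w σ A * T A =
      ∑ A ∈ univ.filter (fun A : Mat m => wt (rowp A) = 1), coef τ w σ A * T A +
      ∑ A ∈ univ.filter (fun A : Mat m => wt (colp A) = 1), coef τ w σ A * T A +
      ∑ A ∈ univ.filter (fun A : Mat m => 2 * ℓ < wt (rowp A) ∧ 2 * ℓ < wt (colp A)),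
        coef τ w σ A * T A - ∑ A : Mat m, coef τ w σ A * T A := by
  simp only [Finset.sum_filter, ← Finset.sum_add_distrib, ← Finset.sum_sub_distrib]
  refine Finset.sum_congr rfl fun A _ => ?_
  rcases lam_cases h (wt (rowp A)) with h1 | h1 | h1
  · simp [coef, h1]
  · rcases lam_cases h (wt (colp A)) with h2 | h2 | h2
    · simp [coef, h2]
    · have : ¬ 2 * ℓ < 1 := by omega
      simp [h1, h2, this]
    · have h3 : ¬ 2 * ℓ < 1 := by omega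
      have h4 : wt (colp A) ≠ 1 := by omega
      simp [h1, h3, h4]
  · have h5 : wt (rowp A) ≠ 1 := by omega
    rcases lam_cases h (wt (colp A)) with h2 | h2 | h2
    · simp [coef, h2]
    · have : ¬ 2 * ℓ < 1 := by omega
      simp [h5, h2, this]
    · have h4 : wt (colp A) ≠ 1 := by omega
      simp [h1, h2, h4, h5]

theorem lifted_norm {E : Type u} [NormedAddCommGroup E] [NormedSpace ℝ E] {m : ℕ} {ι : Type}
    [Fintype ι] [DecidableEq ι] (κ : ℝ) (Φ : (Fin m → E) → (Fin m → ZMod 2) → E)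
    (f : Fin m → (Fin m → ZMod 2) × (ι → ZMod 2) → E)
    (h : ∀ c : Fin m → (Fin m → ZMod 2) × (ι → ZMod 2),
        IsLift κ (fun j => f j (c j)) (Φ fun j => f j (c j))) :
    avg (fun s : Side m ι => ‖lifted Φ f s‖ ^ 2) ≤ κ ^ 2 * ∑ j, avg fun v => ‖f j v‖ ^ 2 := by
  rw [avg_prod]
  have h1 : ∀ p : Mat m, avg (fun b : (Fin m → ι → ZMod 2) × (Fin m → ZMod 2) =>
      ‖lifted Φ f (p, b)‖ ^ 2) ≤
      avg (fun y : Fin m → ι → ZMod 2 => κ ^ 2 * ∑ j, ‖f j (p j, y j)‖ ^ 2) := by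
    intro p
    rw [avg_prod]
    exact avg_le_avg fun y => (h fun j => (p j, y j)).2
  refine (avg_le_avg h1).trans (le_of_eq ?_)
  simp only [avg_mul_left, avg_sum]
  congr 1
  refine Finset.sum_congr rfl fun j _ => ?_
  rw [avg_prod (fun v : (Fin m → ZMod 2) × (ι → ZMod 2) => ‖f j v‖ ^ 2)]
  have h2 : ∀ p : Mat m, avg (fun y : Fin m → ι → ZMod 2 => ‖f j (p j, y j)‖ ^ 2) =
      avg (fun b : ι → ZMod 2 => ‖f j (p j, b)‖ ^ 2) := fun p =>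
    avg_eval j (fun b : ι → ZMod 2 => ‖f j (p j, b)‖ ^ 2)
  simp only [h2]
  exact avg_eval j (fun a : Fin m → ZMod 2 => avg fun b : ι → ZMod 2 => ‖f j (a, b)‖ ^ 2)

end CORE0

theorem CORE0_proof (hF : FullStmt.{u}) (hR : RowStmt.{u}) (hC : ColStmt.{u}) (hO : OneStmt.{u})
    (hRe : RestStmt.{u}) : Core0Stmt.{u} := by
  intro E₁ E₂ _ _ _ _ B m ℓ ι _ _ V a₁ a₂ τ κ Δ N w σ ha₁ ha₂ hH₁ hH₂ hℓ hτ0 hτ1 hτm hL hΔ hκ
    Φ Ψ f g hfV hlV hΦ hΨ hm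
  have hτ : |τ| ≤ 1 := by rw [abs_of_nonneg hτ0]; exact hτ1
  have rΦ : Repro Φ f := fun c j => (hΦ c).1 j
  have rΨ : Repro Ψ g := fun c j => (hΨ c).1 j
  have e1 := hF E₁ E₂ B m ι V a₁ τ (2 * ℓ) N w σ ha₁ hH₁ hτ hL (lifted Φ f) (lifted Ψ g) hlV
  have e2 := hR E₁ E₂ B m ι V a₁ τ Δ (2 * ℓ) N w σ ha₁ hΔ hH₁ hτ hL (lifted Φ f) Ψ g hlV rΨ
  have e3 := hC E₁ E₂ B m ι V a₁ τ Δ⁻¹ (2 * ℓ) N w σ ha₁ (inv_pos.2 hΔ) hH₁ hτ hL (lifted Ψ g) Φ f
    hfV rΦ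
  have e4 := hO E₁ E₂ B m ι τ (2 * ℓ) N w σ hL Φ Ψ f g rΦ rΨ
  have e5 := hRe E₁ E₂ B m ℓ ι V a₁ a₂ τ N w σ ha₁ ha₂ hH₁ hH₂ hτ0 hτ1 hτm hL.1 (lifted Φ f)
    (lifted Ψ g) hlV
  have e6 := CORE0.split hℓ hL τ (fun A => TT B (mono A) (lifted Φ f) (lifted Ψ g))
  have n1 := CORE0.lifted_norm κ Φ f hΦ
  have n2 := CORE0.lifted_norm κ Ψ g hΨ
  rw [e4] at e6
  simp only [← Finset.mul_sum, Finset.sum_add_distrib, Finset.sum_const, Finset.card_univ,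
    Fintype.card_fin, nsmul_eq_mul, div_inv_eq_mul, ← Finset.sum_mul] at e2 e3
  set X := ∑ i, ∑ j, avg fun u : (Fin m → ZMod 2) × (ι → ZMod 2) =>
    avg fun v : (Fin m → ZMod 2) × (ι → ZMod 2) =>
      e (v.1 j + u.1 i + dot u.2 v.2) * B (f j u) (g i v) with hX
  set SF := ∑ j, avg fun v => ‖f j v‖ ^ 2 with hSF
  set SG := ∑ i, avg fun v => ‖g i v‖ ^ 2 with hSG
  set NF := avg (fun s : Side m ι => ‖lifted Φ f s‖ ^ 2) with hNF
  set NG := avg (fun s : Side m ι => ‖lifted Ψ g s‖ ^ 2) with hNG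
  set full := ∑ A : Mat m, coef τ w σ A * TT B (mono A) (lifted Φ f) (lifted Ψ g)
  set row := ∑ A ∈ univ.filter (fun A : Mat m => wt (rowp A) = 1),
    coef τ w σ A * TT B (mono A) (lifted Φ f) (lifted Ψ g)
  set col := ∑ A ∈ univ.filter (fun A : Mat m => wt (colp A) = 1),
    coef τ w σ A * TT B (mono A) (lifted Φ f) (lifted Ψ g)
  set rest := ∑ A ∈ univ.filter (fun A : Mat m => 2 * ℓ < wt (rowp A) ∧ 2 * ℓ < wt (colp A)),
    coef τ w σ A * TT B (mono A) (lifted Φ f) (lifted Ψ g)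
  have hSF0 : 0 ≤ SF := Finset.sum_nonneg fun j _ => avg_nonneg fun v => by positivity
  have hSG0 : 0 ≤ SG := Finset.sum_nonneg fun j _ => avg_nonneg fun v => by positivity
  have htv : 0 ≤ tv w := Finset.sum_nonneg fun l _ => abs_nonneg _
  have hm0 : (0 : ℝ) ≤ m := Nat.cast_nonneg m
  have m1 : m * NF ≤ Δ ^ 2 * SF := by
    calc (m : ℝ) * NF ≤ m * (κ ^ 2 * SF) := mul_le_mul_of_nonneg_left n1 hm0
      _ = (κ ^ 2 * m) * SF := by ring
      _ ≤ Δ ^ 2 * SF := mul_le_mul_of_nonneg_right hκ hSF0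
  have m2 : m * NG ≤ Δ ^ 2 * SG := by
    calc (m : ℝ) * NG ≤ m * (κ ^ 2 * SG) := mul_le_mul_of_nonneg_left n2 hm0
      _ = (κ ^ 2 * m) * SG := by ring
      _ ≤ Δ ^ 2 * SG := mul_le_mul_of_nonneg_right hκ hSG0
  have r1 : m * (NF / Δ) ≤ Δ * SF := by
    rw [← mul_div_assoc, div_le_iff₀ hΔ]; nlinarith
  have r2 : m * (Δ⁻¹ * NG) ≤ Δ * SG := by
    have : (m : ℝ) * (Δ⁻¹ * NG) = m * NG / Δ := by field_simp
    rw [this, div_le_iff₀ hΔ]; nlinarith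
  have k0 : 0 ≤ a₁ / 2 * tv w := by positivity
  have b2 : |row| ≤ a₁ / 2 * tv w * (Δ * (SF + SG)) :=
    e2.trans (mul_le_mul_of_nonneg_left (by linarith) k0)
  have b3 : |col| ≤ a₁ / 2 * tv w * (Δ * (SF + SG)) :=
    e3.trans (mul_le_mul_of_nonneg_left (by linarith) k0)
  have mN : m * (NF + NG) ≤ Δ ^ 2 * (SF + SG) := by linarith
  have b1 : m * |full| ≤ a₁ / 2 * tv w ^ 2 * (Δ ^ 2 * (SF + SG)) := by
    calc (m : ℝ) * |full| ≤ m * (a₁ / 2 * tv w ^ 2 * (NF + NG)) := mul_le_mul_of_nonneg_left e1 hm0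
      _ = a₁ / 2 * tv w ^ 2 * (m * (NF + NG)) := by ring
      _ ≤ _ := mul_le_mul_of_nonneg_left mN (by positivity)
  have b5 : m * |rest| ≤ (9 * a₁ + 2 ^ (m * m) * a₂) / 2 * tv w ^ 2 * (Δ ^ 2 * (SF + SG)) := by
    calc (m : ℝ) * |rest| ≤ m * ((9 * a₁ + 2 ^ (m * m) * a₂) / 2 * tv w ^ 2 * (NF + NG)) :=
          mul_le_mul_of_nonneg_left e5 hm0
      _ = (9 * a₁ + 2 ^ (m * m) * a₂) / 2 * tv w ^ 2 * (m * (NF + NG)) := by ring
      _ ≤ _ := mul_le_mul_of_nonneg_left mN (by positivity)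
  have t1 : τ * |X| ≤ |row| + |col| + |rest| + |full| := by
    rw [← abs_of_nonneg hτ0, ← abs_mul, e6]
    have h1 := abs_sub (row + col + rest) full
    have h2 := abs_add_le (row + col) rest
    have h3 := abs_add_le row col
    linarith
  calc τ * m * |X| = m * (τ * |X|) := by ring
    _ ≤ m * (|row| + |col| + |rest| + |full|) := mul_le_mul_of_nonneg_left t1 hm0
    _ = m * |row| + m * |col| + m * |rest| + m * |full| := by ring
    _ ≤ m * (a₁ / 2 * tv w * (Δ * (SF + SG))) + m * (a₁ / 2 * tv w * (Δ * (SF + SG))) +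
        (9 * a₁ + 2 ^ (m * m) * a₂) / 2 * tv w ^ 2 * (Δ ^ 2 * (SF + SG)) +
        a₁ / 2 * tv w ^ 2 * (Δ ^ 2 * (SF + SG)) := by
        have h1 := mul_le_mul_of_nonneg_left b2 hm0
        have h2 := mul_le_mul_of_nonneg_left b3 hm0
        linarith
    _ = _ := by ring

end Crest.Agent.R118
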