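import Crest.Agent.R118.Defs

/-! Row 118, task COT: cotype `q` gives cotype 2 at a fixed size. -/

set_option autoImplicit false

namespace Crest.Agent.R118

open Finset Crest.AnalysisR

universe u

namespace COT

/-- `0 ↦ true`, `1 ↦ false` -/
def zb : ZMod 2 ≃ Bool where
  toFun z := decide (z = 0)
  invFun b := if b then 0 else 1
  left_inv := by decide
  right_inv := by decide

theorem signVal_zb (z : ZMod 2) : signVal (zb z) = e z := by
  rcases z2_cases z with h | h <;> subst h <;> simp [signVal, zb]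

theorem avg_eq {m : ℕ} (g : (Fin m → Bool) → ℝ) :
    signAverage g = avg fun ε : Fin m → ZMod 2 => g (fun i => zb (ε i)) := by
  have h := avg_equiv (Equiv.piCongrRight fun _ : Fin m => zb) g
  have h2 : avg g = signAverage g := by simp [avg, signAverage]
  rw [← h2, ← h]
  rfl

end COT

theorem COT_proof : CotStmt.{u} := by
  intro Y _ _ q C hq hC m hm y
  have hq0 : 0 < q := by linarith
  have hm0 : (0 : ℝ) < m := by exact_mod_cast hm
  have h1 := hC m y
  rw [COT.avg_eq] at h1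
  simp only [COT.signVal_zb, Real.rpow_two] at h1
  set A := avg fun ε : Fin m → ZMod 2 => ‖∑ j, e (ε j) • y j‖ ^ 2 with hA
  have hA0 : 0 ≤ A := avg_nonneg fun _ => by positivity
  set S := ∑ i, ‖y i‖ ^ q with hS
  have hS0 : 0 ≤ S := Finset.sum_nonneg fun i _ => by positivity
  have h2 := Real.inner_le_weight_mul_Lp_of_nonneg (univ : Finset (Fin m)) (p := q / 2)
    (by linarith) (fun _ => 1) (fun i => ‖y i‖ ^ 2) (fun _ => zero_le_one) (fun _ => by positivity)
  have h3 : ∀ i, (‖y i‖ ^ 2) ^ (q / 2) = ‖y i‖ ^ q := by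
    intro i
    rw [← Real.rpow_two, ← Real.rpow_mul (norm_nonneg _)]
    congr 1
    ring
  simp only [one_mul, h3, sum_const, card_univ, Fintype.card_fin, nsmul_eq_mul, mul_one] at h2
  rw [← hS] at h2
  have h4 : S ^ (q / 2)⁻¹ = (S ^ (1 / q)) ^ 2 := by
    rw [← Real.rpow_two, ← Real.rpow_mul hS0]
    congr 1
    field_simp
  have h5 : (m : ℝ) ^ (1 - (q / 2)⁻¹) = ((m : ℝ) ^ (1 / 2 - 1 / q)) ^ 2 := by
    rw [← Real.rpow_two, ← Real.rpow_mul hm0.le]
    congr 1
    field_simp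
  have h6 : (A ^ (1 / 2 : ℝ)) ^ 2 = A := by
    rw [← Real.rpow_two, ← Real.rpow_mul hA0]
    norm_num
  have h7 : (S ^ (1 / q)) ^ 2 ≤ (C * A ^ (1 / 2 : ℝ)) ^ 2 :=
    pow_le_pow_left₀ (by positivity) h1 2
  rw [mul_pow, h6] at h7
  rw [h4, h5] at h2
  calc _ ≤ _ := h2
    _ ≤ ((m : ℝ) ^ (1 / 2 - 1 / q)) ^ 2 * (C ^ 2 * A) :=
        mul_le_mul_of_nonneg_left h7 (by positivity)
    _ = _ := by
        rw [mul_pow, sq_abs]
        ring

end Crest.Agent.R118
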