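import Crest.Agent.R118.Defs

/-! Row 118, task CPT: the compact set of iterated lifts. -/

set_option autoImplicit false

namespace Crest.Agent.R118

open Finset Crest.AnalysisR Filter Topology

universe u

namespace CPT

variable {X : Type u} [NormedAddCommGroup X] {m : ℕ}

def step (Φ : (Fin m → X) → (Fin m → ZMod 2) → X) (W : Set X) : Set X :=
  W ∪ {x | ∃ v : Fin m → X, (∀ j, v j ∈ W) ∧ ∃ ε, x = Φ v ε ∨ x = -Φ v ε}

def seq (Φ : (Fin m → X) → (Fin m → ZMod 2) → X) (V₀ : Set X) : ℕ → Set X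
  | 0 => V₀
  | k + 1 => step Φ (seq Φ V₀ k)

theorem step_finite (Φ : (Fin m → X) → (Fin m → ZMod 2) → X) {W : Set X} (hW : W.Finite) :
    (step Φ W).Finite := by
  have h1 : {v : Fin m → X | ∀ j, v j ∈ W}.Finite := Set.Finite.pi' fun _ => hW
  have h2 : ({v : Fin m → X | ∀ j, v j ∈ W} ×ˢ (Set.univ : Set (Fin m → ZMod 2))).Finite :=
    h1.prod Set.finite_univ
  refine hW.union (((h2.image fun p => Φ p.1 p.2).union (h2.image fun p => -Φ p.1 p.2)).subset ?_)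
  rintro x ⟨v, hv, ε, h | h⟩
  · exact Or.inl ⟨(v, ε), ⟨hv, trivial⟩, h.symm⟩
  · exact Or.inr ⟨(v, ε), ⟨hv, trivial⟩, h.symm⟩

theorem seq_finite (Φ : (Fin m → X) → (Fin m → ZMod 2) → X) {V₀ : Set X} (h : V₀.Finite) :
    ∀ k, (seq Φ V₀ k).Finite
  | 0 => h
  | k + 1 => step_finite Φ (seq_finite Φ h k)

theorem seq_neg (Φ : (Fin m → X) → (Fin m → ZMod 2) → X) {V₀ : Set X}
    (h : ∀ v ∈ V₀, -v ∈ V₀) : ∀ k, ∀ v ∈ seq Φ V₀ k, -v ∈ seq Φ V₀ k
  | 0 => h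
  | k + 1 => by
    rintro x (hx | ⟨v, hv, ε, hx | hx⟩)
    · exact Or.inl (seq_neg Φ h k x hx)
    · exact Or.inr ⟨v, hv, ε, Or.inr (by rw [hx])⟩
    · exact Or.inr ⟨v, hv, ε, Or.inl (by rw [hx, neg_neg])⟩

theorem norm_pt [NormedSpace ℝ X] (k : ℕ) (v : X) :
    ‖((2 : ℝ) ^ k * ‖v‖)⁻¹ • v‖ ≤ (1 / 2) ^ k := by
  rw [norm_smul, norm_inv, Real.norm_of_nonneg (by positivity)]
  rcases eq_or_ne v 0 with rfl | hv
  · simp
  · have : ‖v‖ ≠ 0 := norm_ne_zero_iff.2 hv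
    apply le_of_eq
    rw [one_div, inv_pow]
    field_simp

theorem compact [NormedSpace ℝ X] (V : ℕ → Set X) (hV : ∀ k, (V k).Finite) :
    IsCompact (insert (0 : X) (Set.range fun p : {p : ℕ × X // p.2 ∈ V p.1} =>
      ((2 : ℝ) ^ p.1.1 * ‖p.1.2‖)⁻¹ • p.1.2)) := by
  apply Filter.Tendsto.isCompact_insert_range_of_cofinite
  rw [Metric.tendsto_nhds]
  intro ε hε
  obtain ⟨K, hK⟩ := exists_pow_lt_of_lt_one hε (show (1 / 2 : ℝ) < 1 by norm_num)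
  rw [Filter.eventually_cofinite]
  have h1 : (⋃ k ∈ Set.Iio K, ({k} : Set ℕ) ×ˢ V k).Finite :=
    (Set.finite_Iio K).biUnion fun k _ => (Set.finite_singleton k).prod (hV k)
  refine (h1.preimage (f := fun p : {p : ℕ × X // p.2 ∈ V p.1} => p.1)
    Subtype.val_injective.injOn).subset ?_
  intro p hp
  simp only [Set.mem_ofPred_eq, dist_zero_right, not_lt] at hp
  have h2 := norm_pt p.1.1 p.1.2
  have h3 : p.1.1 < K := by
    by_contra hc
    have h4 : (1 / 2 : ℝ) ^ p.1.1 ≤ (1 / 2) ^ K :=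
      pow_le_pow_of_le_one (by norm_num) (by norm_num) (not_lt.1 hc)
    linarith
  simp only [Set.mem_preimage, Set.mem_iUnion]
  exact ⟨p.1.1, h3, rfl, p.2⟩

end CPT

theorem CPT_proof : CptStmt.{u} := by
  intro X _ _ hAP m Φ V₀ hfin hneg
  refine ⟨CPT.seq Φ V₀, rfl, fun k => Set.subset_union_left, CPT.seq_neg Φ hneg,
    fun k v hv ε => Or.inr ⟨v, hv, ε, Or.inl rfl⟩, fun δ hδ => ?_⟩
  obtain ⟨S, hS, hM⟩ := hAP _ (CPT.compact _ (CPT.seq_finite Φ hfin)) (min δ 1)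
    (lt_min hδ one_pos)
  have key : ∀ k, ∀ v ∈ CPT.seq Φ V₀ k, ‖S v - v‖ ≤ 2 ^ k * ‖v‖ * min δ 1 := by
    intro k v hv
    rcases eq_or_ne v 0 with rfl | hv0
    · simp
    · have h0 : 0 < ‖v‖ := norm_pos_iff.2 hv0
      have h1 := hM _ (Or.inr ⟨⟨(k, v), hv⟩, rfl⟩)
      simp only [map_smul] at h1
      rw [← smul_sub, norm_smul, norm_inv, Real.norm_of_nonneg (by positivity),
        inv_mul_lt_iff₀ (by positivity)] at h1
      exact h1.le
  refine ⟨S, hS, fun k v hv => ?_, fun v hv => ?_⟩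
  · have h1 := key k v hv
    have h2 : ‖S v‖ ≤ ‖S v - v‖ + ‖v‖ := by
      simpa using norm_add_le (S v - v) v
    have h3 : (1 : ℝ) ≤ 2 ^ k := one_le_pow₀ (by norm_num)
    have h4 : 2 ^ k * ‖v‖ * min δ 1 ≤ 2 ^ k * ‖v‖ * 1 :=
      mul_le_mul_of_nonneg_left (min_le_right _ _) (by positivity)
    have h5 : 1 * ‖v‖ ≤ 2 ^ k * ‖v‖ := mul_le_mul_of_nonneg_right h3 (norm_nonneg _)
    linarith
  · have h1 := key 0 v hv
    rw [norm_sub_rev]
    have h4 : ‖v‖ * min δ 1 ≤ ‖v‖ * δ :=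
      mul_le_mul_of_nonneg_left (min_le_left _ _) (norm_nonneg _)
    simp only [pow_zero, one_mul] at h1
    linarith

end Crest.Agent.R118
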