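import Crest.Agent.R118.Defs

set_option autoImplicit false

namespace Crest.Agent.R118

open Finset Crest.AnalysisR

universe u

theorem Cot2.mono {Y : Type*} [NormedAddCommGroup Y] [NormedSpace ℝ Y] {m : ℕ} {k k' : ℝ}
    (h : Cot2 Y m k) (h0 : 0 ≤ k) (hk : k ≤ k') : Cot2 Y m k' := by
  intro y
  refine (h y).trans (mul_le_mul_of_nonneg_right (by gcongr) (avg_nonneg fun _ => by positivity))

theorem DECAY_proof (hPar : ParStmt) (hCot : CotStmt.{u}) (hL1 : Lift1Stmt.{u})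
    (hL2 : Lift2Stmt.{u}) (hCore : CoreStmt.{u}) (hTriv : TrivStmt.{u}) (hFinr : FinrStmt.{u})
    (hBoot : BootStmt) (hCpt : CptStmt.{u}) : DecayStmt.{u} := by
  intro X _ _ hAP q r C D hq hr hX hX'
  obtain ⟨m, ℓ, N, τ, κ, Δ, w, σ, hm, hℓ, hτ0, hτ1, hτm, hLam, hκ, hΔ, hκΔ, hη, hCκ, hDκ⟩ :=
    hPar q r C D hq hr
  have hm0 : (0 : ℝ) < m := by exact_mod_cast hm
  have hc1 : Cot2 X m κ := (hCot X q C hq hX m hm).mono (by positivity) hCκ
  have hc2 : Cot2 (StrongDual ℝ X) m κ := (hCot _ r D hr hX' m hm).mono (by positivity) hDκ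
  have hl1 := hL1 X m κ hκ hc1
  have hl2 := hL2 X m κ hκ hc2
  choose Φ hΦ using hl2
  set M : ℝ := 2 ^ (m * m) * tv w ^ 2 * Δ ^ 2 / (τ * m ^ 2) with hMdef
  have hM : 0 ≤ M := by positivity
  obtain ⟨lam0, C0, h1, h2, hC0, hboot⟩ := hBoot m M hm hM
  refine ⟨lam0, C0 * 2, h1, by positivity, fun n F G _ => ?_⟩
  set V₀ : Set X := Set.range F ∪ Set.range fun x => -F x with hV₀
  have hfin : V₀.Finite := (Set.finite_range _).union (Set.finite_range _)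
  have hneg : ∀ v ∈ V₀, -v ∈ V₀ := by
    rintro v (⟨x, rfl⟩ | ⟨x, rfl⟩)
    · exact Or.inr ⟨x, rfl⟩
    · exact Or.inl ⟨x, by simp⟩
  obtain ⟨V, hV0, hVsub, hVneg, hVΦ, hS⟩ := hCpt X hAP m Φ V₀ hfin hneg
  suffices h : Had (pairB (ContinuousLinearMap.id ℝ X)) (Fin n) V₀ (C0 * 2 / lam0 ^ n) from
    h F G fun x => Or.inl ⟨x, rfl⟩
  refine (hTriv X (StrongDual ℝ X) (Fin n) V₀).2.1 _ _ fun δ hδ => ?_
  obtain ⟨S, hSfin, hSb, hSa⟩ := hS δ hδ
  obtain ⟨d, hd0, hd⟩ := hFinr X S hSfin lam0 h1.le h2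
  have hmain : Had (pairB S) (Fin n) (V 0) (C0 * 2 / lam0 ^ n) := by
    refine hboot (fun k n a => Had (pairB S) (Fin n) (V k) a) 2 d (by norm_num) hd0 ?_ ?_ ?_ ?_ ?_ n
    · intro k n a b h hab
      exact (hTriv X (StrongDual ℝ X) (Fin n) (V k)).1 _ _ _ h hab
    · intro k n a h
      exact (hTriv X (StrongDual ℝ X) (Fin n) (V k)).2.1 _ _ h
    · intro k n
      refine (hTriv X (StrongDual ℝ X) (Fin n) (V k)).2.2.1 _ _ (by positivity) fun v hv ξ => ?_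
      rw [pairB_apply, ← Real.norm_eq_abs]
      calc ‖ξ (S v)‖ ≤ ‖ξ‖ * ‖S v‖ := ξ.le_opNorm _
        _ ≤ ‖ξ‖ * (2 ^ k * 2 * ‖v‖) := by gcongr; exact hSb k v hv
        _ = _ := by ring
    · intro k n F G _
      exact hd n F G fun _ => Set.mem_univ _
    · intro k n a₁ a₂ ha₁ ha₂ hh₁ hh₂
      have hh₂' : Had (pairB S) (Fin n ⊕ Fin n) (V (k + 1)) a₂ :=
        (hTriv X (StrongDual ℝ X) (Fin (n + n)) (V (k + 1))).2.2.2.2 _ _ (Fin n ⊕ Fin n)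
          (by simp) hh₂
      have hc := hCore X (StrongDual ℝ X) (pairB S) m ℓ (Fin n) (V k) (V (k + 1)) a₁ a₂ τ (2 * κ) Δ
        N w σ ha₁ ha₂ hh₁ hh₂' hℓ hτ0 hτ1 hτm hLam hΔ hκΔ hm (hVsub k) (hVneg k) Φ
        (fun v hv => ⟨hΦ v, hVΦ k v hv⟩) hl1
      have hc' := (hTriv X (StrongDual ℝ X) (Fin m ⊕ Fin m ⊕ Fin n) (V k)).2.2.2.2 _ _
        (Fin (n + 2 * m)) (by simp; ring) hc
      refine (hTriv X (StrongDual ℝ X) (Fin (n + 2 * m)) (V k)).1 _ _ _ hc' ?_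
      have hpos : 0 < τ * (m : ℝ) ^ 2 := by positivity
      rw [add_div, hMdef]
      refine add_le_add ?_ (le_of_eq (by ring))
      rw [div_le_iff₀ hpos]
      nlinarith [mul_le_mul_of_nonneg_right hη ha₁]
  have hdiff : Had (pairB (ContinuousLinearMap.id ℝ X - S)) (Fin n) V₀ δ := by
    refine (hTriv X (StrongDual ℝ X) (Fin n) V₀).2.2.1 _ _ hδ.le fun v hv ξ => ?_
    rw [pairB_apply, ← Real.norm_eq_abs]
    calc ‖ξ ((ContinuousLinearMap.id ℝ X - S) v)‖ ≤ ‖ξ‖ * ‖v - S v‖ := ξ.le_opNorm _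
      _ ≤ ‖ξ‖ * (δ * ‖v‖) := by gcongr; exact hSa v hv
      _ = _ := by ring
  rw [hV0] at hmain
  have hsum := (hTriv X (StrongDual ℝ X) (Fin n) V₀).2.2.2.1 _ _ _ _ hmain hdiff
  have heq : pairB S + pairB (ContinuousLinearMap.id ℝ X - S) =
      pairB (ContinuousLinearMap.id ℝ X) := by
    ext x ξ
    simp
  rwa [heq] at hsum

theorem MAIN_of (hDec : DecayStmt.{u}) (hT : WaltStmt.{u}) (hH : WalhStmt.{u}) (hR : WalrStmt.{u})
    (hM : WalmStmt.{u}) (h1 : Kat1Stmt.{u}) (h2 : Kat2Stmt.{u}) (h3 : Kat3Stmt.{u})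
    (hC : ConvStmt.{u}) (hTriv : TrivStmt.{u})
    (X : Type u) [NormedAddCommGroup X] [NormedSpace ℝ X]
    (hAP : HasApproximationProperty X) (q r C D : ℝ) (hq : 2 ≤ q) (hr : 2 ≤ r)
    (hX : HasRademacherCotype X q C) (hX' : HasRademacherCotype (StrongDual ℝ X) r D) :
    IsKConvex X := by
  obtain ⟨lam0, C', hl, hC', hdec⟩ := hDec X hAP q r C D hq hr hX hX'
  have hl0 : 0 < lam0 := by linarith
  have hμ : 4 / lam0 < 4 := by rw [div_lt_iff₀ hl0]; linarith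
  obtain ⟨C₁, hC₁, hk1⟩ := h1 (C' + 1) (4 / lam0) (by positivity) (by positivity) hμ
  obtain ⟨B, hB, hk2⟩ := h2 C₁ hC₁
  obtain ⟨κ, hκ, hk3⟩ := h3 B hB
  refine hC X κ fun s => ?_
  obtain ⟨M, hfin, hiff⟩ := hM X s
  have hexp : ∀ (t : ℝ) (k : ℕ), Real.exp (-(t * k)) = Real.exp (-t) ^ k := by
    intro t k
    rw [← Real.exp_nat_mul]
    congr 1
    ring
  have hsg : SgM M := by
    intro t ht
    rw [← hiff _ 1 zero_le_one]
    simp only [hexp]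
    exact (hT X s).1 _ (Real.exp_pos _).le (Real.exp_le_one_iff.2 (by linarith))
  have hpow : ∀ t : ℝ, 0 ≤ t → ∀ n : ℕ,
      ‖M fun k => (1 - 3 * Real.exp (-(t * k))) ^ n‖ ≤ (C' + 1) * (4 / lam0) ^ n := by
    intro t ht n
    rw [← hiff _ _ (by positivity)]
    simp only [hexp]
    have ha : 0 < (C' + 1) / lam0 ^ n := by positivity
    have hhad := (hTriv X (StrongDual ℝ X) (Fin n) Set.univ).1 _ _ ((C' + 1) / lam0 ^ n) (hdec n)
      (by gcongr; linarith)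
    have := hR X s n _ (hH X s n _ ha hhad) (Real.exp (-t)) (Real.exp_pos _).le
      (Real.exp_le_one_iff.2 (by linarith))
    have he : (4 : ℝ) ^ n * ((C' + 1) / lam0 ^ n) = (C' + 1) * (4 / lam0) ^ n := by
      rw [div_pow]; ring
    rwa [he] at this
  obtain ⟨ha, hb⟩ := hk1 _ M hfin hsg hpow
  exact (hiff _ κ hκ).2 (hk3 _ M hfin hsg (hk2 _ M hfin hsg ha hb))

end Crest.Agent.R118
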