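import Mathlib
import Crest.Prelude.Def_Rademacher

/-!
# Row 118 (S0158): cotype + dual cotype + AP imply K-convexity.  Definitions and task statements.

Overview.  `Had B ι V a`: Walsh–Hadamard pairing constant of the bilinear form `B` on `F_2^ι`.
CORE: lifts on both sides give `a(n+2m) ≤ a(n)/16 + M a(2n)`.  BOOT + finite rank + AP give a uniform
exponential decay `a(n) ≤ C λ^(-n)` for the identity.  WALH/WALR turn this into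
`‖(1-3T_t)^n‖ ≤ C μ^n`, `μ < 4`, and KAT1-3 (Kato's argument) bound the degree-one projection.
-/

set_option autoImplicit false

namespace Crest.Agent.R118

open Finset Crest.AnalysisR

universe u

/-- the sign character of `ZMod 2` -/
def e (z : ZMod 2) : ℝ := if z = 0 then 1 else -1

def dot {ι : Type*} [Fintype ι] (x y : ι → ZMod 2) : ZMod 2 := ∑ i, x i * y i

/-- uniform average over a finite type -/
noncomputable def avg {α : Type*} [Fintype α] (f : α → ℝ) : ℝ :=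
  (Fintype.card α : ℝ)⁻¹ * ∑ a, f a

/-- Hamming weight -/
def wt {ι : Type*} [Fintype ι] (x : ι → ZMod 2) : ℕ := (univ.filter fun i => x i ≠ 0).card

/-! ### basic lemmas (proved here, use freely) -/

theorem z2_cases (z : ZMod 2) : z = 0 ∨ z = 1 := by
  fin_cases z
  · left; rfl
  · right; rfl

theorem z2_add_self (z : ZMod 2) : z + z = 0 := by
  rcases z2_cases z with h | h <;> subst h <;> decide

@[simp] theorem e_zero : e 0 = 1 := by simp [e]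
@[simp] theorem e_one : e 1 = -1 := by simp [e]

theorem e_add (a b : ZMod 2) : e (a + b) = e a * e b := by
  rcases z2_cases a with h | h <;> rcases z2_cases b with h' | h' <;> subst h <;> subst h' <;>
    simp [z2_add_self]

theorem e_mul_self (a : ZMod 2) : e a * e a = 1 := by
  rcases z2_cases a with h | h <;> subst h <;> simp

theorem abs_e (a : ZMod 2) : |e a| = 1 := by
  rcases z2_cases a with h | h <;> subst h <;> simp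

theorem e_sum {ι : Type*} (s : Finset ι) (f : ι → ZMod 2) : e (∑ i ∈ s, f i) = ∏ i ∈ s, e (f i) := by
  classical
  induction s using Finset.induction_on with
  | empty => simp
  | insert a s ha ih => rw [sum_insert ha, prod_insert ha, e_add, ih]

theorem dot_comm {ι : Type*} [Fintype ι] (x y : ι → ZMod 2) : dot x y = dot y x := by
  simp [dot, mul_comm]

theorem dot_add_left {ι : Type*} [Fintype ι] (x x' y : ι → ZMod 2) :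
    dot (x + x') y = dot x y + dot x' y := by
  simp [dot, add_mul, sum_add_distrib]

theorem dot_add_right {ι : Type*} [Fintype ι] (x y y' : ι → ZMod 2) :
    dot x (y + y') = dot x y + dot x y' := by
  simp [dot, mul_add, sum_add_distrib]

theorem avg_equiv {α β : Type*} [Fintype α] [Fintype β] (σ : α ≃ β) (f : β → ℝ) :
    avg (fun a => f (σ a)) = avg f := by
  unfold avg
  rw [Fintype.card_congr σ, Equiv.sum_comp σ f]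

theorem avg_bij {α : Type*} [Fintype α] (σ : α → α) (hσ : Function.Injective σ) (f : α → ℝ) :
    avg (fun a => f (σ a)) = avg f :=
  avg_equiv (Equiv.ofBijective σ (Finite.injective_iff_bijective.1 hσ)) f

theorem avg_comm {α β : Type*} [Fintype α] [Fintype β] (f : α → β → ℝ) :
    avg (fun a => avg fun b => f a b) = avg fun b => avg fun a => f a b := by
  simp only [avg, mul_sum]
  rw [sum_comm]
  refine sum_congr rfl fun _ _ => sum_congr rfl fun _ _ => by ring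

theorem avg_prod {α β : Type*} [Fintype α] [Fintype β] (f : α × β → ℝ) :
    avg f = avg fun a => avg fun b => f (a, b) := by
  simp only [avg, Fintype.card_prod, Nat.cast_mul, mul_inv, Fintype.sum_prod_type, mul_sum]
  refine sum_congr rfl fun _ _ => sum_congr rfl fun _ _ => by ring

theorem avg_const {α : Type*} [Fintype α] [Nonempty α] (c : ℝ) : avg (fun _ : α => c) = c := by
  have : (Fintype.card α : ℝ) ≠ 0 := by exact_mod_cast Fintype.card_ne_zero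
  simp only [avg, sum_const, card_univ, nsmul_eq_mul]
  field_simp

theorem avg_le_avg {α : Type*} [Fintype α] {f g : α → ℝ} (h : ∀ a, f a ≤ g a) : avg f ≤ avg g :=
  mul_le_mul_of_nonneg_left (sum_le_sum fun a _ => h a) (by positivity)

theorem avg_nonneg {α : Type*} [Fintype α] {f : α → ℝ} (h : ∀ a, 0 ≤ f a) : 0 ≤ avg f :=
  mul_nonneg (by positivity) (sum_nonneg fun a _ => h a)

theorem abs_avg_le {α : Type*} [Fintype α] (f : α → ℝ) : |avg f| ≤ avg fun a => |f a| := by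
  unfold avg
  rw [abs_mul, abs_of_nonneg (by positivity : (0 : ℝ) ≤ (Fintype.card α : ℝ)⁻¹)]
  exact mul_le_mul_of_nonneg_left (abs_sum_le_sum_abs _ _) (by positivity)

theorem avg_add {α : Type*} [Fintype α] (f g : α → ℝ) :
    avg (fun a => f a + g a) = avg f + avg g := by
  simp [avg, sum_add_distrib, mul_add]

theorem avg_mul_left {α : Type*} [Fintype α] (c : ℝ) (f : α → ℝ) :
    avg (fun a => c * f a) = c * avg f := by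
  simp only [avg, ← mul_sum]; ring

theorem avg_mul_right {α : Type*} [Fintype α] (c : ℝ) (f : α → ℝ) :
    avg (fun a => f a * c) = avg f * c := by
  simp only [avg, ← sum_mul]; ring

theorem avg_sum {α β : Type*} [Fintype α] (s : Finset β) (f : β → α → ℝ) :
    avg (fun a => ∑ b ∈ s, f b a) = ∑ b ∈ s, avg (f b) := by
  simp only [avg, mul_sum]
  rw [sum_comm]

/-- average of a function of one coordinate of a product -/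
theorem avg_eval {ι β : Type*} [Fintype ι] [DecidableEq ι] [Fintype β] [Nonempty β] (i : ι)
    (f : β → ℝ) : avg (fun x : ι → β => f (x i)) = avg f := by
  rw [← avg_equiv (Equiv.piSplitAt i fun _ => β).symm, avg_prod]
  simp only [Equiv.piSplitAt_symm_apply, dite_true, avg_const]

/-- orthogonality of characters -/
theorem avg_e_dot {ι : Type*} [Fintype ι] [DecidableEq ι] (x : ι → ZMod 2) :
    avg (fun y : ι → ZMod 2 => e (dot x y)) = if x = 0 then 1 else 0 := by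
  split_ifs with h
  · subst h; simp [dot, avg_const]
  · obtain ⟨i, hi⟩ := Function.ne_iff.1 h
    have hi1 : x i = 1 := (z2_cases (x i)).resolve_left hi
    have h1 : avg (fun y : ι → ZMod 2 => e (dot x (y + Pi.single i 1))) =
        avg fun y : ι → ZMod 2 => e (dot x y) :=
      avg_bij (fun y => y + Pi.single i 1) (add_left_injective _) (fun y => e (dot x y))
    have h2 : dot x (Pi.single i 1) = 1 := by
      simp [dot, Pi.single_apply, hi1]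
    simp only [dot_add_right, e_add, h2, e_one, avg_mul_right] at h1
    linarith

/-! ### the Hadamard constant, lifts, cotype at one size -/

section defs
variable {E₁ E₂ : Type*} [NormedAddCommGroup E₁] [NormedSpace ℝ E₁]
  [NormedAddCommGroup E₂] [NormedSpace ℝ E₂]

/-- Walsh–Hadamard pairing bound (AM–GM form) for `V`-valued `F` and arbitrary `G`. -/
def Had (B : E₁ →ₗ[ℝ] E₂ →ₗ[ℝ] ℝ) (ι : Type) [Fintype ι] [DecidableEq ι] (V : Set E₁) (a : ℝ) :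
    Prop :=
  ∀ (F : (ι → ZMod 2) → E₁) (G : (ι → ZMod 2) → E₂), (∀ x, F x ∈ V) →
    |avg fun x => avg fun ξ => e (dot x ξ) * B (F x) (G ξ)| ≤
      a / 2 * (avg (fun x => ‖F x‖ ^ 2) + avg fun ξ => ‖G ξ‖ ^ 2)

/-- `Φ` has degree-one coefficients `v` and small `L²` norm -/
def IsLift {m : ℕ} (κ : ℝ) (v : Fin m → E₁) (Φ : (Fin m → ZMod 2) → E₁) : Prop :=
  (∀ j, ∑ ε, e (ε j) • Φ ε = (2 : ℝ) ^ m • v j) ∧
    avg (fun ε => ‖Φ ε‖ ^ 2) ≤ κ ^ 2 * ∑ j, ‖v j‖ ^ 2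

def HasLift (E : Type*) [NormedAddCommGroup E] [NormedSpace ℝ E] (m : ℕ) (κ : ℝ) : Prop :=
  ∀ v : Fin m → E, ∃ Φ : (Fin m → ZMod 2) → E, IsLift κ v Φ

/-- cotype 2 for `m` vectors with constant `κ` -/
def Cot2 (E : Type*) [NormedAddCommGroup E] [NormedSpace ℝ E] (m : ℕ) (κ : ℝ) : Prop :=
  ∀ y : Fin m → E,
    ∑ j, ‖y j‖ ^ 2 ≤ κ ^ 2 * avg fun ε : Fin m → ZMod 2 => ‖∑ j, e (ε j) • y j‖ ^ 2

/-- `m × m` matrices over `ZMod 2` (row index `i` = functional side, column index `j` = vector side) -/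
abbrev Mat (m : ℕ) := Fin m → Fin m → ZMod 2

/-- the variables of one side: `(p, y, ε')` on the vector side, `(q, η, ε)` on the functional side -/
abbrev Side (m : ℕ) (ι : Type) := Mat m × (Fin m → ι → ZMod 2) × (Fin m → ZMod 2)

/-- `S i j = q i j + p j i + <y j, η i>` -/
def SS {m : ℕ} {ι : Type} [Fintype ι] (s₁ s₂ : Side m ι) : Mat m :=
  fun i j => s₂.1 i j + s₁.1 j i + dot (s₁.2.1 j) (s₂.2.1 i)

/-- test pairing with a kernel `K S ε ε'` (`ε` functional-side signs, `ε'` vector-side signs) -/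
noncomputable def TT (B : E₁ →ₗ[ℝ] E₂ →ₗ[ℝ] ℝ) {m : ℕ} {ι : Type} [Fintype ι] [DecidableEq ι]
    (K : Mat m → (Fin m → ZMod 2) → (Fin m → ZMod 2) → ℝ)
    (Ft : Side m ι → E₁) (Gt : Side m ι → E₂) : ℝ :=
  avg fun s₁ : Side m ι => avg fun s₂ : Side m ι =>
    K (SS s₁ s₂) s₂.2.2 s₁.2.2 * B (Ft s₁) (Gt s₂)

def rowp {m : ℕ} (A : Mat m) : Fin m → ZMod 2 := fun i => ∑ j, A i j
def colp {m : ℕ} (A : Mat m) : Fin m → ZMod 2 := fun j => ∑ i, A i j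
def wt2 {m : ℕ} (A : Mat m) : ℕ := ∑ i, wt (A i)

/-- the character attached to `A` -/
def mono {m : ℕ} (A : Mat m) (S : Mat m) (ε ε' : Fin m → ZMod 2) : ℝ :=
  e ((∑ i, dot (A i) (S i)) + dot (rowp A) ε + dot (colp A) ε')

/-- moments of the finite signed measure `∑ w l δ_(σ l)` -/
def lam {N : ℕ} (w σ : Fin N → ℝ) (a : ℕ) : ℝ := ∑ l, w l * σ l ^ a

def LamOK (L : ℕ) {N : ℕ} (w σ : Fin N → ℝ) : Prop :=
  (∀ l, |σ l| ≤ 1) ∧ lam w σ 1 = 1 ∧ (∀ a, Even a → lam w σ a = 0) ∧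
    ∀ a, 2 ≤ a → a ≤ L → lam w σ a = 0

/-- total variation -/
def tv {N : ℕ} (w : Fin N → ℝ) : ℝ := ∑ l, |w l|

noncomputable def coef {m N : ℕ} (τ : ℝ) (w σ : Fin N → ℝ) (A : Mat m) : ℝ :=
  τ ^ wt2 A * lam w σ (wt (rowp A)) * lam w σ (wt (colp A))

/-- the lifted function built from base functions `f j (p j, y j)` and a lift chooser `Φ` -/
def lifted {E : Type*} {m : ℕ} {ι : Type} (Φ : (Fin m → E) → (Fin m → ZMod 2) → E)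
    (f : Fin m → (Fin m → ZMod 2) × (ι → ZMod 2) → E) (s : Side m ι) : E :=
  Φ (fun j => f j (s.1 j, s.2.1 j)) s.2.2

/-- `Φ` reproduces the degree-one coefficients on all tuples that occur -/
def Repro {E : Type*} [AddCommGroup E] [Module ℝ E] {m : ℕ} {ι : Type}
    (Φ : (Fin m → E) → (Fin m → ZMod 2) → E)
    (f : Fin m → (Fin m → ZMod 2) × (ι → ZMod 2) → E) : Prop :=
  ∀ (c : Fin m → (Fin m → ZMod 2) × (ι → ZMod 2)) (j : Fin m),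
    ∑ ε, e (ε j) • Φ (fun j => f j (c j)) ε = (2 : ℝ) ^ m • f j (c j)

/-- `A` is a rectangle `I × J` -/
def IsRect {m : ℕ} (A : Mat m) : Prop :=
  ∀ i₁ j₁ i₂ j₂, A i₁ j₁ ≠ 0 → A i₂ j₂ ≠ 0 → A i₁ j₂ ≠ 0

end defs

/-- `(x, ξ) ↦ ξ (S x)` -/
noncomputable def pairB {X : Type*} [NormedAddCommGroup X] [NormedSpace ℝ X] (S : X →L[ℝ] X) :
    X →ₗ[ℝ] StrongDual ℝ X →ₗ[ℝ] ℝ :=
  LinearMap.mk₂ ℝ (fun x ξ => ξ (S x)) (by intros; simp) (by intros; simp) (by intros; simp)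
    (by intros; simp)

@[simp] theorem pairB_apply {X : Type*} [NormedAddCommGroup X] [NormedSpace ℝ X] (S : X →L[ℝ] X)
    (x : X) (ξ : StrongDual ℝ X) : pairB S x ξ = ξ (S x) := rfl

/-- Walsh multiplier with symbol `g` -/
noncomputable def kop {X : Type*} [AddCommGroup X] [Module ℝ X] {s : ℕ}
    (g : (Fin s → ZMod 2) → ℝ) (f : (Fin s → ZMod 2) → X) (ω : Fin s → ZMod 2) : X :=
  ((2 : ℝ) ^ s)⁻¹ • ∑ η, (∑ A, g A * e (dot A (ω + η))) • f η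

/-- the multiplier `g` has `L²(X)` norm at most `c` -/
def KB (X : Type*) [NormedAddCommGroup X] [NormedSpace ℝ X] {s : ℕ}
    (g : (Fin s → ZMod 2) → ℝ) (c : ℝ) : Prop :=
  ∀ f : (Fin s → ZMod 2) → X, ∑ ω, ‖kop g f ω‖ ^ 2 ≤ c ^ 2 * ∑ ω, ‖f ω‖ ^ 2

/-- symbol of the conditional expectation averaging the coordinates in `B` -/
def ind {s : ℕ} (B : Finset (Fin s)) (A : Fin s → ZMod 2) : ℝ := if ∀ i ∈ B, A i = 0 then 1 else 0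

/-- `M` only sees finitely many values -/
def FinM {R : Type*} [NormedRing R] [NormedAlgebra ℝ R] (M : (ℕ → ℝ) →ₐ[ℝ] R) : Prop :=
  ∃ N : ℕ, ∀ g : ℕ → ℝ, M g = ∑ k ∈ range N, g k • M (Pi.single k 1)

/-- contraction semigroup -/
def SgM {R : Type*} [NormedRing R] [NormedAlgebra ℝ R] (M : (ℕ → ℝ) →ₐ[ℝ] R) : Prop :=
  ∀ t : ℝ, 0 ≤ t → ‖M fun k => Real.exp (-(t * k))‖ ≤ 1

/-! ### task statements -/

/-- GEN.  For fixed `h h'` the map `(p,y,ε'),(q,η,ε) ↦ (p j i + <Δy h j, η i>, y + Δy h, ε'),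
(q i j + <y j, Δη h' i>, η + Δη h', ε)` is a bijection of `Side × Side` (injective: triangular) and
`SS` changes by `<Δy h j, Δη h' i>` (char 2).  So `TT = avg_ω K(SS ω) avg_h avg_h' e(dot h h') B (F_ω h) (G_ω h')`
with `F_ω h = Ft (T¹_h ω)` (depends on `ω, h` only), `G_ω h' = Gt (T²_h' ω)`.  Apply `Had` to `F_ω` and
`c • G_ω` and divide by `c`.  Finally `avg_ω |K(SS ω)| ‖Ft (T¹_h ω)‖² ≤ W avg ‖Ft‖²`: average over `q`
first (shift invariance, `T¹_h ω` does not involve `q`), then `(p,y,ε') ↦ T¹_h` is a bijection for fixed `η`;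
same on the other side averaging over `p`. -/
def GenStmt : Prop :=
  ∀ (E₁ E₂ : Type u) [NormedAddCommGroup E₁] [NormedSpace ℝ E₁] [NormedAddCommGroup E₂]
    [NormedSpace ℝ E₂] (B : E₁ →ₗ[ℝ] E₂ →ₗ[ℝ] ℝ) (m : ℕ) (ι κ : Type) [Fintype ι] [DecidableEq ι]
    [Fintype κ] [DecidableEq κ] (V : Set E₁) (a W c : ℝ), 0 ≤ a → 0 < c → Had B κ V a →
    ∀ (Δy Δη : (κ → ZMod 2) → Fin m → ι → ZMod 2)
      (K : Mat m → (Fin m → ZMod 2) → (Fin m → ZMod 2) → ℝ),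
      (∀ h h' S ε ε', K (fun i j => S i j + dot (Δy h j) (Δη h' i)) ε ε' = e (dot h h') * K S ε ε') →
      (∀ ε ε', avg (fun S => |K S ε ε'|) ≤ W) →
      ∀ (Ft : Side m ι → E₁) (Gt : Side m ι → E₂), (∀ s, Ft s ∈ V) →
        |TT B K Ft Gt| ≤
          a / 2 * W * (avg (fun s => ‖Ft s‖ ^ 2) / c + c * avg fun s => ‖Gt s‖ ^ 2)

/-- KER.  The sum equals `avg_u avg_v ∏_{ij} (1+τ e(S i j+u i+v j)) ∏_i (1+σ e(ε i+u i)) ∏_j (1+ρ e(ε' j+v j)) ≥ 0`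
(expand each product as a sum over `ZMod 2`-valued vectors, `∏_i (1+x e(z i)) = ∑_α x^wt α e(dot α z)`, and use
`avg_e_dot` in `u`, `v`).  So the absolute value drops, and `avg_S` of the sum keeps only `A = 0` (value `1`). -/
def KerStmt : Prop :=
  ∀ (m : ℕ) (τ σ ρ : ℝ), |τ| ≤ 1 → |σ| ≤ 1 → |ρ| ≤ 1 → ∀ ε ε' : Fin m → ZMod 2,
    avg (fun S : Mat m =>
      |∑ A : Mat m, τ ^ wt2 A * σ ^ wt (rowp A) * ρ ^ wt (colp A) * mono A S ε ε'|) ≤ 1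

/-- FULL (uses GEN, KER).  `TT` is linear in the kernel, so the sum is `TT` of
`K = ∑_A coef A mono A = ∑_{l,l'} w l w l' (KER kernel with σ l, σ l')`, `W = tv w ^ 2`.  GEN with `κ = ι`,
`Δy h j = h`, `Δη h' i = h'`, `c = 1`: `mono A (S + c0) = e(c0 * ∑_i rowp A i) mono A S`, and
`coef A ≠ 0` forces `wt (rowp A)` odd, i.e. `∑_i rowp A i = (wt (rowp A) : ZMod 2) = 1`. -/
def FullStmt : Prop :=
  ∀ (E₁ E₂ : Type u) [NormedAddCommGroup E₁] [NormedSpace ℝ E₁] [NormedAddCommGroup E₂]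
    [NormedSpace ℝ E₂] (B : E₁ →ₗ[ℝ] E₂ →ₗ[ℝ] ℝ) (m : ℕ) (ι : Type) [Fintype ι] [DecidableEq ι]
    (V : Set E₁) (a τ : ℝ) (L N : ℕ) (w σ : Fin N → ℝ), 0 ≤ a → Had B ι V a → |τ| ≤ 1 →
    LamOK L w σ → ∀ (Ft : Side m ι → E₁) (Gt : Side m ι → E₂), (∀ s, Ft s ∈ V) →
      |∑ A : Mat m, coef τ w σ A * TT B (mono A) Ft Gt| ≤
        a / 2 * tv w ^ 2 * (avg (fun s => ‖Ft s‖ ^ 2) + avg fun s => ‖Gt s‖ ^ 2)

/-- RED1 (row reduction).  If `rowp A = Pi.single i 1`, averaging over `ε = s₂.2.2` replaces the lifted `Gt` by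
`g i (q i, η i)` (Repro; `B` linear).  If moreover some other row `A i' ≠ 0`, shifting `q i'` by a unit vector
`Pi.single j 1` with `A i' j = 1` flips the sign and leaves the rest unchanged, so the value is `0`.
Otherwise `colp A = A i` and the kernel is `e (dot (A i) (S i + ε'))`. -/
def Red1Stmt : Prop :=
  ∀ (E₁ E₂ : Type u) [NormedAddCommGroup E₁] [NormedSpace ℝ E₁] [NormedAddCommGroup E₂]
    [NormedSpace ℝ E₂] (B : E₁ →ₗ[ℝ] E₂ →ₗ[ℝ] ℝ) (m : ℕ) (ι : Type) [Fintype ι] [DecidableEq ι]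
    (Ft : Side m ι → E₁) (Ψ : (Fin m → E₂) → (Fin m → ZMod 2) → E₂)
    (g : Fin m → (Fin m → ZMod 2) × (ι → ZMod 2) → E₂), Repro Ψ g →
    ∀ (A : Mat m) (i : Fin m), rowp A = Pi.single i 1 →
      TT B (mono A) Ft (lifted Ψ g) =
        if ∀ i', i' ≠ i → A i' = 0 then
          TT B (fun S _ ε' => e (dot (A i) (S i + ε'))) Ft (fun s => g i (s.1 i, s.2.1 i))
        else 0

/-- RED2 (column reduction), mirror image of RED1 (average over `ε' = s₁.2.2`, shift `p j'`). -/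
def Red2Stmt : Prop :=
  ∀ (E₁ E₂ : Type u) [NormedAddCommGroup E₁] [NormedSpace ℝ E₁] [NormedAddCommGroup E₂]
    [NormedSpace ℝ E₂] (B : E₁ →ₗ[ℝ] E₂ →ₗ[ℝ] ℝ) (m : ℕ) (ι : Type) [Fintype ι] [DecidableEq ι]
    (Gt : Side m ι → E₂) (Φ : (Fin m → E₁) → (Fin m → ZMod 2) → E₁)
    (f : Fin m → (Fin m → ZMod 2) × (ι → ZMod 2) → E₁), Repro Φ f →
    ∀ (A : Mat m) (j : Fin m), colp A = Pi.single j 1 →
      TT B (mono A) (lifted Φ f) Gt =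
        if ∀ j', j' ≠ j → ∀ i, A i j' = 0 then
          TT B (fun S ε _ => e (dot (fun i => A i j) (fun i => S i j + ε i)))
            (fun s => f j (s.1 j, s.2.1 j)) Gt
        else 0

/-- ROW (uses GEN, RED1).  `wt (rowp A) = 1` iff `rowp A = Pi.single i 1` for a unique `i`.  By RED1 only
`A = Pi.single i α` with `∑ α = 1` contribute, with `coef = τ^wt α * lam (wt α)` (`lam 1 = 1`, `wt2 = wt α`,
`colp = α`); terms with `∑ α = 0` have `wt α` even so `lam = 0` and may be added.  So the `i`-part is `TT` of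
`K_i = ∑_α τ^wt α lam (wt α) e(dot α (S i+ε')) = ∑_l w l ∏_j (1+τ σ l e(S i j+ε' j))`, with `avg_S |K_i| ≤ tv w`,
odd under the global shift.  GEN with `Δy h j = h`, `Δη h' i = h'`, then `avg_eval`. -/
def RowStmt : Prop :=
  ∀ (E₁ E₂ : Type u) [NormedAddCommGroup E₁] [NormedSpace ℝ E₁] [NormedAddCommGroup E₂]
    [NormedSpace ℝ E₂] (B : E₁ →ₗ[ℝ] E₂ →ₗ[ℝ] ℝ) (m : ℕ) (ι : Type) [Fintype ι] [DecidableEq ι]
    (V : Set E₁) (a τ c : ℝ) (L N : ℕ) (w σ : Fin N → ℝ), 0 ≤ a → 0 < c → Had B ι V a → |τ| ≤ 1 →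
    LamOK L w σ → ∀ (Ft : Side m ι → E₁) (Ψ : (Fin m → E₂) → (Fin m → ZMod 2) → E₂)
      (g : Fin m → (Fin m → ZMod 2) × (ι → ZMod 2) → E₂), (∀ s, Ft s ∈ V) → Repro Ψ g →
      |∑ A ∈ univ.filter (fun A : Mat m => wt (rowp A) = 1),
          coef τ w σ A * TT B (mono A) Ft (lifted Ψ g)| ≤
        ∑ i, a / 2 * tv w * (avg (fun s => ‖Ft s‖ ^ 2) / c + c * avg fun v => ‖g i v‖ ^ 2)

/-- COL (uses GEN, RED2), mirror image of ROW. -/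
def ColStmt : Prop :=
  ∀ (E₁ E₂ : Type u) [NormedAddCommGroup E₁] [NormedSpace ℝ E₁] [NormedAddCommGroup E₂]
    [NormedSpace ℝ E₂] (B : E₁ →ₗ[ℝ] E₂ →ₗ[ℝ] ℝ) (m : ℕ) (ι : Type) [Fintype ι] [DecidableEq ι]
    (V : Set E₁) (a τ c : ℝ) (L N : ℕ) (w σ : Fin N → ℝ), 0 ≤ a → 0 < c → Had B ι V a → |τ| ≤ 1 →
    LamOK L w σ → ∀ (Gt : Side m ι → E₂) (Φ : (Fin m → E₁) → (Fin m → ZMod 2) → E₁)
      (f : Fin m → (Fin m → ZMod 2) × (ι → ZMod 2) → E₁), (∀ j v, f j v ∈ V) → Repro Φ f →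
      |∑ A ∈ univ.filter (fun A : Mat m => wt (colp A) = 1),
          coef τ w σ A * TT B (mono A) (lifted Φ f) Gt| ≤
        ∑ j, a / 2 * tv w * (avg (fun v => ‖f j v‖ ^ 2) / c + c * avg fun s => ‖Gt s‖ ^ 2)

/-- ONE (uses RED1, RED2).  By RED1 only single-row `A` survive, then `wt (colp A) = 1` makes `A` a single
entry `(i,j)` (`coef = τ`).  For such `A` average over `ε'` (Repro Φ f) in the RED1 right side; what is left depends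
only on `(p j, y j)` and `(q i, η i)` (`avg_prod`, `avg_eval`, `avg_const`). -/
def OneStmt : Prop :=
  ∀ (E₁ E₂ : Type u) [NormedAddCommGroup E₁] [NormedSpace ℝ E₁] [NormedAddCommGroup E₂]
    [NormedSpace ℝ E₂] (B : E₁ →ₗ[ℝ] E₂ →ₗ[ℝ] ℝ) (m : ℕ) (ι : Type) [Fintype ι] [DecidableEq ι]
    (τ : ℝ) (L N : ℕ) (w σ : Fin N → ℝ), LamOK L w σ →
    ∀ (Φ : (Fin m → E₁) → (Fin m → ZMod 2) → E₁) (Ψ : (Fin m → E₂) → (Fin m → ZMod 2) → E₂)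
      (f : Fin m → (Fin m → ZMod 2) × (ι → ZMod 2) → E₁)
      (g : Fin m → (Fin m → ZMod 2) × (ι → ZMod 2) → E₂), Repro Φ f → Repro Ψ g →
      ∑ A ∈ univ.filter (fun A : Mat m => wt (rowp A) = 1 ∧ wt (colp A) = 1),
          coef τ w σ A * TT B (mono A) (lifted Φ f) (lifted Ψ g) =
        τ * ∑ i, ∑ j, avg fun u : (Fin m → ZMod 2) × (ι → ZMod 2) =>
          avg fun v : (Fin m → ZMod 2) × (ι → ZMod 2) =>
            e (v.1 j + u.1 i + dot u.2 v.2) * B (f j u) (g i v)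

/-- MONO (uses GEN with `W = 1`, `c = 1`).  (1) `A i₀ j₀ = 1`: `Δy h = Pi.single j₀ h`, `Δη h' = Pi.single i₀ h'`.
(2) not a rectangle: `A i₁ j₁ = 1 = A i₂ j₂`, `A i₁ j₂ = 0` (so `i₁ ≠ i₂`, `j₁ ≠ j₂`), `c0 = A i₂ j₁`; for
`h h' : ι ⊕ ι → ZMod 2` put `Δy h j₁ = h∘inl`, `Δy h j₂ = h∘inr`, `Δη h' i₁ = h'∘inl + c0 • h'∘inr`,
`Δη h' i₂ = h'∘inr`, all others `0`; then `∑ A i j <Δy j, Δη i> = dot h h'`. -/
def MonoStmt : Prop :=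
  ∀ (E₁ E₂ : Type u) [NormedAddCommGroup E₁] [NormedSpace ℝ E₁] [NormedAddCommGroup E₂]
    [NormedSpace ℝ E₂] (B : E₁ →ₗ[ℝ] E₂ →ₗ[ℝ] ℝ) (m : ℕ) (ι : Type) [Fintype ι] [DecidableEq ι]
    (V : Set E₁) (a : ℝ), 0 ≤ a → ∀ (Ft : Side m ι → E₁) (Gt : Side m ι → E₂), (∀ s, Ft s ∈ V) →
    ∀ A : Mat m,
      (Had B ι V a → A ≠ 0 → |TT B (mono A) Ft Gt| ≤
        a / 2 * (avg (fun s => ‖Ft s‖ ^ 2) + avg fun s => ‖Gt s‖ ^ 2)) ∧
      (Had B (ι ⊕ ι) V a → ¬ IsRect A → |TT B (mono A) Ft Gt| ≤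
        a / 2 * (avg (fun s => ‖Ft s‖ ^ 2) + avg fun s => ‖Gt s‖ ^ 2))

open Classical in
/-- CNT.  A rectangle is determined by `I` (nonzero rows) and `J` (nonzero columns), `wt2 A = |I| |J|`,
`wt (rowp A) ≤ |I|`, `wt (colp A) ≤ |J|`; `|I|,|J| > 2ℓ` give `|I||J| ≥ ℓ(|I|+|J|)`, so the sum is at most
`∑_{I,J} x^(|I|+|J|) = (1+x)^(2m) ≤ exp(2 m x) ≤ e² ≤ 9` with `x = τ^ℓ`. -/
def CntStmt : Prop :=
  ∀ (m ℓ : ℕ) (τ : ℝ), 0 ≤ τ → τ ≤ 1 → τ ^ ℓ * m ≤ 1 →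
    ∑ A ∈ univ.filter (fun A : Mat m => IsRect A ∧ 2 * ℓ < wt (rowp A) ∧ 2 * ℓ < wt (colp A)),
      τ ^ wt2 A ≤ 9

/-- REST (uses MONO, CNT).  `|lam a| ≤ tv w`; split into rectangles (nonzero since `wt (rowp A) > 0`) and
non-rectangles (at most `card (Mat m) = 2^(m*m)` of them, `τ^wt2 ≤ 1`). -/
def RestStmt : Prop :=
  ∀ (E₁ E₂ : Type u) [NormedAddCommGroup E₁] [NormedSpace ℝ E₁] [NormedAddCommGroup E₂]
    [NormedSpace ℝ E₂] (B : E₁ →ₗ[ℝ] E₂ →ₗ[ℝ] ℝ) (m ℓ : ℕ) (ι : Type) [Fintype ι] [DecidableEq ι]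
    (V : Set E₁) (a₁ a₂ τ : ℝ) (N : ℕ) (w σ : Fin N → ℝ), 0 ≤ a₁ → 0 ≤ a₂ → Had B ι V a₁ →
    Had B (ι ⊕ ι) V a₂ → 0 ≤ τ → τ ≤ 1 → τ ^ ℓ * m ≤ 1 → (∀ l, |σ l| ≤ 1) →
    ∀ (Ft : Side m ι → E₁) (Gt : Side m ι → E₂), (∀ s, Ft s ∈ V) →
      |∑ A ∈ univ.filter (fun A : Mat m => 2 * ℓ < wt (rowp A) ∧ 2 * ℓ < wt (colp A)),
          coef τ w σ A * TT B (mono A) Ft Gt| ≤
        (9 * a₁ + 2 ^ (m * m) * a₂) / 2 * tv w ^ 2 *
          (avg (fun s => ‖Ft s‖ ^ 2) + avg fun s => ‖Gt s‖ ^ 2)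

/-- CORE0 (uses FULL, ROW, COL, ONE, REST).  Termwise `coef A ≠ 0` forces `wt (rowp A), wt (colp A) ∈ {1} ∪ (2ℓ,∞)`
(`lam 0 = 0` as `0` is even; `1 ≤ ℓ`), so `full = row + col - one + rest`.  Norms:
`avg ‖lifted Φ f‖² ≤ κ² ∑_j avg ‖f j‖²` (`avg_prod`, `avg_eval` through `Equiv.arrowProdEquivProdArrow` or directly);
`= κ² m NF ≤ Δ² NF`.  ROW with `c = Δ`, COL with `c = Δ⁻¹`. -/
def Core0Stmt : Prop :=
  ∀ (E₁ E₂ : Type u) [NormedAddCommGroup E₁] [NormedSpace ℝ E₁] [NormedAddCommGroup E₂]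
    [NormedSpace ℝ E₂] (B : E₁ →ₗ[ℝ] E₂ →ₗ[ℝ] ℝ) (m ℓ : ℕ) (ι : Type) [Fintype ι] [DecidableEq ι]
    (V : Set E₁) (a₁ a₂ τ κ Δ : ℝ) (N : ℕ) (w σ : Fin N → ℝ), 0 ≤ a₁ → 0 ≤ a₂ → Had B ι V a₁ →
    Had B (ι ⊕ ι) V a₂ → 1 ≤ ℓ → 0 ≤ τ → τ ≤ 1 → τ ^ ℓ * m ≤ 1 → LamOK (2 * ℓ) w σ → 0 < Δ →
    κ ^ 2 * m ≤ Δ ^ 2 →
    ∀ (Φ : (Fin m → E₁) → (Fin m → ZMod 2) → E₁) (Ψ : (Fin m → E₂) → (Fin m → ZMod 2) → E₂)
      (f : Fin m → (Fin m → ZMod 2) × (ι → ZMod 2) → E₁)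
      (g : Fin m → (Fin m → ZMod 2) × (ι → ZMod 2) → E₂),
      (∀ j v, f j v ∈ V) → (∀ s, lifted Φ f s ∈ V) →
      (∀ c : Fin m → (Fin m → ZMod 2) × (ι → ZMod 2),
        IsLift κ (fun j => f j (c j)) (Φ fun j => f j (c j))) →
      (∀ c : Fin m → (Fin m → ZMod 2) × (ι → ZMod 2),
        IsLift κ (fun i => g i (c i)) (Ψ fun i => g i (c i))) →
      1 ≤ m →
      τ * m * |∑ i, ∑ j, avg fun u : (Fin m → ZMod 2) × (ι → ZMod 2) =>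
          avg fun v : (Fin m → ZMod 2) × (ι → ZMod 2) =>
            e (v.1 j + u.1 i + dot u.2 v.2) * B (f j u) (g i v)| ≤
        ((10 * tv w ^ 2 * Δ ^ 2 + 2 * m * tv w * Δ) * a₁ + 2 ^ (m * m) * tv w ^ 2 * Δ ^ 2 * a₂) / 2 *
          ((∑ j, avg fun v => ‖f j v‖ ^ 2) + ∑ i, avg fun v => ‖g i v‖ ^ 2)

/-- CORE (uses CORE0).  Given `F G` on `κ₀ = Fin m ⊕ Fin m ⊕ ι` and `a b : κ₀ → ZMod 2` put
`x j u = Sum.elim (Pi.single j 1) (Sum.elim u.1 u.2)`, `ξ i v = Sum.elim v.1 (Sum.elim (Pi.single i 1) v.2)`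
(so `dot (x j u) (ξ i v) = v.1 j + u.1 i + dot u.2 v.2`), `f j u = e (dot (x j u) b) • F (x j u + a)`,
`g i v = e (dot a (ξ i v + b)) • G (ξ i v + b)`.  Then `e(dot x ξ) B (f j u) (g i v) = e (dot (x+a) (ξ+b)) B (F (x+a)) (G (ξ+b))`,
whose average over `(a,b)` is the full pairing `P`, and `avg_a ‖f j u‖² = avg ‖F‖²`.  Average CORE0 over `(a,b)`:
`τ m * m² |P| ≤ (..)/2 * m (NF + NG)`. -/
def CoreStmt : Prop :=
  ∀ (E₁ E₂ : Type u) [NormedAddCommGroup E₁] [NormedSpace ℝ E₁] [NormedAddCommGroup E₂]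
    [NormedSpace ℝ E₂] (B : E₁ →ₗ[ℝ] E₂ →ₗ[ℝ] ℝ) (m ℓ : ℕ) (ι : Type) [Fintype ι] [DecidableEq ι]
    (V V' : Set E₁) (a₁ a₂ τ κ Δ : ℝ) (N : ℕ) (w σ : Fin N → ℝ), 0 ≤ a₁ → 0 ≤ a₂ → Had B ι V' a₁ →
    Had B (ι ⊕ ι) V' a₂ → 1 ≤ ℓ → 0 < τ → τ ≤ 1 → τ ^ ℓ * m ≤ 1 → LamOK (2 * ℓ) w σ → 0 < Δ →
    κ ^ 2 * m ≤ Δ ^ 2 → 1 ≤ m → V ⊆ V' → (∀ v ∈ V, -v ∈ V) →
    ∀ Φ : (Fin m → E₁) → (Fin m → ZMod 2) → E₁,
      (∀ v : Fin m → E₁, (∀ j, v j ∈ V) → IsLift κ v (Φ v) ∧ ∀ ε, Φ v ε ∈ V') →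
      HasLift E₂ m κ →
      Had B (Fin m ⊕ Fin m ⊕ ι) V
        (((10 * tv w ^ 2 * Δ ^ 2 + 2 * m * tv w * Δ) * a₁ + 2 ^ (m * m) * tv w ^ 2 * Δ ^ 2 * a₂) /
          (τ * m ^ 2))

/-- LAM.  Induction on `L`.  Start with `w = ![1/2,-1/2]`, `σ = ![1,-1]` (`L ≤ 1`).  Step killing degree `b ≥ 2`:
replace the measure `μ` by `(μ - 2^b μ(·/2)) / (1 - 2^(b-1))`, whose moments are
`lam a (1 - 2^b/2^a)/(1 - 2^(b-1))` (index `Fin (N+N)` through `Fin.append` / `finSumFinEquiv`). -/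
def LamStmt : Prop := ∀ L : ℕ, ∃ (N : ℕ) (w σ : Fin N → ℝ), LamOK L w σ

/-- COT.  Power mean `∑ ‖y j‖² ≤ m^(1-2/q) (∑ ‖y j‖^q)^(2/q)` (e.g. `Real.inner_le_weight_mul_Lp_of_nonneg` or
`Real.rpow_arith_mean_le_arith_mean_rpow`), square the cotype inequality, and transport the sign average along
`(Fin m → ZMod 2) ≃ (Fin m → Bool)`. -/
def CotStmt : Prop :=
  ∀ (Y : Type u) [NormedAddCommGroup Y] [NormedSpace ℝ Y] (q C : ℝ), 2 ≤ q →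
    HasRademacherCotype Y q C → ∀ m : ℕ, 1 ≤ m → Cot2 Y m (|C| * (m : ℝ) ^ (1 / 2 - 1 / q))

/-- PAR (pure numerics, uses LAM).  `Q = max q r`, `ℓ = ⌈2Q⌉₊`, `c = |C|+|D|+1`, `m = t^ℓ`, `τ = 1/t`,
`κ = c m^(1/2-1/Q)`, `Δ = 2 c m / t²` (`m^(-1/Q) ≤ t^(-2)`), `t` a large natural number. -/
def ParStmt : Prop :=
  ∀ q r C D : ℝ, 2 ≤ q → 2 ≤ r → ∃ (m ℓ N : ℕ) (τ κ Δ : ℝ) (w σ : Fin N → ℝ),
    1 ≤ m ∧ 1 ≤ ℓ ∧ 0 < τ ∧ τ ≤ 1 ∧ τ ^ ℓ * m ≤ 1 ∧ LamOK (2 * ℓ) w σ ∧ 0 < κ ∧ 0 < Δ ∧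
      (2 * κ) ^ 2 * m ≤ Δ ^ 2 ∧ 16 * (10 * tv w ^ 2 * Δ ^ 2 + 2 * m * tv w * Δ) ≤ τ * m ^ 2 ∧
      |C| * (m : ℝ) ^ (1 / 2 - 1 / q) ≤ κ ∧ |D| * (m : ℝ) ^ (1 / 2 - 1 / r) ≤ κ

/-- LIFT1.  Hahn–Banach on `Z = (Fin m → ZMod 2) → X` with the sublinear functional
`N f = κ (∑‖ξ j‖²)^(1/2) (avg ‖f ε‖²)^(1/2)` (or `PiLp 2`): the functional `∑ e(ε j) • y j ↦ ∑ ξ j (y j)` on the
Rademacher subspace (well defined: `y j = avg e(ε j) f`; simplest: define it on all of `Z` as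
`f ↦ ∑_j ξ j (2^-m ∑_ε e(ε j) f ε)` and restrict) is dominated (Cauchy–Schwarz + Cot2).  An extension `ℓ` gives
`Φ ε = 2^m • ℓ ∘ single ε`; the norm bound follows by testing on `f ε = ‖Φ ε‖ • x ε` with almost norming unit `x ε`. -/
def Lift1Stmt : Prop :=
  ∀ (X : Type u) [NormedAddCommGroup X] [NormedSpace ℝ X] (m : ℕ) (κ : ℝ), 0 < κ →
    Cot2 X m κ → HasLift (StrongDual ℝ X) m (2 * κ)

/-- LIFT2.  `Q Φ j = 2^-m ∑_ε e(ε j) • Φ ε`.  The convex set `{Q Φ : avg ‖Φ‖² ≤ κ² ∑‖v j‖²}` has `v` in its closure in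
`Fin m → X` (else `geometric_hahn_banach_closed_point` gives `ξ j` with `∑ ξ j (v j) > sup_Φ ∑ ξ j (QΦ j)
= κ (∑‖v j‖²)^(1/2) (avg ‖∑ e(ε j) ξ j‖²)^(1/2) ≥ (∑‖v j‖²)^(1/2) (∑‖ξ j‖²)^(1/2)`, contradiction).
Correct an approximate lift by adding `∑_j e(ε j) • (v j - QΦ j)` (`Q` of it is `v - QΦ`); `v = 0`: `Φ = 0`. -/
def Lift2Stmt : Prop :=
  ∀ (X : Type u) [NormedAddCommGroup X] [NormedSpace ℝ X] (m : ℕ) (κ : ℝ), 0 < κ →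
    Cot2 (StrongDual ℝ X) m κ → HasLift X m (2 * κ)

/-- TRIV: five easy facts on `Had`. -/
def TrivStmt : Prop :=
  ∀ (E₁ E₂ : Type u) [NormedAddCommGroup E₁] [NormedSpace ℝ E₁] [NormedAddCommGroup E₂]
    [NormedSpace ℝ E₂] (ι : Type) [Fintype ι] [DecidableEq ι] (V : Set E₁),
    (∀ (B : E₁ →ₗ[ℝ] E₂ →ₗ[ℝ] ℝ) (a b : ℝ), Had B ι V a → a ≤ b → Had B ι V b) ∧
    (∀ (B : E₁ →ₗ[ℝ] E₂ →ₗ[ℝ] ℝ) (a : ℝ), (∀ δ : ℝ, 0 < δ → Had B ι V (a + δ)) → Had B ι V a) ∧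
    (∀ (B : E₁ →ₗ[ℝ] E₂ →ₗ[ℝ] ℝ) (a : ℝ), 0 ≤ a → (∀ v ∈ V, ∀ ξ, |B v ξ| ≤ a * ‖v‖ * ‖ξ‖) →
      Had B ι V a) ∧
    (∀ (B B' : E₁ →ₗ[ℝ] E₂ →ₗ[ℝ] ℝ) (a b : ℝ), Had B ι V a → Had B' ι V b →
      Had (B + B') ι V (a + b)) ∧
    (∀ (B : E₁ →ₗ[ℝ] E₂ →ₗ[ℝ] ℝ) (a : ℝ) (ι' : Type) [Fintype ι'] [DecidableEq ι'],
      Fintype.card ι = Fintype.card ι' → Had B ι V a → Had B ι' V a)

/-- FINR.  `S x = ∑_l φ l x • z l` with continuous `φ l` (basis of the finite-dimensional range).  Scalar Parseval: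
`(avg_x avg_ξ e(dot x ξ) f x g ξ)² ≤ 2^-n avg f² avg g²`, and `lam0 ^ (2n) ≤ 2^n`. -/
def FinrStmt : Prop :=
  ∀ (X : Type u) [NormedAddCommGroup X] [NormedSpace ℝ X] (S : X →L[ℝ] X),
    FiniteDimensional ℝ (LinearMap.range (S : X →ₗ[ℝ] X)) → ∀ lam0 : ℝ, 1 ≤ lam0 → lam0 ^ 2 ≤ 2 →
    ∃ d : ℝ, 0 ≤ d ∧ ∀ n : ℕ, Had (pairB S) (Fin n) Set.univ (d / lam0 ^ n)

/-- BOOT (pure real analysis).  `lam0 = 1 + 1/(4m)` (so `lam0^(2m) ≤ exp(1/2) ≤ 2`), `n₁` with `16 M ≤ lam0^n₁`,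
`C = lam0^(n₁+2m)`.  Induction on `j`: `∀ k n, H k n (2^k (C U + d/2^j) / lam0^n)`; for `n < n₁+2m` use the trivial
bound, else `n = n'+2m` and the step gives the factor `2 lam0^(2m)/16 + 2 M lam0^(2m)/lam0^n' ≤ 1/2`. -/
def BootStmt : Prop :=
  ∀ (m : ℕ) (M : ℝ), 1 ≤ m → 0 ≤ M → ∃ lam0 C : ℝ, 1 < lam0 ∧ lam0 ^ 2 ≤ 2 ∧ 0 ≤ C ∧
    ∀ (H : ℕ → ℕ → ℝ → Prop) (U d : ℝ), 0 ≤ U → 0 ≤ d →
      (∀ k n a b, H k n a → a ≤ b → H k n b) →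
      (∀ k n a, (∀ δ : ℝ, 0 < δ → H k n (a + δ)) → H k n a) →
      (∀ k n, H k n (2 ^ k * U)) → (∀ k n, H k n (d / lam0 ^ n)) →
      (∀ k n a₁ a₂, 0 ≤ a₁ → 0 ≤ a₂ → H (k + 1) n a₁ → H (k + 1) (n + n) a₂ →
        H k (n + 2 * m) (a₁ / 16 + M * a₂)) →
      ∀ n, H 0 n (C * U / lam0 ^ n)

/-- CPT.  Iterated lifts: `V 0 = V₀`, `V (k+1) = V k ∪ ±{Φ v ε : v j ∈ V k}` are finite and symmetric; the set
`insert 0 {(2^k ‖v‖)⁻¹ • v : v ∈ V k}` is compact (`Filter.Tendsto.isCompact_insert_range_of_cofinite` on `Σ k, V k`).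
AP with `δ ≤ 1` on it gives `S`; `‖p‖ ≤ 1` for `p` in the set. -/
def CptStmt : Prop :=
  ∀ (X : Type u) [NormedAddCommGroup X] [NormedSpace ℝ X], HasApproximationProperty X →
    ∀ (m : ℕ) (Φ : (Fin m → X) → (Fin m → ZMod 2) → X) (V₀ : Set X), V₀.Finite →
      (∀ v ∈ V₀, -v ∈ V₀) → ∃ V : ℕ → Set X, V 0 = V₀ ∧ (∀ k, V k ⊆ V (k + 1)) ∧
        (∀ k, ∀ v ∈ V k, -v ∈ V k) ∧
        (∀ k (v : Fin m → X), (∀ j, v j ∈ V k) → ∀ ε, Φ v ε ∈ V (k + 1)) ∧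
        ∀ δ : ℝ, 0 < δ → ∃ S : X →L[ℝ] X, FiniteDimensional ℝ (LinearMap.range (S : X →ₗ[ℝ] X)) ∧
          (∀ k, ∀ v ∈ V k, ‖S v‖ ≤ 2 ^ k * 2 * ‖v‖) ∧ ∀ v ∈ V₀, ‖v - S v‖ ≤ δ * ‖v‖

/-- DECAY (uses everything above; helper6). -/
def DecayStmt : Prop :=
  ∀ (X : Type u) [NormedAddCommGroup X] [NormedSpace ℝ X], HasApproximationProperty X →
    ∀ q r C D : ℝ, 2 ≤ q → 2 ≤ r → HasRademacherCotype X q C →
      HasRademacherCotype (StrongDual ℝ X) r D → ∃ lam0 C' : ℝ, 1 < lam0 ∧ 0 ≤ C' ∧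
        ∀ n : ℕ, Had (pairB (ContinuousLinearMap.id ℝ X)) (Fin n) Set.univ (C' / lam0 ^ n)

/-- WALK: algebra of Walsh multipliers (orthogonality `avg_e_dot`), and self-adjointness. -/
def WalkStmt : Prop :=
  ∀ (X : Type u) [NormedAddCommGroup X] [NormedSpace ℝ X] (s : ℕ),
    (∀ (g h : (Fin s → ZMod 2) → ℝ) (f : (Fin s → ZMod 2) → X),
      kop g (kop h f) = kop (fun A => g A * h A) f) ∧
    (∀ f : (Fin s → ZMod 2) → X, kop (fun _ => 1) f = f) ∧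
    (∀ (g : (Fin s → ZMod 2) → ℝ) (f : (Fin s → ZMod 2) → X)
      (φ : (Fin s → ZMod 2) → StrongDual ℝ X),
      ∑ ω, (kop g φ ω) (f ω) = ∑ ω, φ ω (kop g f ω))

/-- WALT: positive kernels are contractions (Jensen / Cauchy–Schwarz with the probability weights
`2^-s k(ω+η)`, `k z = ∑_A g A e(dot A z) ≥ 0`, `avg k = g 0 = 1`).  Kernels: `∏_i (1+ρ e(z i))` and
`∏_{i ∉ B} (1+e(z i))`. -/
def WaltStmt : Prop :=
  ∀ (X : Type u) [NormedAddCommGroup X] [NormedSpace ℝ X] (s : ℕ),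
    (∀ ρ : ℝ, 0 ≤ ρ → ρ ≤ 1 → KB X (fun A : Fin s → ZMod 2 => ρ ^ wt A) 1) ∧
    ∀ B : Finset (Fin s), KB X (ind B) 1

/-- WALH (uses WALK, WALT for `X` and for the dual).  For `S : Fin n → ZMod 2` let `B_S = ⋃_{S j = 1} Bs j`,
`E_S = kop (ind B_S)`.  Put `h = kop (∏..) f`, `φ ω = (‖h ω‖ * r) • (norming functional of h ω)`.  For each `ω` apply `Had` to
`F S = e(∑ S) • E_S f ω`, `G T = e(∑ T) • E_T φ ω`, sum over `ω`, use self-adjointness and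
`ind B_S * ind B_T = ∏_j (if S j = 0 ∧ T j = 0 then 1 else ind (Bs j))`,
`avg_S avg_T e(dot S T + ∑ S + ∑ T) ind B_S A ind B_T A = ∏_j (1 - 3 ind (Bs j) A)/4`.
This gives `4^-n r ∑‖h‖² ≤ a/2 (∑‖f‖² + r² ∑‖h‖²)` for all `r > 0`; optimise (`r = 4^-n / a`; `a = 0` by letting `r → ∞`... or `discrim`). -/
def WalhStmt : Prop :=
  ∀ (X : Type u) [NormedAddCommGroup X] [NormedSpace ℝ X] (s n : ℕ) (a : ℝ), 0 < a →
    Had (pairB (ContinuousLinearMap.id ℝ X)) (Fin n) Set.univ a →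
    ∀ Bs : Fin n → Finset (Fin s), KB X (fun A => ∏ j, (1 - 3 * ind (Bs j) A)) (4 ^ n * a)

/-- WALR.  Random sets: weight `p B = (1-ρ)^|B| ρ^(s-|B|)`, `∑_B p B = 1`, `∑_B p B ind B A = ρ^wt A`.  So
`(1-3ρ^wt A)^n = ∑_Bs (∏_j p (Bs j)) ∏_j (1 - 3 ind (Bs j) A)` (`Finset.prod_univ_sum`), `kop` is linear in the symbol and
`‖·‖²` is convex. -/
def WalrStmt : Prop :=
  ∀ (X : Type u) [NormedAddCommGroup X] [NormedSpace ℝ X] (s n : ℕ) (c : ℝ),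
    (∀ Bs : Fin n → Finset (Fin s), KB X (fun A => ∏ j, (1 - 3 * ind (Bs j) A)) c) →
    ∀ ρ : ℝ, 0 ≤ ρ → ρ ≤ 1 → KB X (fun A : Fin s → ZMod 2 => (1 - 3 * ρ ^ wt A) ^ n) c

/-- WALM (uses WALK).  `R = Z →L[ℝ] Z`, `Z = PiLp 2 fun _ : Fin s → ZMod 2 => X`, `M g = kop (g ∘ wt)`
(continuous: finite sums of `smul`s of coordinate maps); `FinM` with `N = s+1`. -/
def WalmStmt : Prop :=
  ∀ (X : Type u) [NormedAddCommGroup X] [NormedSpace ℝ X] (s : ℕ),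
    ∃ M : (ℕ → ℝ) →ₐ[ℝ] ((PiLp 2 fun _ : Fin s → ZMod 2 => X) →L[ℝ]
        (PiLp 2 fun _ : Fin s → ZMod 2 => X)),
      FinM M ∧ ∀ (g : ℕ → ℝ) (c : ℝ), 0 ≤ c →
        (KB X (fun A : Fin s → ZMod 2 => g (wt A)) c ↔ ‖M g‖ ≤ c)

/-- KAT0: integrals and series of multipliers.  Use `FinM`: for (1) take a norming functional
(`exists_dual_vector''`) of `M g`, move it inside the finite sum and the scalar integral; (2) `hasSum_sum` + `smul`. -/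
def Kat0Stmt : Prop :=
  ∀ (R : Type u) [NormedRing R] [NormedAlgebra ℝ R] (M : (ℕ → ℝ) →ₐ[ℝ] R), FinM M →
    (∀ (G : ℝ → ℕ → ℝ) (a b c : ℝ), a ≤ b → (∀ k, Continuous fun y => G y k) →
      (∀ y ∈ Set.Icc a b, ‖M (G y)‖ ≤ c) → ‖M fun k => ∫ y in a..b, G y k‖ ≤ c * (b - a)) ∧
    ∀ (α : Type) (G : α → ℕ → ℝ) (g : ℕ → ℝ) (β : α → ℝ) (b : ℝ), (∀ k, HasSum (fun n => G n k) (g k)) →
      (∀ n, ‖M (G n)‖ ≤ β n) → HasSum β b → ‖M g‖ ≤ b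

/-- KAT1 (uses KAT0).  `(1+x)⁻¹ = (3/4) ∑_n ((1-3x)/4)^n` for `x ∈ (0,1]`.  With `T = π/|y|`:
`∫_0^T exp(-ks) cos(ys) ds = (1+exp(-kT)) k/(k²+y²)` and `∫_0^T exp(-ks) sin(ys) ds = (1+exp(-kT)) y/(k²+y²)`
(antiderivatives `exp(-ks)(y sin(ys) - k cos(ys))/(k²+y²)` and `-exp(-ks)(k sin(ys) + y cos(ys))/(k²+y²)`). -/
def Kat1Stmt : Prop :=
  ∀ C μ : ℝ, 0 ≤ C → 0 ≤ μ → μ < 4 → ∃ C₁ : ℝ, 0 ≤ C₁ ∧
    ∀ (R : Type u) [NormedRing R] [NormedAlgebra ℝ R] (M : (ℕ → ℝ) →ₐ[ℝ] R), FinM M → SgM M →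
      (∀ t : ℝ, 0 ≤ t → ∀ n : ℕ, ‖M fun k => (1 - 3 * Real.exp (-(t * k))) ^ n‖ ≤ C * μ ^ n) →
      (∀ t : ℝ, 0 ≤ t → ‖M fun k => (1 + Real.exp (-(t * k)))⁻¹‖ ≤ C₁) ∧
      ∀ y : ℝ, y ≠ 0 → ‖M fun k => (k : ℝ) / (k ^ 2 + y ^ 2)‖ ≤ C₁ / |y| ∧
        ‖M fun k => y / (k ^ 2 + y ^ 2)‖ ≤ C₁ / |y|

/-- LIP (Lipschitz formula; `EisensteinSeries.qExpansion_identity` with exponent 3 and `z = i x T/(2π)`, then
`∑ n² q^n = q(1+q)/(1-q)³` (`hasSum_sq_mul_geometric..`/`tsum_choose_mul_geometric`), take real parts;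
summability of `1/(z+n)³`: `EisensteinSeries.linear_right_summable` or a direct bound). -/
def LipStmt : Prop :=
  ∀ x T : ℝ, 0 < x → 0 < T →
    HasSum (fun n : ℤ => (x ^ 3 - 3 * x * (2 * Real.pi * n / T) ^ 2) /
        (x ^ 2 + (2 * Real.pi * n / T) ^ 2) ^ 3)
      (T ^ 3 / 2 * (Real.exp (-(T * x)) * (1 + Real.exp (-(T * x))) / (1 - Real.exp (-(T * x))) ^ 3))

/-- KAT2 (uses KAT0, LIP).  `q = exp(-Tk)`.  For all `k : ℕ` (both sides vanish at `k = 0`)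
`k q = (2/T³) (1+q)⁻¹ ∑_n k (1-q)³ c_n(k)`, `c_n` the LIP summand.  `n = 0`: `k (1-q)³ c_0 = (1-q) J²`,
`J k = ∫_0^T exp(-ks) ds` (norm ≤ T), so norm ≤ 2T².  `n ≠ 0`, `y = 2πn/T`, `Rr = k/(k²+y²)`, `I = y/(k²+y²)`:
`k c_n = (1 - y I)(Rr² - 3 I²)`, norm ≤ `4 (1+C₁) C₁²/y²`, `‖(1-q)³‖ ≤ 8`; `∑ 1/n²` converges. -/
def Kat2Stmt : Prop :=
  ∀ C₁ : ℝ, 0 ≤ C₁ → ∃ B : ℝ, 0 < B ∧
    ∀ (R : Type u) [NormedRing R] [NormedAlgebra ℝ R] (M : (ℕ → ℝ) →ₐ[ℝ] R), FinM M → SgM M →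
      (∀ t : ℝ, 0 ≤ t → ‖M fun k => (1 + Real.exp (-(t * k)))⁻¹‖ ≤ C₁) →
      (∀ y : ℝ, y ≠ 0 → ‖M fun k => (k : ℝ) / (k ^ 2 + y ^ 2)‖ ≤ C₁ / |y| ∧
        ‖M fun k => y / (k ^ 2 + y ^ 2)‖ ≤ C₁ / |y|) →
      ∀ T : ℝ, 0 < T → ‖M fun k => (k : ℝ) * Real.exp (-(T * k))‖ ≤ B / T

/-- KAT3 (uses KAT0).  `k^j exp(-tk) = (k exp(-(t/j)k))^j` has norm ≤ `(jB/t)^j` (`j ≥ 1`; `j = 0` SgM), and
`j^j/j! ≤ e^j`.  With `t = 2 e π B` and `|y| ≤ π` the Taylor series (`Real.hasSum_cos`, `Real.hasSum_sin`) give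
`‖cos(yk) exp(-tk)‖, ‖sin(yk) exp(-tk)‖ ≤ 2`; finally
`Pi.single 1 1 k = exp t /(2π) ∫_{-π}^{π} (cos y cos(yk) + sin y sin(yk)) exp(-tk) dy`. -/
def Kat3Stmt : Prop :=
  ∀ B : ℝ, 0 < B → ∃ κ : ℝ, 0 ≤ κ ∧
    ∀ (R : Type u) [NormedRing R] [NormedAlgebra ℝ R] (M : (ℕ → ℝ) →ₐ[ℝ] R), FinM M → SgM M →
      (∀ T : ℝ, 0 < T → ‖M fun k => (k : ℝ) * Real.exp (-(T * k))‖ ≤ B / T) →
      ‖M (Pi.single 1 1)‖ ≤ κ

/-- FINAL conversion: `kop (A ↦ Pi.single 1 1 (wt A)) f ω = ∑_i e(ω i) • 2^-s ∑_η e(η i) • f η` (`wt A = 1` iff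
`A = Pi.single i 1`), transported along `(Fin s → ZMod 2) ≃ (Fin s → Bool)` (`0 ↦ true`). -/
def ConvStmt : Prop :=
  ∀ (X : Type u) [NormedAddCommGroup X] [NormedSpace ℝ X] (κ : ℝ),
    (∀ s : ℕ, KB X (fun A : Fin s → ZMod 2 => (Pi.single 1 1 : ℕ → ℝ) (wt A)) κ) → IsKConvex X

end Crest.Agent.R118
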