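import Crest.Agent.R118.Defs

/-! Row 118: finite rank operators have exponentially small Hadamard constants. -/

set_option autoImplicit false

namespace Crest.Agent.R118

open Finset Crest.AnalysisR

universe u

namespace FINR

theorem parseval (n : ℕ) (g : (Fin n → ZMod 2) → ℝ) :
    avg (fun x : Fin n → ZMod 2 => (avg fun ξ => e (dot x ξ) * g ξ) ^ 2) =
      ((2 : ℝ) ^ n)⁻¹ * avg fun ξ => g ξ ^ 2 := by
  have h1 : ∀ x : Fin n → ZMod 2, (avg fun ξ => e (dot x ξ) * g ξ) ^ 2 =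
      avg fun ξ => avg fun ξ' => g ξ * g ξ' * e (dot (ξ + ξ') x) := by
    intro x
    rw [sq, ← avg_mul_right]
    congr 1
    funext ξ
    rw [← avg_mul_left]
    congr 1
    funext ξ'
    rw [dot_add_left, e_add, dot_comm ξ x, dot_comm ξ' x]
    ring
  simp only [h1]
  rw [avg_comm, ← avg_mul_left]
  congr 1
  funext ξ
  rw [avg_comm]
  simp only [avg_mul_left, avg_e_dot]
  have h2 : ∀ ξ' : Fin n → ZMod 2, (ξ + ξ' = 0) ↔ ξ' = ξ := by
    intro ξ'
    constructor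
    · intro h
      funext i
      have h3 : ξ i + ξ' i = 0 := congrFun h i
      have h4 := z2_add_self (ξ i)
      exact add_left_cancel (h3.trans h4.symm)
    · rintro rfl
      funext i
      exact z2_add_self _
  simp only [h2]
  unfold avg
  rw [Finset.sum_eq_single ξ]
  · simp [sq]
  · intro b _ hb
    simp [hb]
  · intro h; exact absurd (mem_univ _) h

theorem scalar (n : ℕ) (lam0 : ℝ) (h1 : 1 ≤ lam0) (h2 : lam0 ^ 2 ≤ 2)
    (f g : (Fin n → ZMod 2) → ℝ) :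
    |avg fun x => avg fun ξ => e (dot x ξ) * (f x * g ξ)| ≤
      1 / lam0 ^ n / 2 * (avg (fun x => f x ^ 2) + avg fun ξ => g ξ ^ 2) := by
  have hl : 0 < lam0 ^ n := by positivity
  have e1 : ∀ x, (avg fun ξ => e (dot x ξ) * (f x * g ξ)) =
      f x * avg fun ξ => e (dot x ξ) * g ξ := by
    intro x
    rw [← avg_mul_left]
    congr 1
    funext ξ
    ring
  simp only [e1]
  refine (abs_avg_le _).trans ?_
  have e2 : ∀ x : Fin n → ZMod 2, |f x * avg fun ξ => e (dot x ξ) * g ξ| ≤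
      1 / lam0 ^ n / 2 * f x ^ 2 + lam0 ^ n / 2 * (avg fun ξ => e (dot x ξ) * g ξ) ^ 2 := by
    intro x
    set a := f x
    set b := avg fun ξ => e (dot x ξ) * g ξ
    have h3 : 1 / lam0 ^ n / 2 * a ^ 2 + lam0 ^ n / 2 * b ^ 2 - |a * b| =
        (|a| - lam0 ^ n * |b|) ^ 2 / (2 * lam0 ^ n) := by
      rw [abs_mul, ← sq_abs a, ← sq_abs b]
      field_simp
      ring
    have h4 : 0 ≤ (|a| - lam0 ^ n * |b|) ^ 2 / (2 * lam0 ^ n) := by positivity
    linarith
  refine (avg_le_avg e2).trans ?_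
  rw [avg_add, avg_mul_left, avg_mul_left, parseval]
  have h5 : 0 ≤ avg fun ξ => g ξ ^ 2 := avg_nonneg fun _ => sq_nonneg _
  have h6 : lam0 ^ n * ((2 : ℝ) ^ n)⁻¹ ≤ 1 / lam0 ^ n := by
    rw [← div_eq_mul_inv, div_le_div_iff₀ (by positivity) hl, one_mul, ← mul_pow, ← sq]
    exact pow_le_pow_left₀ (by positivity) h2 n
  have h7 := mul_le_mul_of_nonneg_right h6 h5
  nlinarith

end FINR

theorem FINR_proof : FinrStmt.{u} := by
  intro X _ _ S hS lam0 h1 h2
  have hl : ∀ n : ℕ, 0 < lam0 ^ n := fun n => by positivity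
  set R := LinearMap.range (S : X →ₗ[ℝ] X) with hR
  let b := Module.finBasis ℝ R
  let S' : X →L[ℝ] R := S.codRestrict R (fun x => LinearMap.mem_range_self (S : X →ₗ[ℝ] X) x)
  let φ : Fin (Module.finrank ℝ R) → X →L[ℝ] ℝ :=
    fun l => (LinearMap.toContinuousLinearMap (b.coord l)).comp S'
  let z : Fin (Module.finrank ℝ R) → X := fun l => (b l : X)
  have hdec : ∀ x, S x = ∑ l, φ l x • z l := by
    intro x
    have h3 := congrArg (fun y : R => (y : X)) (b.sum_repr (S' x))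
    simp only [Submodule.coe_sum, Submodule.coe_smul] at h3
    exact h3.symm
  refine ⟨∑ l, (‖φ l‖ ^ 2 + ‖z l‖ ^ 2), Finset.sum_nonneg fun l _ => by positivity, ?_⟩
  intro n F G _
  have e1 : (avg fun x => avg fun ξ => e (dot x ξ) * pairB S (F x) (G ξ)) =
      ∑ l, avg fun x => avg fun ξ => e (dot x ξ) * (φ l (F x) * G ξ (z l)) := by
    rw [← avg_sum]
    congr 1
    funext x
    rw [← avg_sum]
    congr 1
    funext ξ
    rw [pairB_apply, hdec, map_sum, Finset.mul_sum]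
    refine Finset.sum_congr rfl fun l _ => ?_
    rw [map_smul, smul_eq_mul]
  rw [e1]
  refine (Finset.abs_sum_le_sum_abs _ _).trans ?_
  rw [Finset.sum_div, Finset.sum_div, Finset.sum_mul]
  refine Finset.sum_le_sum fun l _ => ?_
  refine (FINR.scalar n lam0 h1 h2 (fun x => φ l (F x)) (fun ξ => G ξ (z l))).trans ?_
  have a1 : avg (fun x => φ l (F x) ^ 2) ≤ (‖φ l‖ ^ 2 + ‖z l‖ ^ 2) * avg fun x => ‖F x‖ ^ 2 := by
    rw [← avg_mul_left]
    refine avg_le_avg fun x => ?_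
    have h3 := (φ l).le_opNorm (F x)
    rw [Real.norm_eq_abs] at h3
    have h4 := pow_le_pow_left₀ (abs_nonneg _) h3 2
    rw [sq_abs, mul_pow] at h4
    nlinarith [mul_nonneg (sq_nonneg ‖z l‖) (sq_nonneg ‖F x‖)]
  have a2 : avg (fun ξ => G ξ (z l) ^ 2) ≤ (‖φ l‖ ^ 2 + ‖z l‖ ^ 2) * avg fun ξ => ‖G ξ‖ ^ 2 := by
    rw [← avg_mul_left]
    refine avg_le_avg fun ξ => ?_
    have h3 := (G ξ).le_opNorm (z l)
    rw [Real.norm_eq_abs] at h3
    have h4 := pow_le_pow_left₀ (abs_nonneg _) h3 2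
    rw [sq_abs, mul_pow] at h4
    nlinarith [mul_nonneg (sq_nonneg ‖φ l‖) (sq_nonneg ‖G ξ‖)]
  have hn := hl n
  calc 1 / lam0 ^ n / 2 * (avg (fun x => φ l (F x) ^ 2) + avg fun ξ => G ξ (z l) ^ 2)
      ≤ 1 / lam0 ^ n / 2 * ((‖φ l‖ ^ 2 + ‖z l‖ ^ 2) * avg (fun x => ‖F x‖ ^ 2) +
          (‖φ l‖ ^ 2 + ‖z l‖ ^ 2) * avg fun ξ => ‖G ξ‖ ^ 2) :=
        mul_le_mul_of_nonneg_left (add_le_add a1 a2) (by positivity)
    _ = _ := by ring

end Crest.Agent.R118
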