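import Crest.Agent.R118.Defs

/-! Row 118, task FULL. -/

set_option autoImplicit false

namespace Crest.Agent.R118

open Finset Crest.AnalysisR

universe u

namespace FULL

theorem sum_eq_wt {ι : Type*} [Fintype ι] (x : ι → ZMod 2) : ∑ i, x i = (wt x : ZMod 2) := by
  unfold wt
  rw [card_filter, Nat.cast_sum]
  refine sum_congr rfl fun i _ => ?_
  rcases z2_cases (x i) with h | h <;> simp [h]

theorem mono_shift {m : ℕ} (A S : Mat m) (c : ZMod 2) (ε ε' : Fin m → ZMod 2)
    (h : Odd (wt (rowp A))) :
    mono A (fun i j => S i j + c) ε ε' = e c * mono A S ε ε' := by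
  unfold mono
  rw [← e_add]
  congr 1
  have h1 : ∑ i, rowp A i = 1 := by
    rw [sum_eq_wt]
    exact (ZMod.natCast_eq_one_iff_odd).2 h
  have h2 : ∑ i, dot (A i) (fun j => S i j + c) = ∑ i, dot (A i) (S i) + c * ∑ i, rowp A i := by
    rw [mul_sum, ← sum_add_distrib]
    refine sum_congr rfl fun i _ => ?_
    unfold dot rowp
    rw [mul_sum, ← sum_add_distrib]
    refine sum_congr rfl fun j _ => by ring
  rw [h2, h1]
  ring

end FULL

theorem FULL_proof (hGen : GenStmt.{u}) (hK : KerStmt) : FullStmt.{u} := by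
  intro E₁ E₂ _ _ _ _ B m ι _ _ V a τ L N w σ ha hH hτ hL Ft Gt hF
  obtain ⟨hσ, -, hev, -⟩ := hL
  set K : Mat m → (Fin m → ZMod 2) → (Fin m → ZMod 2) → ℝ :=
    fun S ε ε' => ∑ A : Mat m, coef τ w σ A * mono A S ε ε' with hKdef
  have h1 : ∑ A : Mat m, coef τ w σ A * TT B (mono A) Ft Gt = TT B K Ft Gt := by
    unfold TT
    simp only [hKdef, sum_mul, mul_assoc, avg_sum, avg_mul_left]
  have h2 := hGen E₁ E₂ B m ι ι V a (tv w ^ 2) 1 ha one_pos hH (fun h _ => h) (fun h' _ => h') K
    (by
      intro h h' S ε ε'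
      simp only [hKdef, mul_sum]
      refine sum_congr rfl fun A _ => ?_
      rcases Nat.even_or_odd (wt (rowp A)) with hA | hA
      · simp [coef, hev _ hA]
      · rw [FULL.mono_shift A S _ ε ε' hA]; ring)
    (by
      intro ε ε'
      have e1 : ∀ S, K S ε ε' = ∑ l, ∑ l', w l * w l' *
          ∑ A : Mat m, τ ^ wt2 A * σ l ^ wt (rowp A) * σ l' ^ wt (colp A) * mono A S ε ε' := by
        intro S
        simp only [hKdef, coef, lam, mul_sum, sum_mul]
        rw [sum_comm]
        conv_rhs => rw [sum_comm]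
        refine sum_congr rfl fun l' _ => ?_
        rw [sum_comm]
        refine sum_congr rfl fun l _ => sum_congr rfl fun A _ => by ring
      calc avg (fun S => |K S ε ε'|)
          ≤ avg (fun S => ∑ l, ∑ l', |w l| * |w l'| * |∑ A : Mat m,
              τ ^ wt2 A * σ l ^ wt (rowp A) * σ l' ^ wt (colp A) * mono A S ε ε'|) := by
            refine avg_le_avg fun S => ?_
            rw [e1]
            refine (abs_sum_le_sum_abs _ _).trans (sum_le_sum fun l _ => ?_)
            refine (abs_sum_le_sum_abs _ _).trans (sum_le_sum fun l' _ => ?_)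
            rw [abs_mul, abs_mul]
        _ ≤ ∑ l, ∑ l', |w l| * |w l'| := by
            rw [avg_sum]
            refine sum_le_sum fun l _ => ?_
            rw [avg_sum]
            refine sum_le_sum fun l' _ => ?_
            rw [avg_mul_left]
            exact mul_le_of_le_one_right (by positivity) (hK m τ (σ l) (σ l') hτ (hσ l) (hσ l') ε ε')
        _ = tv w ^ 2 := by rw [tv, sq, sum_mul_sum])
    Ft Gt hF
  rw [h1]
  simpa using h2

end Crest.Agent.R118
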