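import Crest.Agent.R118.Defs

/-! Row 118: the task GEN. -/

set_option autoImplicit false

namespace Crest.Agent.R118

open Finset Crest.AnalysisR

universe u

namespace GEN

variable {m : ℕ} {ι : Type} [Fintype ι] [DecidableEq ι]

/-- shift on the vector side -/
def T1 (d η : Fin m → ι → ZMod 2) (s : Side m ι) : Side m ι :=
  (fun j i => s.1 j i + dot (d j) (η i), s.2.1 + d, s.2.2)

/-- shift on the functional side -/
def T2 (d y : Fin m → ι → ZMod 2) (s : Side m ι) : Side m ι :=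
  (fun i j => s.1 i j + dot (y j) (d i), s.2.1 + d, s.2.2)

omit [DecidableEq ι] in
theorem T1_inj (d η : Fin m → ι → ZMod 2) : Function.Injective (T1 d η) := by
  rintro ⟨p, y, a⟩ ⟨p', y', a'⟩ h
  simp only [T1, Prod.mk.injEq, add_left_inj] at h
  obtain ⟨h1, h2, h3⟩ := h
  have : p = p' := by
    funext j i
    exact add_right_cancel (congrFun (congrFun h1 j) i)
  rw [this, h2, h3]

omit [DecidableEq ι] in
theorem T2_inj (d y : Fin m → ι → ZMod 2) : Function.Injective (T2 d y) := by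
  rintro ⟨p, z, a⟩ ⟨p', z', a'⟩ h
  simp only [T2, Prod.mk.injEq, add_left_inj] at h
  obtain ⟨h1, h2, h3⟩ := h
  have : p = p' := by
    funext j i
    exact add_right_cancel (congrFun (congrFun h1 j) i)
  rw [this, h2, h3]

/-- the joint shift -/
def TP (d d' : Fin m → ι → ZMod 2) (w : Side m ι × Side m ι) : Side m ι × Side m ι :=
  (T1 d w.2.2.1 w.1, T2 d' w.1.2.1 w.2)

omit [DecidableEq ι] in
theorem TP_inj (d d' : Fin m → ι → ZMod 2) : Function.Injective (TP d d') := by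
  rintro ⟨s, t⟩ ⟨s', t'⟩ h
  simp only [TP, Prod.mk.injEq] at h
  obtain ⟨h1, h2⟩ := h
  have e1 : s.2.1 = s'.2.1 := add_right_cancel (congrArg (fun x => x.2.1) h1)
  have e2 : t.2.1 = t'.2.1 := add_right_cancel (congrArg (fun x => x.2.1) h2)
  rw [e2] at h1
  rw [e1] at h2
  rw [T1_inj _ _ h1, T2_inj _ _ h2]

omit [DecidableEq ι] in
theorem SS_TP (d d' : Fin m → ι → ZMod 2) (s t : Side m ι) :
    SS (T1 d t.2.1 s) (T2 d' s.2.1 t) = fun i j => SS s t i j + dot (d j) (d' i) := by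
  funext i j
  simp only [SS, T1, T2, Pi.add_apply, dot_add_left, dot_add_right]
  have h1 := z2_add_self (dot (s.2.1 j) (d' i))
  have h2 := z2_add_self (dot (d j) (t.2.1 i))
  linear_combination h1 + h2

theorem side1 (K : Mat m → (Fin m → ZMod 2) → (Fin m → ZMod 2) → ℝ) (W : ℝ)
    (hW : ∀ ε ε', avg (fun S => |K S ε ε'|) ≤ W) (N : Side m ι → ℝ) (hN : ∀ s, 0 ≤ N s)
    (T : (Fin m → ι → ZMod 2) → Side m ι → Side m ι) (hT : ∀ η, Function.Injective (T η)) :
    avg (fun s : Side m ι => avg fun t : Side m ι =>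
      |K (SS s t) t.2.2 s.2.2| * N (T t.2.1 s)) ≤ W * avg N := by
  have h1 : ∀ s : Side m ι, avg (fun t : Side m ι => |K (SS s t) t.2.2 s.2.2| * N (T t.2.1 s)) ≤
      avg fun r : (Fin m → ι → ZMod 2) × (Fin m → ZMod 2) => W * N (T r.1 s) := by
    intro s
    rw [avg_prod, avg_comm]
    refine avg_le_avg fun r => ?_
    show avg (fun q : Mat m => |K (SS s (q, r)) r.2 s.2.2| * N (T r.1 s)) ≤ _
    rw [avg_mul_right]
    refine mul_le_mul_of_nonneg_right ?_ (hN _)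
    have hinj : Function.Injective (fun q : Mat m => SS s (q, r)) := by
      intro q q' h
      funext i j
      have := congrFun (congrFun h i) j
      simp only [SS] at this
      exact add_right_cancel (add_right_cancel this)
    rw [avg_bij _ hinj (fun S => |K S r.2 s.2.2|)]
    exact hW _ _
  refine (avg_le_avg h1).trans (le_of_eq ?_)
  rw [avg_comm]
  have h2 : ∀ r : (Fin m → ι → ZMod 2) × (Fin m → ZMod 2),
      avg (fun s : Side m ι => W * N (T r.1 s)) = W * avg N := by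
    intro r
    rw [avg_mul_left, avg_bij _ (hT r.1) N]
  simp only [h2]
  exact avg_const _

theorem side2 (K : Mat m → (Fin m → ZMod 2) → (Fin m → ZMod 2) → ℝ) (W : ℝ)
    (hW : ∀ ε ε', avg (fun S => |K S ε ε'|) ≤ W) (N : Side m ι → ℝ) (hN : ∀ s, 0 ≤ N s)
    (T : (Fin m → ι → ZMod 2) → Side m ι → Side m ι) (hT : ∀ η, Function.Injective (T η)) :
    avg (fun s : Side m ι => avg fun t : Side m ι =>
      |K (SS s t) t.2.2 s.2.2| * N (T s.2.1 t)) ≤ W * avg N := by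
  rw [avg_comm]
  have h1 : ∀ t : Side m ι, avg (fun s : Side m ι => |K (SS s t) t.2.2 s.2.2| * N (T s.2.1 t)) ≤
      avg fun r : (Fin m → ι → ZMod 2) × (Fin m → ZMod 2) => W * N (T r.1 t) := by
    intro t
    rw [avg_prod, avg_comm]
    refine avg_le_avg fun r => ?_
    show avg (fun p : Mat m => |K (SS (p, r) t) t.2.2 r.2| * N (T r.1 t)) ≤ _
    rw [avg_mul_right]
    refine mul_le_mul_of_nonneg_right ?_ (hN _)
    have hinj : Function.Injective (fun p : Mat m => SS (p, r) t) := by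
      intro p p' h
      funext j i
      have := congrFun (congrFun h i) j
      simp only [SS] at this
      exact add_left_cancel (add_right_cancel this)
    rw [avg_bij _ hinj (fun S => |K S t.2.2 r.2|)]
    exact hW _ _
  refine (avg_le_avg h1).trans (le_of_eq ?_)
  rw [avg_comm]
  have h2 : ∀ r : (Fin m → ι → ZMod 2) × (Fin m → ZMod 2),
      avg (fun t : Side m ι => W * N (T r.1 t)) = W * avg N := by
    intro r
    rw [avg_mul_left, avg_bij _ (hT r.1) N]
  simp only [h2]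
  exact avg_const _

theorem had_scale {E₁ E₂ : Type u} [NormedAddCommGroup E₁] [NormedSpace ℝ E₁]
    [NormedAddCommGroup E₂] [NormedSpace ℝ E₂] (B : E₁ →ₗ[ℝ] E₂ →ₗ[ℝ] ℝ) (κ : Type) [Fintype κ]
    [DecidableEq κ] (V : Set E₁) (a c : ℝ) (hc : 0 < c) (hH : Had B κ V a)
    (F : (κ → ZMod 2) → E₁) (G : (κ → ZMod 2) → E₂) (hF : ∀ x, F x ∈ V) :
    |avg fun x => avg fun ξ => e (dot x ξ) * B (F x) (G ξ)| ≤
      a / 2 * (avg (fun x => ‖F x‖ ^ 2) / c + c * avg fun ξ => ‖G ξ‖ ^ 2) := by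
  have h := hH F (fun ξ => c • G ξ) hF
  have e1 : (fun x => avg fun ξ => e (dot x ξ) * B (F x) (c • G ξ)) =
      fun x => c * avg fun ξ => e (dot x ξ) * B (F x) (G ξ) := by
    funext x
    rw [← avg_mul_left]
    congr 1
    funext ξ
    rw [map_smul, smul_eq_mul]
    ring
  have e2 : (fun ξ => ‖c • G ξ‖ ^ 2) = fun ξ => c ^ 2 * ‖G ξ‖ ^ 2 := by
    funext ξ
    rw [norm_smul, Real.norm_eq_abs, abs_of_pos hc, mul_pow]
  rw [e1, e2, avg_mul_left, avg_mul_left, abs_mul, abs_of_pos hc] at h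
  refine le_of_mul_le_mul_left (h.trans (le_of_eq ?_)) hc
  field_simp

end GEN

open GEN in
theorem GEN_proof : GenStmt.{u} := by
  intro E₁ E₂ _ _ _ _ B m ι κ _ _ _ _ V a W c ha hc hH Δy Δη K hK hW Ft Gt hF
  have h1 : TT B K Ft Gt = avg fun w : Side m ι × Side m ι =>
      K (SS w.1 w.2) w.2.2.2 w.1.2.2 * B (Ft w.1) (Gt w.2) := by
    rw [avg_prod]; rfl
  have h2 : ∀ h h' : κ → ZMod 2, TT B K Ft Gt = avg fun w : Side m ι × Side m ι =>
      K (SS w.1 w.2) w.2.2.2 w.1.2.2 *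
        (e (dot h h') * B (Ft (T1 (Δy h) w.2.2.1 w.1)) (Gt (T2 (Δη h') w.1.2.1 w.2))) := by
    intro h h'
    rw [h1, ← avg_bij _ (TP_inj (Δy h) (Δη h'))]
    congr 1
    funext w
    show K (SS (T1 (Δy h) w.2.2.1 w.1) (T2 (Δη h') w.1.2.1 w.2)) w.2.2.2 w.1.2.2 *
      B (Ft (T1 (Δy h) w.2.2.1 w.1)) (Gt (T2 (Δη h') w.1.2.1 w.2)) = _
    rw [SS_TP, hK]
    ring
  have h3 : TT B K Ft Gt = avg fun w : Side m ι × Side m ι =>
      K (SS w.1 w.2) w.2.2.2 w.1.2.2 * avg fun h => avg fun h' =>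
        e (dot h h') * B (Ft (T1 (Δy h) w.2.2.1 w.1)) (Gt (T2 (Δη h') w.1.2.1 w.2)) := by
    have e1 : TT B K Ft Gt = avg fun _ : κ → ZMod 2 => avg fun _ : κ → ZMod 2 => TT B K Ft Gt := by
      rw [avg_const, avg_const]
    rw [e1]
    simp only [← avg_mul_left]
    rw [avg_comm (α := Side m ι × Side m ι)]
    congr 1
    funext h
    rw [avg_comm (α := Side m ι × Side m ι)]
    congr 1
    funext h'
    exact h2 h h'
  have h4 : |TT B K Ft Gt| ≤ avg fun w : Side m ι × Side m ι =>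
      a / 2 / c * (avg fun h => |K (SS w.1 w.2) w.2.2.2 w.1.2.2| *
        ‖Ft (T1 (Δy h) w.2.2.1 w.1)‖ ^ 2) +
      a / 2 * c * (avg fun h' => |K (SS w.1 w.2) w.2.2.2 w.1.2.2| *
        ‖Gt (T2 (Δη h') w.1.2.1 w.2)‖ ^ 2) := by
    rw [h3]
    refine (abs_avg_le _).trans (avg_le_avg fun w => ?_)
    rw [abs_mul, avg_mul_left, avg_mul_left]
    have h := had_scale B κ V a c hc hH (fun h => Ft (T1 (Δy h) w.2.2.1 w.1))
      (fun h' => Gt (T2 (Δη h') w.1.2.1 w.2)) (fun h => hF _)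
    refine (mul_le_mul_of_nonneg_left h (abs_nonneg _)).trans (le_of_eq ?_)
    ring
  have h5 : avg (fun w : Side m ι × Side m ι => avg fun h => |K (SS w.1 w.2) w.2.2.2 w.1.2.2| *
        ‖Ft (T1 (Δy h) w.2.2.1 w.1)‖ ^ 2) ≤ W * avg fun s => ‖Ft s‖ ^ 2 := by
    rw [avg_comm, ← avg_const (α := κ → ZMod 2) (W * avg fun s => ‖Ft s‖ ^ 2)]
    refine avg_le_avg fun h => ?_
    rw [avg_prod]
    exact side1 K W hW (fun s => ‖Ft s‖ ^ 2) (fun s => by positivity) (T1 (Δy h)) (T1_inj _)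
  have h6 : avg (fun w : Side m ι × Side m ι => avg fun h' => |K (SS w.1 w.2) w.2.2.2 w.1.2.2| *
        ‖Gt (T2 (Δη h') w.1.2.1 w.2)‖ ^ 2) ≤ W * avg fun s => ‖Gt s‖ ^ 2 := by
    rw [avg_comm, ← avg_const (α := κ → ZMod 2) (W * avg fun s => ‖Gt s‖ ^ 2)]
    refine avg_le_avg fun h => ?_
    rw [avg_prod]
    exact side2 K W hW (fun s => ‖Gt s‖ ^ 2) (fun s => by positivity) (T2 (Δη h)) (T2_inj _)
  rw [avg_add, avg_mul_left, avg_mul_left] at h4
  have h7 := mul_le_mul_of_nonneg_left h5 (by positivity : 0 ≤ a / 2 / c)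
  have h8 := mul_le_mul_of_nonneg_left h6 (by positivity : 0 ≤ a / 2 * c)
  refine (h4.trans (add_le_add h7 h8)).trans (le_of_eq ?_)
  ring

end Crest.Agent.R118
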