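import Crest.Agent.R118.Defs

/-! Row 118: KAT0, integrals and series of multipliers. -/

set_option autoImplicit false

namespace Crest.Agent.R118

open Finset Crest.AnalysisR

universe u

theorem KAT0_proof : Kat0Stmt.{u} := by
  intro R _ _ M ⟨N, hN⟩
  refine ⟨fun G a b c hab hG hc => ?_, fun α G g β b hG hβ hb => ?_⟩
  · obtain ⟨φ, hφ, hx⟩ := exists_dual_vector'' ℝ (M fun k => ∫ y in a..b, G y k)
    have h1 : ∀ g : ℕ → ℝ, φ (M g) = ∑ k ∈ range N, g k * φ (M (Pi.single k 1)) := fun g => by
      rw [hN g, map_sum]
      simp only [map_smul, smul_eq_mul]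
    have h2 : ‖M fun k => ∫ y in a..b, G y k‖ =
        ∫ y in a..b, ∑ k ∈ range N, G y k * φ (M (Pi.single k 1)) := by
      rw [intervalIntegral.integral_finsetSum
        (f := fun k y => G y k * φ (M (Pi.single k 1))) (fun k _ => ((hG k).mul continuous_const).intervalIntegrable _ _)]
      simp only [intervalIntegral.integral_mul_const]
      rw [← h1 fun k => ∫ y in a..b, G y k]
      exact hx.symm
    rw [h2]
    have h3 : ∫ y in a..b, ∑ k ∈ range N, G y k * φ (M (Pi.single k 1)) ≤ ∫ _ in a..b, c := by
      refine intervalIntegral.integral_mono_on hab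
        ((continuous_finsetSum _ fun k _ => (hG k).mul continuous_const).intervalIntegrable _ _)
        (continuous_const.intervalIntegrable _ _) fun y hy => ?_
      rw [← h1]
      refine (le_abs_self _).trans ((φ.le_opNorm _).trans ?_)
      exact (mul_le_of_le_one_left (norm_nonneg _) hφ).trans (hc y hy)
    rw [intervalIntegral.integral_const, smul_eq_mul, mul_comm] at h3
    exact h3
  · have h1 : HasSum (fun n => M (G n)) (M g) := by
      rw [hN g]
      simp only [fun n => hN (G n)]
      exact hasSum_sum fun k _ => (hG k).smul_const _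
    exact h1.norm_le_of_bounded hb hβ

end Crest.Agent.R118
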