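import Crest.Agent.R118.Defs

/-! Row 118: KAT1, the resolvent bounds on the imaginary axis. -/

set_option autoImplicit false

namespace Crest.Agent.R118

open Finset Crest.AnalysisR

universe u

namespace KAT1

theorem geo (x : ℝ) (h0 : 0 < x) (h1 : x ≤ 1) :
    HasSum (fun n : ℕ => 3 / 4 * (1 / 4) ^ n * (1 - 3 * x) ^ n) (1 + x)⁻¹ := by
  have h : |(1 - 3 * x) / 4| < 1 := abs_lt.2 ⟨by linarith, by linarith⟩
  have h2 := (hasSum_geometric_of_abs_lt_one h).mul_left (3 / 4)
  have e1 : (fun n : ℕ => 3 / 4 * (1 / 4) ^ n * (1 - 3 * x) ^ n) =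
      fun n : ℕ => 3 / 4 * ((1 - 3 * x) / 4) ^ n := by
    funext n
    rw [mul_assoc, ← mul_pow]
    congr 2
    ring
  have e2 : (1 + x)⁻¹ = 3 / 4 * (1 - (1 - 3 * x) / 4)⁻¹ := by
    have : (1 : ℝ) - (1 - 3 * x) / 4 = 3 / 4 * (1 + x) := by ring
    rw [this, mul_inv, ← mul_assoc]
    norm_num
  rw [e1, e2]
  exact h2

theorem trig (y : ℝ) (hy : y ≠ 0) :
    Real.cos (y * (Real.pi / |y|)) = -1 ∧ Real.sin (y * (Real.pi / |y|)) = 0 := by
  rcases lt_or_gt_of_ne hy with h | h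
  · have : y * (Real.pi / |y|) = -Real.pi := by rw [abs_of_neg h]; field_simp
    rw [this]; simp
  · have : y * (Real.pi / |y|) = Real.pi := by rw [abs_of_pos h]; field_simp
    rw [this]; simp

theorem int_cos (k y T : ℝ) (hy : y ≠ 0) (hc : Real.cos (y * T) = -1) (hs : Real.sin (y * T) = 0) :
    ∫ s in (0 : ℝ)..T, Real.cos (y * s) * Real.exp (-(s * k)) =
      (1 + Real.exp (-(T * k))) * (k / (k ^ 2 + y ^ 2)) := by
  have hp : k ^ 2 + y ^ 2 ≠ 0 := by positivity
  have hd : ∀ s : ℝ, HasDerivAt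
      (fun s => Real.exp (-(s * k)) * (y * Real.sin (y * s) - k * Real.cos (y * s)) / (k ^ 2 + y ^ 2))
      (Real.cos (y * s) * Real.exp (-(s * k))) s := by
    intro s
    have h1 : HasDerivAt (fun s : ℝ => -(s * k)) (-k) s := (hasDerivAt_mul_const k).neg
    have h2 : HasDerivAt (fun s : ℝ => y * s) y s := by
      simpa using (hasDerivAt_id s).const_mul y
    have h3 := (h1.exp.mul ((h2.sin.const_mul y).sub (h2.cos.const_mul k))).div_const (k ^ 2 + y ^ 2)
    refine HasDerivAt.congr_deriv h3 ?_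
    simp only [Pi.sub_apply]
    field_simp
    ring
  rw [intervalIntegral.integral_eq_sub_of_hasDerivAt (fun s _ => hd s)
    (Continuous.intervalIntegrable (by fun_prop) _ _), hc, hs]
  simp only [zero_mul, neg_zero, Real.exp_zero, mul_zero, Real.sin_zero, Real.cos_zero]
  field_simp
  ring

theorem int_sin (k y T : ℝ) (hy : y ≠ 0) (hc : Real.cos (y * T) = -1) (hs : Real.sin (y * T) = 0) :
    ∫ s in (0 : ℝ)..T, Real.sin (y * s) * Real.exp (-(s * k)) =
      (1 + Real.exp (-(T * k))) * (y / (k ^ 2 + y ^ 2)) := by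
  have hp : k ^ 2 + y ^ 2 ≠ 0 := by positivity
  have hd : ∀ s : ℝ, HasDerivAt
      (fun s => -(Real.exp (-(s * k)) * (k * Real.sin (y * s) + y * Real.cos (y * s)) /
        (k ^ 2 + y ^ 2))) (Real.sin (y * s) * Real.exp (-(s * k))) s := by
    intro s
    have h1 : HasDerivAt (fun s : ℝ => -(s * k)) (-k) s := (hasDerivAt_mul_const k).neg
    have h2 : HasDerivAt (fun s : ℝ => y * s) y s := by
      simpa using (hasDerivAt_id s).const_mul y
    have h3 := ((h1.exp.mul ((h2.sin.const_mul k).add (h2.cos.const_mul y))).div_const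
      (k ^ 2 + y ^ 2)).neg
    refine HasDerivAt.congr_deriv h3 ?_
    simp only [Pi.add_apply]
    field_simp
    ring
  rw [intervalIntegral.integral_eq_sub_of_hasDerivAt (fun s _ => hd s)
    (Continuous.intervalIntegrable (by fun_prop) _ _), hc, hs]
  simp only [zero_mul, neg_zero, Real.exp_zero, mul_zero, Real.sin_zero, Real.cos_zero]
  field_simp
  ring

end KAT1

open KAT1 in
theorem KAT1_proof (h0 : Kat0Stmt.{u}) : Kat1Stmt.{u} := by
  intro C μ hC hμ hμ4
  have hq : 0 < 1 - μ / 4 := by linarith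
  set C0 : ℝ := 3 / 4 * C * (1 - μ / 4)⁻¹ with hC0
  have hC00 : 0 ≤ C0 := by positivity
  have hpi : 1 ≤ Real.pi := by linarith [Real.pi_gt_three]
  refine ⟨C0 * Real.pi, by positivity, fun R _ _ M hF hS hP => ?_⟩
  obtain ⟨hI, hSer⟩ := h0 R M hF
  have hsm : ∀ (c : ℝ) (g : ℕ → ℝ), ‖M fun k => c * g k‖ ≤ |c| * ‖M g‖ := fun c g => by
    have : (fun k => c * g k) = c • g := rfl
    rw [this, map_smul]
    exact norm_smul_le c (M g)
  have hA : ∀ t : ℝ, 0 ≤ t → ‖M fun k => (1 + Real.exp (-(t * k)))⁻¹‖ ≤ C0 := by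
    intro t ht
    refine hSer ℕ (fun n k => 3 / 4 * (1 / 4) ^ n * (1 - 3 * Real.exp (-(t * k))) ^ n) _
      (fun n => 3 / 4 * C * (μ / 4) ^ n) C0 (fun k => geo _ (Real.exp_pos _) ?_) (fun n => ?_) ?_
    · exact Real.exp_le_one_iff.2 (neg_nonpos.2 (by positivity))
    · refine (hsm _ _).trans ?_
      rw [abs_of_nonneg (by positivity)]
      calc _ ≤ 3 / 4 * (1 / 4) ^ n * (C * μ ^ n) :=
            mul_le_mul_of_nonneg_left (hP t ht n) (by positivity)
        _ = _ := by rw [div_pow μ, one_div, inv_pow]; ring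
    · exact (hasSum_geometric_of_lt_one (by positivity) (by linarith)).mul_left _
  have hB : ∀ (y : ℝ) (c : ℝ → ℝ) (g : ℕ → ℝ), y ≠ 0 → Continuous c → (∀ s, |c s| ≤ 1) →
      (∀ k : ℕ, ∫ s in (0 : ℝ)..(Real.pi / |y|), c s * Real.exp (-(s * k)) =
        (1 + Real.exp (-(Real.pi / |y| * k))) * g k) → ‖M g‖ ≤ C0 * Real.pi / |y| := by
    intro y c g hy hc hc1 hg
    have hT : 0 ≤ Real.pi / |y| := by positivity
    have h1 := hI (fun s k => c s * Real.exp (-(s * k))) 0 (Real.pi / |y|) 1 hT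
      (fun k => by fun_prop) fun s hs => (hsm _ _).trans
        (mul_le_one₀ (hc1 s) (norm_nonneg _) (hS s hs.1))
    have h2 : g = (fun k : ℕ => (1 + Real.exp (-(Real.pi / |y| * k)))⁻¹) *
        fun k : ℕ => ∫ s in (0 : ℝ)..(Real.pi / |y|), c s * Real.exp (-(s * k)) := by
      funext k
      have : 1 + Real.exp (-(Real.pi / |y| * k)) ≠ 0 := by positivity
      simp only [Pi.mul_apply, hg k]
      field_simp
    rw [h2, map_mul]
    refine (norm_mul_le _ _).trans ((mul_le_mul (hA _ hT) h1 (norm_nonneg _) hC00).trans ?_)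
    rw [one_mul, sub_zero, mul_div_assoc]
  refine ⟨fun t ht => (hA t ht).trans (le_mul_of_one_le_right hC00 hpi), fun y hy => ?_⟩
  obtain ⟨hc, hs⟩ := trig y hy
  exact ⟨hB y (fun s => Real.cos (y * s)) _ hy (by fun_prop) (fun s => Real.abs_cos_le_one _)
      fun k => int_cos k y _ hy hc hs,
    hB y (fun s => Real.sin (y * s)) _ hy (by fun_prop) (fun s => Real.abs_sin_le_one _)
      fun k => int_sin k y _ hy hc hs⟩

end Crest.Agent.R118
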