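import Crest.Agent.R118.Defs

set_option autoImplicit false

namespace Crest.Agent.R118

open Finset Crest.AnalysisR

universe u

namespace KAT2

theorem int_exp (k T : ℝ) (hk : k ≠ 0) :
    ∫ s in (0 : ℝ)..T, Real.exp (-(s * k)) = (1 - Real.exp (-(T * k))) / k := by
  have h : ∀ s ∈ Set.uIcc (0 : ℝ) T,
      HasDerivAt (fun s => -Real.exp (-(s * k)) / k) (Real.exp (-(s * k))) s := by
    intro s _
    have h1 : HasDerivAt (fun s : ℝ => -(s * k)) (-k) s := by
      have := ((hasDerivAt_id s).mul_const k).fun_neg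
      simpa using this
    have h2 := (h1.exp.fun_neg).div_const k
    have h3 : -(Real.exp (-(s * k)) * -k) / k = Real.exp (-(s * k)) := by field_simp
    rw [h3] at h2
    exact h2
  rw [intervalIntegral.integral_eq_sub_of_hasDerivAt h
    (Continuous.intervalIntegrable (by fun_prop) _ _)]
  simp only [zero_mul, neg_zero, Real.exp_zero]
  ring

end KAT2

theorem KAT2_proof (h0 : Kat0Stmt.{u}) (hL : LipStmt) : Kat2Stmt.{u} := by
  intro C₁ hC
  set K : ℝ := 32 * (1 + C₁) * C₁ ^ 2 / (2 * Real.pi) ^ 2 with hK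
  have hK0 : 0 ≤ K := by positivity
  let γ : ℤ → ℝ := fun n => (if n = 0 then 2 else 0) + K * (1 / (n : ℝ) ^ 2)
  have hγs : Summable γ := by
    refine Summable.add ?_ (Summable.mul_left K (Real.summable_one_div_int_pow.2 (by norm_num)))
    exact (hasSum_ite_eq (0 : ℤ) (2 : ℝ)).summable
  have hγ0 : ∀ n, 0 ≤ γ n := fun n => by
    simp only [γ]; split_ifs <;> positivity
  have hS0 : 0 ≤ ∑' n, γ n := tsum_nonneg hγ0
  refine ⟨2 * C₁ * (∑' n, γ n) + 1, by positivity, ?_⟩
  intro R _ _ M hF hSg hinv hres T hT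
  obtain ⟨hI, hH⟩ := h0 R M hF
  have hone : ‖M 1‖ ≤ 1 := by
    have := hSg 0 le_rfl
    have h1 : (fun k : ℕ => Real.exp (-((0 : ℝ) * k))) = 1 := by funext k; simp
    rwa [h1] at this
  have hq : ‖M fun k => Real.exp (-(T * k))‖ ≤ 1 := hSg T hT.le
  have h1q : ‖M fun k => 1 - Real.exp (-(T * k))‖ ≤ 2 := by
    have : (fun k : ℕ => 1 - Real.exp (-(T * k))) = 1 - fun k : ℕ => Real.exp (-(T * k)) := by
      funext k; simp
    rw [this, map_sub]
    refine (norm_sub_le _ _).trans ?_
    linarith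
  have hJ : ‖M fun k => ∫ s in (0 : ℝ)..T, Real.exp (-(s * k))‖ ≤ T := by
    have := hI (fun s k => Real.exp (-(s * k))) 0 T 1 hT.le (fun k => by fun_prop)
      (fun y hy => hSg y hy.1)
    simpa using this
  let G : ℤ → ℕ → ℝ := fun n k => (k : ℝ) * (1 - Real.exp (-(T * k))) ^ 3 *
    (((k : ℝ) ^ 3 - 3 * k * (2 * Real.pi * n / T) ^ 2) /
        ((k : ℝ) ^ 2 + (2 * Real.pi * n / T) ^ 2) ^ 3)
  let g : ℕ → ℝ := fun k =>
    (k : ℝ) * (T ^ 3 / 2) * (Real.exp (-(T * k)) * (1 + Real.exp (-(T * k))))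
  have hsum : ∀ k, HasSum (fun n => G n k) (g k) := by
    intro k
    rcases Nat.eq_zero_or_pos k with hk | hk
    · subst hk
      simp only [G, g, Nat.cast_zero, zero_mul]
      exact hasSum_zero
    · have hk' : (0 : ℝ) < k := by exact_mod_cast hk
      have h1 := (hL k T hk' hT).mul_left ((k : ℝ) * (1 - Real.exp (-(T * k))) ^ 3)
      have hlt : Real.exp (-(T * k)) < 1 := by
        rw [Real.exp_lt_one_iff]
        have := mul_pos hT hk'
        linarith
      have hne : 1 - Real.exp (-(T * k)) ≠ 0 := by linarith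
      have h2 : g k = (k : ℝ) * (1 - Real.exp (-(T * k))) ^ 3 * (T ^ 3 / 2 *
          (Real.exp (-(T * k)) * (1 + Real.exp (-(T * k))) / (1 - Real.exp (-(T * k))) ^ 3)) := by
        simp only [g]
        generalize Real.exp (-(T * k)) = q at hne
        field_simp
      rw [h2]
      exact h1
  have hbd : ∀ n, ‖M (G n)‖ ≤ T ^ 2 * γ n := by
    intro n
    by_cases hn : n = 0
    · subst hn
      have : G 0 = (fun k : ℕ => 1 - Real.exp (-(T * k))) *
          ((fun k : ℕ => ∫ s in (0 : ℝ)..T, Real.exp (-(s * k))) *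
            fun k : ℕ => ∫ s in (0 : ℝ)..T, Real.exp (-(s * k))) := by
        funext k
        simp only [G, Pi.mul_apply]
        rcases Nat.eq_zero_or_pos k with hk | hk
        · subst hk; simp
        · have hk' : (k : ℝ) ≠ 0 := by exact_mod_cast hk.ne'
          rw [KAT2.int_exp k T hk']
          simp only [Int.cast_zero, mul_zero, zero_div]
          field_simp
          ring
      rw [this, map_mul, map_mul]
      refine (norm_mul_le _ _).trans ?_
      have h2 := (norm_mul_le _ _).trans (mul_le_mul hJ hJ (norm_nonneg _) hT.le)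
      refine (mul_le_mul h1q h2 (norm_nonneg _) (by norm_num)).trans ?_
      simp only [γ]
      simp
      nlinarith
    · set y : ℝ := 2 * Real.pi * n / T with hy
      have hn' : (n : ℝ) ≠ 0 := by exact_mod_cast hn
      have hy0 : y ≠ 0 := by
        rw [hy]; have := Real.pi_pos; positivity
      have hya : 0 < |y| := abs_pos.2 hy0
      obtain ⟨hR, hIm⟩ := hres y hy0
      set Q : ℕ → ℝ := fun k : ℕ => 1 - Real.exp (-(T * k)) with hQ
      set Rr : ℕ → ℝ := fun k : ℕ => (k : ℝ) / (k ^ 2 + y ^ 2) with hRr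
      set I : ℕ → ℝ := fun k : ℕ => y / (k ^ 2 + y ^ 2) with hIdef
      have : G n = (Q * (Q * Q)) * ((1 - y • I) * (Rr * Rr - (3 : ℝ) • (I * I))) := by
        funext k
        simp only [G, Pi.mul_apply, Pi.sub_apply, Pi.smul_apply, Pi.one_apply, smul_eq_mul, hQ,
          hRr, hIdef, ← hy]
        have : (k : ℝ) ^ 2 + y ^ 2 ≠ 0 := by positivity
        field_simp
        ring
      rw [this]
      simp only [map_mul, map_sub, map_smul]
      have hQ3 : ‖M Q * (M Q * M Q)‖ ≤ 8 := by
        refine (norm_mul_le _ _).trans ?_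
        have h2 := (norm_mul_le _ _).trans (mul_le_mul h1q h1q (norm_nonneg _) (by norm_num))
        refine (mul_le_mul h1q h2 (norm_nonneg _) (by norm_num)).trans ?_
        norm_num
      have hA : ‖M 1 - y • M I‖ ≤ 1 + C₁ := by
        refine (norm_sub_le _ _).trans (add_le_add hone ?_)
        rw [norm_smul, Real.norm_eq_abs]
        calc |y| * ‖M I‖ ≤ |y| * (C₁ / |y|) := mul_le_mul_of_nonneg_left hIm hya.le
          _ = C₁ := by field_simp
      have hc : 0 ≤ C₁ / |y| := by positivity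
      have hB : ‖M Rr * M Rr - (3 : ℝ) • (M I * M I)‖ ≤ 4 * (C₁ / |y|) ^ 2 := by
        refine (norm_sub_le _ _).trans ?_
        have h2 := (norm_mul_le _ _).trans (mul_le_mul hR hR (norm_nonneg _) hc)
        have h3 := (norm_mul_le _ _).trans (mul_le_mul hIm hIm (norm_nonneg _) hc)
        rw [norm_smul, Real.norm_eq_abs, abs_of_pos (by norm_num : (0 : ℝ) < 3)]
        nlinarith
      refine (norm_mul_le _ _).trans ?_
      have h4 := (norm_mul_le _ _).trans (mul_le_mul hA hB (norm_nonneg _) (by positivity))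
      refine (mul_le_mul hQ3 h4 (norm_nonneg _) (by norm_num)).trans (le_of_eq ?_)
      simp only [γ, if_neg hn, zero_add, div_pow, sq_abs, hK, hy]
      have := Real.pi_pos
      field_simp
      ring
  have hg := hH ℤ G g (fun n => T ^ 2 * γ n) (T ^ 2 * ∑' n, γ n) hsum hbd
    (hγs.hasSum.mul_left _)
  have : (fun k : ℕ => (k : ℝ) * Real.exp (-(T * k))) =
      (2 / T ^ 3) • ((fun k : ℕ => (1 + Real.exp (-(T * k)))⁻¹) * g) := by
    funext k
    simp only [g, Pi.smul_apply, Pi.mul_apply, smul_eq_mul]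
    have : 1 + Real.exp (-(T * k)) ≠ 0 := by positivity
    field_simp
  rw [this, map_smul, map_mul, norm_smul, Real.norm_eq_abs, abs_of_pos (by positivity)]
  have h5 := (norm_mul_le _ _).trans (mul_le_mul (hinv T hT.le) hg (norm_nonneg _) hC)
  refine (mul_le_mul_of_nonneg_left h5 (by positivity)).trans ?_
  rw [le_div_iff₀ hT]
  have : 2 / T ^ 3 * (C₁ * (T ^ 2 * ∑' n, γ n)) * T = 2 * C₁ * ∑' n, γ n := by
    field_simp
  rw [this]
  linarith

end Crest.Agent.R118
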