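import Crest.Agent.R118.Defs

/-! Row 118, task KAT3: from the analytic semigroup bound to the degree-one projection. -/

set_option autoImplicit false

namespace Crest.Agent.R118

open Finset

universe u

namespace KAT3

theorem term {R : Type u} [NormedRing R] [NormedAlgebra ℝ R] (M : (ℕ → ℝ) →ₐ[ℝ] R) (hS : SgM M)
    (B : ℝ) (hB : 0 < B)
    (h : ∀ T : ℝ, 0 < T → ‖M fun k => (k : ℝ) * Real.exp (-(T * k))‖ ≤ B / T)
    (y : ℝ) (hy : |y| ≤ Real.pi) (j : ℕ) (c : ℝ) (hc : |c| ≤ 1) :
    ‖M fun k => c * (y * k) ^ j / (j.factorial : ℝ) *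
      Real.exp (-(2 * Real.exp 1 * Real.pi * B * k))‖ ≤ (1 / 2) ^ j := by
  set t := 2 * Real.exp 1 * Real.pi * B with ht
  have hpi := Real.pi_pos
  have he := Real.exp_pos 1
  have ht0 : 0 < t := by positivity
  rcases Nat.eq_zero_or_pos j with rfl | hj
  · have h1 : (fun k : ℕ => c * (y * k) ^ 0 / ((0 : ℕ).factorial : ℝ) * Real.exp (-(t * k))) =
        c • fun k : ℕ => Real.exp (-(t * k)) := by
      funext k
      simp
    rw [h1, map_smul, norm_smul, Real.norm_eq_abs, pow_zero]
    exact mul_le_one₀ hc (norm_nonneg _) (hS t ht0.le)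
  · have hj0 : (0 : ℝ) < j := by exact_mod_cast hj
    have h1 : (fun k : ℕ => c * (y * k) ^ j / (j.factorial : ℝ) * Real.exp (-(t * k))) =
        (c * y ^ j / (j.factorial : ℝ)) •
          (fun k : ℕ => (k : ℝ) * Real.exp (-(t / j * k))) ^ j := by
      funext k
      simp only [Pi.smul_apply, Pi.pow_apply, smul_eq_mul, mul_pow]
      rw [← Real.exp_nat_mul]
      have : (j : ℝ) * -(t / j * k) = -(t * k) := by field_simp
      rw [this]
      ring
    rw [h1, map_smul, map_pow, norm_smul, Real.norm_eq_abs]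
    have h2 := norm_pow_le' (M fun k : ℕ => (k : ℝ) * Real.exp (-(t / j * k))) hj
    have h3 := pow_le_pow_left₀ (norm_nonneg _) (h (t / j) (by positivity)) j
    have hf : (0 : ℝ) < j.factorial := by exact_mod_cast j.factorial_pos
    have h4 : |c * y ^ j / (j.factorial : ℝ)| ≤ Real.pi ^ j / j.factorial := by
      rw [abs_div, abs_of_pos hf, abs_mul, abs_pow]
      refine div_le_div_of_nonneg_right ?_ hf.le
      calc |c| * |y| ^ j ≤ 1 * Real.pi ^ j :=
            mul_le_mul hc (pow_le_pow_left₀ (abs_nonneg _) hy j) (by positivity) zero_le_one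
        _ = _ := one_mul _
    have h5 : (j : ℝ) ^ j / j.factorial ≤ Real.exp 1 ^ j := by
      rw [← Real.exp_nat_mul, mul_one]
      exact Real.pow_div_factorial_le_exp _ hj0.le j
    calc _ ≤ Real.pi ^ j / j.factorial * (B / (t / j)) ^ j :=
          mul_le_mul h4 (h2.trans h3) (norm_nonneg _) (by positivity)
      _ = (j : ℝ) ^ j / j.factorial * (1 / (2 * Real.exp 1)) ^ j := by
          have : B / (t / j) = j * (1 / (2 * Real.exp 1)) / Real.pi := by
            rw [ht]
            field_simp
          rw [this, div_pow, mul_pow]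
          field_simp
      _ ≤ Real.exp 1 ^ j * (1 / (2 * Real.exp 1)) ^ j :=
          mul_le_mul_of_nonneg_right h5 (by positivity)
      _ = (1 / 2) ^ j := by
          rw [← mul_pow]
          congr 1
          field_simp

theorem integ (k : ℕ) : ∫ y in (-Real.pi)..Real.pi,
    (Real.cos y * Real.cos (y * k) + Real.sin y * Real.sin (y * k)) =
      2 * Real.pi * (Pi.single 1 1 : ℕ → ℝ) k := by
  have h1 : ∀ y : ℝ, Real.cos y * Real.cos (y * k) + Real.sin y * Real.sin (y * k) =
      Real.cos (((k : ℝ) - 1) * y) := by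
    intro y
    rw [show ((k : ℝ) - 1) * y = y * k - y by ring, Real.cos_sub]
    ring
  simp only [h1]
  by_cases hk : k = 1
  · subst hk
    simp
    ring
  · have h2 : (k : ℝ) - 1 ≠ 0 := by
      rw [sub_ne_zero]
      exact_mod_cast hk
    rw [intervalIntegral.integral_comp_mul_left (fun x => Real.cos x) h2, integral_cos,
      Pi.single_eq_of_ne hk, mul_neg, Real.sin_neg]
    have h3 : Real.sin (((k : ℝ) - 1) * Real.pi) = 0 := by
      have := Real.sin_int_mul_pi ((k : ℤ) - 1)
      push_cast at this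
      exact this
    rw [h3]
    simp

end KAT3

theorem KAT3_proof (h0 : Kat0Stmt.{u}) : Kat3Stmt.{u} := by
  intro B hB
  set t := 2 * Real.exp 1 * Real.pi * B with ht
  refine ⟨4 * Real.exp t, by positivity, ?_⟩
  intro R _ _ M hF hS h
  obtain ⟨hI, hsum⟩ := h0 R M hF
  have hpi := Real.pi_pos
  have hhalf : ∀ j n : ℕ, n ≤ j → (1 / 2 : ℝ) ^ j ≤ (1 / 2) ^ n := fun j n hn =>
    pow_le_pow_of_le_one (by norm_num) (by norm_num) hn
  have hcos : ∀ y : ℝ, |y| ≤ Real.pi →
      ‖M fun k => Real.cos (y * k) * Real.exp (-(t * k))‖ ≤ 2 := by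
    intro y hy
    refine hsum ℕ (fun n k => (-1) ^ n * (y * k) ^ (2 * n) / ((2 * n).factorial : ℝ) *
      Real.exp (-(t * k))) _ (fun n => (1 / 2) ^ n) 2
      (fun k => (Real.hasSum_cos (y * k)).mul_right _) (fun n => ?_) hasSum_geometric_two
    exact (KAT3.term M hS B hB h y hy (2 * n) ((-1) ^ n) (by simp)).trans (hhalf _ _ (by omega))
  have hsin : ∀ y : ℝ, |y| ≤ Real.pi →
      ‖M fun k => Real.sin (y * k) * Real.exp (-(t * k))‖ ≤ 2 := by
    intro y hy
    refine hsum ℕ (fun n k => (-1) ^ n * (y * k) ^ (2 * n + 1) / ((2 * n + 1).factorial : ℝ) *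
      Real.exp (-(t * k))) _ (fun n => (1 / 2) ^ n) 2
      (fun k => (Real.hasSum_sin (y * k)).mul_right _) (fun n => ?_) hasSum_geometric_two
    exact (KAT3.term M hS B hB h y hy (2 * n + 1) ((-1) ^ n) (by simp)).trans
      (hhalf _ _ (by omega))
  have hG := hI (fun y k => (Real.cos y * Real.cos (y * k) + Real.sin y * Real.sin (y * k)) *
    Real.exp (-(t * k))) (-Real.pi) Real.pi 4 (by linarith) (fun k => by fun_prop) (by
      intro y hy
      have hy' : |y| ≤ Real.pi := abs_le.2 hy
      have h1 : (fun k : ℕ => (Real.cos y * Real.cos (y * k) + Real.sin y * Real.sin (y * k)) *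
          Real.exp (-(t * k))) =
          Real.cos y • (fun k : ℕ => Real.cos (y * k) * Real.exp (-(t * k))) +
            Real.sin y • (fun k : ℕ => Real.sin (y * k) * Real.exp (-(t * k))) := by
        funext k
        simp only [Pi.add_apply, Pi.smul_apply, smul_eq_mul]
        ring
      rw [h1, map_add, map_smul, map_smul]
      refine (norm_add_le _ _).trans ?_
      rw [norm_smul, norm_smul, Real.norm_eq_abs, Real.norm_eq_abs]
      have h2 := mul_le_mul (Real.abs_cos_le_one y) (hcos y hy') (norm_nonneg _) zero_le_one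
      have h3 := mul_le_mul (Real.abs_sin_le_one y) (hsin y hy') (norm_nonneg _) zero_le_one
      linarith)
  have h1 : (Pi.single 1 1 : ℕ → ℝ) = (Real.exp t / (2 * Real.pi)) • fun k : ℕ =>
      ∫ y in (-Real.pi)..Real.pi,
        (Real.cos y * Real.cos (y * k) + Real.sin y * Real.sin (y * k)) * Real.exp (-(t * k)) := by
    funext k
    rw [Pi.smul_apply, intervalIntegral.integral_mul_const, KAT3.integ, smul_eq_mul]
    by_cases hk : k = 1
    · subst hk
      simp only [Pi.single_eq_same, Nat.cast_one, mul_one, Real.exp_neg]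
      field_simp
    · simp [Pi.single_eq_of_ne hk]
  rw [h1, map_smul, norm_smul, Real.norm_eq_abs, abs_of_pos (by positivity)]
  calc _ ≤ Real.exp t / (2 * Real.pi) * (4 * (Real.pi - -Real.pi)) :=
        mul_le_mul_of_nonneg_left hG (by positivity)
    _ = _ := by
        field_simp
        ring

end Crest.Agent.R118
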