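import Crest.Agent.R118.Defs

/-! Row 118, task KER: the test kernel is a positive kernel of mass one. -/

set_option autoImplicit false

namespace Crest.Agent.R118

open Finset Crest.AnalysisR

namespace KER

theorem pow_wt {ι : Type*} [Fintype ι] (x : ℝ) (α : ι → ZMod 2) :
    x ^ wt α = ∏ i, if α i ≠ 0 then x else 1 := by
  classical
  rw [Finset.prod_ite]
  simp [wt]

theorem sum_z2 (f : ZMod 2 → ℝ) : ∑ a, f a = f 0 + f 1 := by
  have : (univ : Finset (ZMod 2)) = {0, 1} := by decide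
  rw [this, Finset.sum_pair (by decide)]

theorem prod_expand {ι : Type*} [Fintype ι] [DecidableEq ι] (x : ℝ) (z : ι → ZMod 2) :
    ∏ i, (1 + x * e (z i)) = ∑ α : ι → ZMod 2, x ^ wt α * e (dot α z) := by
  have h1 : ∀ i, 1 + x * e (z i) = ∑ a : ZMod 2, (if a ≠ 0 then x else 1) * e (a * z i) := by
    intro i
    rw [sum_z2]
    simp
  simp only [h1]
  rw [Finset.prod_univ_sum, Fintype.piFinset_univ]
  refine Finset.sum_congr rfl fun α _ => ?_
  rw [Finset.prod_mul_distrib, pow_wt, dot, e_sum]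

theorem add_eq_zero_iff {ι : Type*} (a b : ι → ZMod 2) : a + b = 0 ↔ b = a := by
  constructor
  · intro h
    funext i
    have h1 : a i + b i = 0 := congrFun h i
    have h2 := z2_add_self (a i)
    exact add_left_cancel (h1.trans h2.symm)
  · rintro rfl
    funext i
    exact z2_add_self _

theorem conv {ι : Type*} [Fintype ι] [DecidableEq ι] (x : ℝ) (r ε : ι → ZMod 2) :
    avg (fun u : ι → ZMod 2 => e (dot r u) * ∏ i, (1 + x * e (ε i + u i))) =
      x ^ wt r * e (dot r ε) := by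
  have h1 : ∀ u : ι → ZMod 2, e (dot r u) * ∏ i, (1 + x * e (ε i + u i)) =
      ∑ α : ι → ZMod 2, (x ^ wt α * e (dot α ε)) * e (dot (r + α) u) := by
    intro u
    rw [prod_expand x (fun i => ε i + u i), Finset.mul_sum]
    refine Finset.sum_congr rfl fun α _ => ?_
    have : dot α (fun i => ε i + u i) = dot α ε + dot α u := dot_add_right α ε u
    rw [this, dot_add_left, e_add, e_add]
    ring
  simp only [h1]
  rw [avg_sum]
  simp only [avg_mul_left, avg_e_dot, add_eq_zero_iff]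
  simp

theorem mat_expand {m : ℕ} (τ : ℝ) (S : Mat m) (u v : Fin m → ZMod 2) :
    ∏ i, ∏ j, (1 + τ * e (S i j + u i + v j)) =
      ∑ A : Mat m, τ ^ wt2 A * e (∑ i, dot (A i) (S i)) * e (dot (rowp A) u) *
        e (dot (colp A) v) := by
  have h1 : ∀ i, ∏ j, (1 + τ * e (S i j + u i + v j)) =
      ∑ α : Fin m → ZMod 2, τ ^ wt α * e (dot α fun j => S i j + u i + v j) :=
    fun i => prod_expand τ _
  simp only [h1]
  rw [Finset.prod_univ_sum, Fintype.piFinset_univ]
  refine Finset.sum_congr rfl fun A _ => ?_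
  rw [Finset.prod_mul_distrib, Finset.prod_pow_eq_pow_sum, ← e_sum, mul_assoc, mul_assoc, ← e_add,
    ← e_add]
  congr 2
  simp only [dot, rowp, colp, mul_add, Finset.sum_add_distrib, Finset.sum_mul]
  rw [add_assoc]
  congr 2
  exact Finset.sum_comm

theorem one_add_nonneg {x : ℝ} (hx : |x| ≤ 1) (z : ZMod 2) : 0 ≤ 1 + x * e z := by
  have h1 : |x * e z| ≤ 1 := by rw [abs_mul, abs_e, mul_one]; exact hx
  linarith [neg_abs_le (x * e z)]

theorem ker_nonneg {m : ℕ} (τ σ ρ : ℝ) (hτ : |τ| ≤ 1) (hσ : |σ| ≤ 1) (hρ : |ρ| ≤ 1)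
    (ε ε' : Fin m → ZMod 2) (S : Mat m) :
    0 ≤ ∑ A : Mat m, τ ^ wt2 A * σ ^ wt (rowp A) * ρ ^ wt (colp A) * mono A S ε ε' := by
  have h1 : ∑ A : Mat m, τ ^ wt2 A * σ ^ wt (rowp A) * ρ ^ wt (colp A) * mono A S ε ε' =
      avg fun u : Fin m → ZMod 2 => avg fun v : Fin m → ZMod 2 =>
        (∏ i, ∏ j, (1 + τ * e (S i j + u i + v j))) * (∏ i, (1 + σ * e (ε i + u i))) *
          ∏ j, (1 + ρ * e (ε' j + v j)) := by
    have h2 : ∀ u v : Fin m → ZMod 2,
        (∏ i, ∏ j, (1 + τ * e (S i j + u i + v j))) * (∏ i, (1 + σ * e (ε i + u i))) *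
          ∏ j, (1 + ρ * e (ε' j + v j)) =
        ∑ A : Mat m, (τ ^ wt2 A * e (∑ i, dot (A i) (S i)) *
          (e (dot (rowp A) u) * ∏ i, (1 + σ * e (ε i + u i)))) *
          (e (dot (colp A) v) * ∏ j, (1 + ρ * e (ε' j + v j))) := by
      intro u v
      rw [mat_expand, Finset.sum_mul, Finset.sum_mul]
      refine Finset.sum_congr rfl fun A _ => by ring
    simp only [h2, avg_sum, avg_mul_left, avg_mul_right, conv]
    refine Finset.sum_congr rfl fun A _ => ?_
    rw [mono, e_add, e_add]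
    ring
  rw [h1]
  refine avg_nonneg fun u => avg_nonneg fun v => mul_nonneg (mul_nonneg ?_ ?_) ?_
  · exact Finset.prod_nonneg fun i _ => Finset.prod_nonneg fun j _ => one_add_nonneg hτ _
  · exact Finset.prod_nonneg fun i _ => one_add_nonneg hσ _
  · exact Finset.prod_nonneg fun i _ => one_add_nonneg hρ _

theorem avg_mat {m : ℕ} (A : Mat m) :
    avg (fun S : Mat m => e (∑ i, dot (A i) (S i))) = if A = 0 then 1 else 0 := by
  rw [← avg_equiv (Equiv.curry (Fin m) (Fin m) (ZMod 2))]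
  have h1 : ∀ a : Fin m × Fin m → ZMod 2,
      ∑ i, dot (A i) (Equiv.curry (Fin m) (Fin m) (ZMod 2) a i) =
        dot (fun p : Fin m × Fin m => A p.1 p.2) a := by
    intro a
    simp [dot, Fintype.sum_prod_type]
  simp only [h1]
  rw [avg_e_dot]
  congr 1
  apply propext
  constructor
  · intro h
    funext i j
    exact congrFun h (i, j)
  · rintro rfl
    rfl

end KER

theorem KER_proof : KerStmt := by
  intro m τ σ ρ hτ hσ hρ ε ε'
  have h1 : ∀ S : Mat m,
      |∑ A : Mat m, τ ^ wt2 A * σ ^ wt (rowp A) * ρ ^ wt (colp A) * mono A S ε ε'| =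
        ∑ A : Mat m, (τ ^ wt2 A * σ ^ wt (rowp A) * ρ ^ wt (colp A) * e (dot (rowp A) ε) *
          e (dot (colp A) ε')) * e (∑ i, dot (A i) (S i)) := by
    intro S
    rw [abs_of_nonneg (KER.ker_nonneg τ σ ρ hτ hσ hρ ε ε' S)]
    refine Finset.sum_congr rfl fun A _ => ?_
    rw [mono, e_add, e_add]
    ring
  simp only [h1, avg_sum, avg_mul_left, KER.avg_mat]
  have h2 : rowp (0 : Mat m) = 0 := by funext i; simp [rowp]
  have h3 : colp (0 : Mat m) = 0 := by funext i; simp [colp]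
  simp [h2, h3, wt2, wt, dot]

end Crest.Agent.R118
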