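import Crest.Agent.R118.Defs

/-! Row 118, task LAM. -/

set_option autoImplicit false

namespace Crest.Agent.R118

open Finset

namespace LAM

theorem step {N : ℕ} (w σ : Fin N → ℝ) (b : ℕ) (a : ℕ) :
    lam (Fin.append (fun l => w l / (1 - 2 ^ b / 2)) (fun l => -(2 ^ b * w l) / (1 - 2 ^ b / 2)))
      (Fin.append σ (fun l => σ l / 2)) a = lam w σ a * ((1 - 2 ^ b / 2 ^ a) / (1 - 2 ^ b / 2)) := by
  unfold lam
  rw [Fin.sum_univ_add]
  simp only [Fin.append_left, Fin.append_right]
  rw [← sum_add_distrib, sum_mul]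
  refine sum_congr rfl fun l _ => ?_
  rw [div_pow]
  ring

end LAM

theorem LAM_proof : LamStmt := by
  intro L
  induction L with
  | zero =>
    refine ⟨2, ![1 / 2, -1 / 2], ![1, -1], ?_, ?_, ?_, ?_⟩
    · intro l; fin_cases l <;> simp
    · simp [lam, Fin.sum_univ_two]; norm_num
    · intro a ha; simp [lam, Fin.sum_univ_two, ha.neg_one_pow]; norm_num
    · intro a h1 h2; omega
  | succ L ih =>
    obtain ⟨N, w, σ, h1, h2, h3, h4⟩ := ih
    by_cases hL : L = 0
    · exact ⟨N, w, σ, h1, h2, h3, fun a ha hb => by omega⟩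
    have hne : (1 : ℝ) - 2 ^ (L + 1) / 2 ≠ 0 := by
      have : (2 : ℝ) ≤ 2 ^ L := by
        calc (2 : ℝ) = 2 ^ 1 := by norm_num
          _ ≤ 2 ^ L := pow_le_pow_right₀ (by norm_num) (by omega)
      rw [pow_succ]
      intro h
      linarith
    refine ⟨N + N, Fin.append (fun l => w l / (1 - 2 ^ (L + 1) / 2))
      (fun l => -(2 ^ (L + 1) * w l) / (1 - 2 ^ (L + 1) / 2)), Fin.append σ (fun l => σ l / 2),
      ?_, ?_, ?_, ?_⟩
    · intro l
      refine Fin.addCases (fun l => ?_) (fun l => ?_) l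
      · rw [Fin.append_left]; exact h1 l
      · rw [Fin.append_right, abs_div, abs_two]; linarith [h1 l, abs_nonneg (σ l)]
    · rw [LAM.step, h2, pow_one, div_self hne, mul_one]
    · intro a ha
      rw [LAM.step, h3 a ha, zero_mul]
    · intro a ha hb
      rw [LAM.step]
      rcases Nat.lt_or_ge L a with h | h
      · have : a = L + 1 := by omega
        subst this
        rw [div_self (by positivity), sub_self, zero_div, mul_zero]
      · rw [h4 a ha h, zero_mul]

end Crest.Agent.R118
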