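import Crest.Agent.R118.Defs

/-! Row 118: lifts in the dual space (LIFT1). -/

set_option autoImplicit false

namespace Crest.Agent.R118

open Finset

universe u

namespace LIFT1

theorem card_eq (m : ℕ) : (Fintype.card (Fin m → ZMod 2) : ℝ) = 2 ^ m := by
  simp

theorem orth {m : ℕ} (i j : Fin m) :
    ∑ ε : Fin m → ZMod 2, e (ε j) * e (ε i) = if i = j then (2 : ℝ) ^ m else 0 := by
  split_ifs with h
  · subst h
    simp [e_mul_self]
  · have h1 := avg_e_dot (Pi.single j 1 + Pi.single i 1 : Fin m → ZMod 2)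
    have hne : (Pi.single j 1 + Pi.single i 1 : Fin m → ZMod 2) ≠ 0 := by
      intro h0
      have := congrFun h0 i
      simp [h] at this
    rw [if_neg hne] at h1
    have h2 : ∀ y : Fin m → ZMod 2,
        e (dot (Pi.single j 1 + Pi.single i 1 : Fin m → ZMod 2) y) = e (y j) * e (y i) := by
      intro y
      rw [dot_add_left, e_add]
      simp [dot, Pi.single_apply]
    simp only [h2] at h1
    unfold avg at h1
    rw [card_eq] at h1
    have h3 : ((2 : ℝ) ^ m)⁻¹ ≠ 0 := by positivity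
    exact (mul_eq_zero.1 h1).resolve_left h3

variable {X : Type u} [NormedAddCommGroup X] [NormedSpace ℝ X]

theorem norming (ψ : StrongDual ℝ X) : ∃ x : X, ‖x‖ ≤ 1 ∧ ‖ψ‖ / 2 ≤ ψ x := by
  rcases (norm_nonneg ψ).eq_or_lt with h | h
  · exact ⟨0, by simp, by simp [← h]⟩
  · obtain ⟨x, hx, hx'⟩ := ψ.exists_lt_apply_of_lt_opNorm (r := ‖ψ‖ / 2) (by linarith)
    rw [Real.norm_eq_abs] at hx'
    rcases le_total 0 (ψ x) with h0 | h0
    · rw [abs_of_nonneg h0] at hx'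
      exact ⟨x, hx.le, hx'.le⟩
    · rw [abs_of_nonpos h0] at hx'
      exact ⟨-x, by simpa using hx.le, by rw [map_neg]; exact hx'.le⟩

theorem comp_bound {Ω : Type} [Fintype Ω] (ψ : Ω → StrongDual ℝ X) (c : ℝ) (hc : 0 ≤ c)
    (h : ∀ f : Ω → X, (∑ ε, ψ ε (f ε)) ^ 2 ≤ c * ∑ ε, ‖f ε‖ ^ 2) : ∑ ε, ‖ψ ε‖ ^ 2 ≤ 4 * c := by
  choose x hx hx' using fun ε => norming (ψ ε)
  have h1 := h (fun ε => ‖ψ ε‖ • x ε)
  have h2 : ∑ ε, ‖‖ψ ε‖ • x ε‖ ^ 2 ≤ ∑ ε, ‖ψ ε‖ ^ 2 := by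
    refine Finset.sum_le_sum (fun ε _ => ?_)
    rw [norm_smul, norm_norm]
    refine pow_le_pow_left₀ (by positivity) ?_ 2
    exact mul_le_of_le_one_right (norm_nonneg _) (hx ε)
  have h3 : (∑ ε, ‖ψ ε‖ ^ 2) / 2 ≤ ∑ ε, ψ ε (‖ψ ε‖ • x ε) := by
    rw [Finset.sum_div]
    refine Finset.sum_le_sum (fun ε _ => ?_)
    rw [map_smul, smul_eq_mul]
    have := mul_le_mul_of_nonneg_left (hx' ε) (norm_nonneg (ψ ε))
    linarith
  have hS : 0 ≤ ∑ ε, ‖ψ ε‖ ^ 2 := Finset.sum_nonneg (fun _ _ => sq_nonneg _)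
  have h4 : ((∑ ε, ‖ψ ε‖ ^ 2) / 2) ^ 2 ≤ c * ∑ ε, ‖ψ ε‖ ^ 2 :=
    (pow_le_pow_left₀ (by positivity) h3 2).trans (h1.trans (mul_le_mul_of_nonneg_left h2 hc))
  rcases hS.eq_or_lt with h0 | h0
  · rw [← h0]
    positivity
  · by_contra hcon
    push Not at hcon
    nlinarith

theorem ext {Ω : Type} [Fintype Ω] [DecidableEq Ω] (p : Submodule ℝ (Ω → X))
    (L : (Ω → X) →ₗ[ℝ] ℝ) (c : ℝ) (hc : 0 ≤ c) (h : ∀ f ∈ p, (L f) ^ 2 ≤ c * ∑ ε, ‖f ε‖ ^ 2) :
    ∃ ψ : Ω → StrongDual ℝ X, (∀ f ∈ p, ∑ ε, ψ ε (f ε) = L f) ∧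
      ∀ f : Ω → X, (∑ ε, ψ ε (f ε)) ^ 2 ≤ c * ∑ ε, ‖f ε‖ ^ 2 := by
  let J : PiLp 2 (fun _ : Ω => X) ≃L[ℝ] (Ω → X) := PiLp.continuousLinearEquiv 2 ℝ _
  let p' : Submodule ℝ (PiLp 2 (fun _ : Ω => X)) := p.comap (J : _ →L[ℝ] _).toLinearMap
  let L' : p' →ₗ[ℝ] ℝ := L ∘ₗ (J : _ →L[ℝ] _).toLinearMap ∘ₗ p'.subtype
  have hb : ∀ z : p', ‖L' z‖ ≤ √c * ‖z‖ := by
    intro z
    have h1 := h (J z.1) z.2
    have h2 : ∑ ε, ‖J z.1 ε‖ ^ 2 = ‖z‖ ^ 2 := (PiLp.norm_sq_eq_of_L2 _ z.1).symm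
    rw [h2] at h1
    rw [Real.norm_eq_abs]
    refine abs_le_of_sq_le_sq' ?_ (by positivity) |> abs_le.2
    rw [mul_pow, Real.sq_sqrt hc]
    exact h1
  obtain ⟨g, hg, hg'⟩ := exists_extension_norm_eq p' (L'.mkContinuous _ hb)
  have hgn : ‖g‖ ≤ √c := hg' ▸ L'.mkContinuous_norm_le (Real.sqrt_nonneg c) hb
  let G : (Ω → X) →L[ℝ] ℝ := g ∘L (J.symm : _ →L[ℝ] _)
  have hG : ∀ f : Ω → X, ∑ ε, (G ∘L ContinuousLinearMap.single ℝ (fun _ : Ω => X) ε) (f ε) = G f := by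
    intro f
    simp only [ContinuousLinearMap.comp_apply, ContinuousLinearMap.single_apply]
    rw [← map_sum, Finset.univ_sum_single]
  refine ⟨fun ε => G ∘L ContinuousLinearMap.single ℝ (fun _ : Ω => X) ε, fun f hf => ?_,
    fun f => ?_⟩
  · rw [hG]
    have hm : J.symm f ∈ p' := by
      simpa [p'] using hf
    have := hg ⟨J.symm f, hm⟩
    simpa [G, L'] using this
  · rw [hG]
    have h1 : ‖G f‖ ≤ √c * ‖J.symm f‖ :=
      (g.le_opNorm _).trans (mul_le_mul_of_nonneg_right hgn (norm_nonneg _))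
    have h2 : ‖J.symm f‖ ^ 2 = ∑ ε, ‖f ε‖ ^ 2 := PiLp.norm_sq_eq_of_L2 _ _
    rw [← h2, ← sq_abs, ← Real.sq_sqrt hc, ← mul_pow]
    exact pow_le_pow_left₀ (abs_nonneg _) h1 2

end LIFT1

open LIFT1 in
theorem LIFT1_proof : Lift1Stmt.{u} := by
  intro X _ _ m κ hκ hC v
  have h2m : (0 : ℝ) < 2 ^ m := by positivity
  let R : (Fin m → X) →ₗ[ℝ] ((Fin m → ZMod 2) → X) :=
    { toFun := fun y ε => ∑ j, e (ε j) • y j
      map_add' := fun y y' => by
        funext ε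
        simp [Finset.sum_add_distrib]
      map_smul' := fun c y => by
        funext ε
        simp only [Pi.smul_apply, RingHom.id_apply, Finset.smul_sum]
        exact Finset.sum_congr rfl (fun j _ => smul_comm _ _ _) }
  let L : ((Fin m → ZMod 2) → X) →ₗ[ℝ] ℝ :=
    { toFun := fun f => ∑ j, ∑ ε, e (ε j) * v j (f ε)
      map_add' := fun f f' => by
        simp [mul_add, Finset.sum_add_distrib]
      map_smul' := fun c f => by
        simp only [Pi.smul_apply, map_smul, smul_eq_mul, RingHom.id_apply, Finset.mul_sum]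
        exact Finset.sum_congr rfl (fun j _ => Finset.sum_congr rfl (fun ε _ => by ring)) }
  have hLR : ∀ y, L (R y) = 2 ^ m * ∑ j, v j (y j) := by
    intro y
    change ∑ j, ∑ ε : Fin m → ZMod 2, e (ε j) * v j (∑ i, e (ε i) • y i) = _
    rw [Finset.mul_sum]
    refine Finset.sum_congr rfl (fun j _ => ?_)
    simp only [map_sum, map_smul, smul_eq_mul, Finset.mul_sum, ← mul_assoc]
    rw [Finset.sum_comm]
    simp only [← Finset.sum_mul, orth]
    simp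
  have hA : 0 ≤ ∑ j, ‖v j‖ ^ 2 := Finset.sum_nonneg (fun _ _ => sq_nonneg _)
  obtain ⟨ψ, h1, h2⟩ := ext (LinearMap.range R) L (2 ^ m * κ ^ 2 * ∑ j, ‖v j‖ ^ 2)
    (by positivity) (by
      rintro _ ⟨y, rfl⟩
      rw [hLR]
      have a1 : |∑ j, v j (y j)| ≤ ∑ j, ‖v j‖ * ‖y j‖ :=
        (Finset.abs_sum_le_sum_abs _ _).trans
          (Finset.sum_le_sum (fun j _ => (v j).le_opNorm (y j)))
      have a2 : (∑ j, v j (y j)) ^ 2 ≤ (∑ j, ‖v j‖ ^ 2) * ∑ j, ‖y j‖ ^ 2 := by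
        rw [← sq_abs]
        exact (pow_le_pow_left₀ (abs_nonneg _) a1 2).trans
          (Finset.sum_mul_sq_le_sq_mul_sq _ _ _)
      have a3 := hC y
      unfold avg at a3
      rw [card_eq] at a3
      have a4 : (∑ ε, ‖R y ε‖ ^ 2) = ∑ ε : Fin m → ZMod 2, ‖∑ j, e (ε j) • y j‖ ^ 2 := rfl
      rw [a4, mul_pow]
      have a5 := mul_le_mul_of_nonneg_left (a2.trans (mul_le_mul_of_nonneg_left a3 hA))
        (sq_nonneg ((2 : ℝ) ^ m))
      refine a5.trans (le_of_eq ?_)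
      field_simp)
  have h3 := comp_bound ψ _ (by positivity) h2
  refine ⟨ψ, fun j => ?_, ?_⟩
  · ext x
    have h4 := h1 (R (Pi.single j x)) ⟨_, rfl⟩
    rw [hLR] at h4
    have h5 : ∀ ε, R (Pi.single j x) ε = e (ε j) • x := by
      intro ε
      change ∑ i, e (ε i) • (Pi.single j x : Fin m → X) i = _
      rw [Finset.sum_eq_single j]
      · simp
      · intro i _ hi
        simp [hi]
      · simp
    have h6 : ∑ i, v i ((Pi.single j x : Fin m → X) i) = v j x := by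
      rw [Finset.sum_eq_single j]
      · simp
      · intro i _ hi
        simp [hi]
      · simp
    simp only [h5, h6, map_smul, smul_eq_mul] at h4
    simpa using h4
  · unfold avg
    rw [card_eq, inv_mul_le_iff₀ h2m]
    refine h3.trans (le_of_eq ?_)
    ring

end Crest.Agent.R118
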