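import Crest.Agent.R118.Defs

/-! Row 118: lifts in `X` from cotype of the dual. -/

set_option autoImplicit false

namespace Crest.Agent.R118

open Finset Crest.AnalysisR

universe u

namespace LIFT2

theorem sum_e_mul {m : ℕ} (i j : Fin m) :
    ∑ ε : Fin m → ZMod 2, e (ε j) * e (ε i) = if i = j then (2 : ℝ) ^ m else 0 := by
  have h := avg_e_dot (ι := Fin m) (Pi.single j 1 + Pi.single i 1)
  have hd : ∀ (k : Fin m) (y : Fin m → ZMod 2), dot (Pi.single k 1) y = y k := by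
    intro k y
    simp [dot, Pi.single_apply]
  simp only [dot_add_left, hd, e_add, avg] at h
  have hc : (Fintype.card (Fin m → ZMod 2) : ℝ) = 2 ^ m := by simp
  rw [hc] at h
  have h2 : (0 : ℝ) < 2 ^ m := by positivity
  by_cases hij : i = j
  · subst hij
    simp [e_mul_self]
  · have hne : (Pi.single j 1 + Pi.single i 1 : Fin m → ZMod 2) ≠ 0 := by
      intro h0
      have := congrFun h0 i
      simp [hij] at this
    rw [if_neg hne] at h
    rw [if_neg hij]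
    rcases mul_eq_zero.1 h with h | h
    · exact absurd h (by positivity)
    · exact h

variable {X : Type u} [NormedAddCommGroup X] [NormedSpace ℝ X] {m : ℕ}

abbrev Z (X : Type u) (m : ℕ) := PiLp 2 (fun _ : Fin m → ZMod 2 => X)

/-- degree-one coefficients (unnormalised) -/
noncomputable def Q : Z X m →ₗ[ℝ] (Fin m → X) where
  toFun Φ := fun j => ∑ ε, e (ε j) • Φ ε
  map_add' Φ Ψ := by
    funext j
    simp [sum_add_distrib]
  map_smul' c Φ := by
    funext j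
    simp only [PiLp.smul_apply, RingHom.id_apply, Pi.smul_apply, smul_sum]
    exact sum_congr rfl fun ε _ => smul_comm _ _ _

/-- Rademacher sum -/
noncomputable def Rd (v : Fin m → X) : Z X m := WithLp.toLp 2 fun ε => ∑ j, e (ε j) • v j

theorem Q_Rd (v : Fin m → X) : Q (Rd v) = (2 : ℝ) ^ m • v := by
  funext j
  change ∑ ε : Fin m → ZMod 2, e (ε j) • ∑ i, e (ε i) • v i = (2 : ℝ) ^ m • v j
  simp only [smul_sum, smul_smul]
  rw [sum_comm]
  simp only [← sum_smul, sum_e_mul]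
  simp

/-- one Rademacher term as a continuous linear map -/
noncomputable def Sg (j : Fin m) : X →ₗ[ℝ] Z X m where
  toFun x := WithLp.toLp 2 fun ε => e (ε j) • x
  map_add' x y := by
    ext ε; simp
  map_smul' c x := by
    ext ε; simp [smul_comm c]

theorem Sg_cont (j : Fin m) : Continuous (Sg (X := X) j) := by
  change Continuous fun x : X => (WithLp.toLp 2 fun ε : Fin m → ZMod 2 => e (ε j) • x : Z X m)
  fun_prop

theorem Rd_eq (v : Fin m → X) : Rd v = ∑ j, Sg j (v j) := by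
  ext ε
  simp [Rd, Sg]

theorem dual_bound {A : Type} [Fintype A] (ψ : A → StrongDual ℝ X) (c : ℝ) (_hc : 0 ≤ c)
    (h : ∀ Φ : PiLp 2 (fun _ : A => X), ∑ a, ψ a (Φ a) ≤ c * ‖Φ‖) :
    ∑ a, ‖ψ a‖ ^ 2 ≤ (3 / 2 * c) ^ 2 := by
  have hx : ∀ a, ∃ x : X, ‖x‖ ≤ 1 ∧ 2 / 3 * ‖ψ a‖ ≤ ψ a x := by
    intro a
    by_cases h0 : ‖ψ a‖ = 0
    · exact ⟨0, by simp, by simp [h0]⟩
    · have hp : 0 < ‖ψ a‖ := lt_of_le_of_ne (norm_nonneg _) (Ne.symm h0)
      obtain ⟨x, hx1, hx2⟩ := (ψ a).exists_lt_apply_of_lt_opNorm (r := 2 / 3 * ‖ψ a‖) (by linarith)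
      rw [Real.norm_eq_abs] at hx2
      rcases le_total 0 (ψ a x) with h1 | h1
      · rw [abs_of_nonneg h1] at hx2
        exact ⟨x, hx1.le, hx2.le⟩
      · rw [abs_of_nonpos h1] at hx2
        exact ⟨-x, by simpa using hx1.le, by simpa using hx2.le⟩
  choose x hx1 hx2 using hx
  set S := ∑ a, ‖ψ a‖ ^ 2 with hS
  have hS0 : 0 ≤ S := sum_nonneg fun a _ => sq_nonneg _
  set Φ : PiLp 2 (fun _ : A => X) := WithLp.toLp 2 fun a => ‖ψ a‖ • x a with hΦ
  have h1 : 2 / 3 * S ≤ ∑ a, ψ a (Φ a) := by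
    rw [hS, mul_sum]
    refine sum_le_sum fun a _ => ?_
    simp only [hΦ, map_smul, smul_eq_mul]
    have := mul_le_mul_of_nonneg_left (hx2 a) (norm_nonneg (ψ a))
    nlinarith
  have h2 : ‖Φ‖ ^ 2 ≤ S := by
    rw [PiLp.norm_sq_eq_of_L2, hS]
    refine sum_le_sum fun a _ => ?_
    simp only [hΦ, norm_smul, norm_norm]
    have h3 := hx1 a
    have h4 := norm_nonneg (x a)
    have h5 := norm_nonneg (ψ a)
    have : ‖ψ a‖ * ‖x a‖ ≤ ‖ψ a‖ := by nlinarith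
    exact pow_le_pow_left₀ (by positivity) this 2
  have h3 := h Φ
  have h4 : 2 / 3 * S ≤ c * ‖Φ‖ := h1.trans h3
  have h5 : (2 / 3 * S) ^ 2 ≤ (c * ‖Φ‖) ^ 2 := pow_le_pow_left₀ (by positivity) h4 2
  have h6 : (c * ‖Φ‖) ^ 2 ≤ c ^ 2 * S := by
    rw [mul_pow]; exact mul_le_mul_of_nonneg_left h2 (sq_nonneg c)
  rcases hS0.eq_or_lt with h0 | h0
  · rw [← h0]; positivity
  · have : 4 / 9 * S * S ≤ c ^ 2 * S := by nlinarith
    have := le_of_mul_le_mul_right this h0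
    nlinarith

end LIFT2

open LIFT2 in
theorem LIFT2_proof : Lift2Stmt.{u} := by
  intro X _ _ m κ hκ hcot v
  have h2m : (0 : ℝ) < 2 ^ m := by positivity
  have hcard : (Fintype.card (Fin m → ZMod 2) : ℝ) = 2 ^ m := by simp
  set S := ∑ j, ‖v j‖ ^ 2 with hS
  have hS0 : 0 ≤ S := sum_nonneg fun a _ => sq_nonneg _
  rcases hS0.eq_or_lt with h0 | h0
  · have hv : ∀ j, v j = 0 := by
      intro j
      have := (sum_eq_zero_iff_of_nonneg (fun a _ => sq_nonneg ‖v a‖)).1 h0.symm j (mem_univ j)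
      simpa using this
    refine ⟨fun _ => 0, fun j => by simp [hv j], ?_⟩
    simp only [norm_zero, avg]
    simp only [ne_eq, OfNat.ofNat_ne_zero, not_false_eq_true, zero_pow, sum_const_zero, mul_zero]
    positivity
  set K : Submodule ℝ (Z X m) := LinearMap.ker (Q (X := X) (m := m)) with hK
  obtain ⟨g, hg1, hg2⟩ := exists_dual_vector'' ℝ (Submodule.Quotient.mk (p := K) (Rd v))
  have hL : ∀ Φ : Z X m, g (Submodule.Quotient.mk Φ) ≤ ‖Φ‖ := by
    intro Φ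
    have h1 := g.le_opNorm (Submodule.Quotient.mk Φ)
    have h2 : ‖(Submodule.Quotient.mk Φ : Z X m ⧸ K)‖ ≤ ‖Φ‖ := Submodule.Quotient.norm_mk_le K Φ
    have h3 := le_abs_self (g (Submodule.Quotient.mk Φ))
    rw [Real.norm_eq_abs] at h1
    nlinarith [norm_nonneg g, norm_nonneg (Submodule.Quotient.mk Φ : Z X m ⧸ K)]
  set L : Z X m →ₗ[ℝ] ℝ := (g : (Z X m ⧸ K) →ₗ[ℝ] ℝ).comp K.mkQ with hLd
  have hLa : ∀ Φ, L Φ = g (Submodule.Quotient.mk Φ) := fun Φ => rfl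
  have hLc : Continuous L := by
    refine AddMonoidHomClass.continuous_of_bound L 1 fun Φ => ?_
    rw [Real.norm_eq_abs, one_mul, abs_le]
    have h1 := hL (-Φ)
    rw [← hLa, map_neg, norm_neg] at h1
    exact ⟨by linarith, hL Φ⟩
  set ξ : Fin m → StrongDual ℝ X := fun j => ⟨L.comp (Sg j), hLc.comp (Sg_cont j)⟩ with hξ
  have hξa : ∀ j x, ξ j x = L (Sg j x) := fun j x => rfl
  have hRd : ∀ w : Fin m → X, L (Rd w) = ∑ j, ξ j (w j) := by
    intro w
    rw [Rd_eq, map_sum]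
    exact sum_congr rfl fun j _ => rfl
  have hrep : ∀ Φ : Z X m, ∑ ε, (∑ j, e (ε j) • ξ j) (Φ ε) = 2 ^ m * L Φ := by
    intro Φ
    have hk : (2 : ℝ) ^ m • Φ - Rd (Q Φ) ∈ K := by
      rw [hK, LinearMap.mem_ker, map_sub, Q_Rd, map_smul, sub_self]
    have h1 : L ((2 : ℝ) ^ m • Φ - Rd (Q Φ)) = 0 := by
      rw [hLa, (Submodule.Quotient.mk_eq_zero K).2 hk, map_zero]
    rw [map_sub, map_smul, hRd, smul_eq_mul, sub_eq_zero] at h1
    rw [h1]
    simp only [_root_.sum_apply, _root_.smul_apply, smul_eq_mul]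
    rw [sum_comm]
    refine sum_congr rfl fun j _ => ?_
    change _ = ξ j (∑ ε, e (ε j) • Φ ε)
    rw [map_sum]
    exact sum_congr rfl fun ε _ => by rw [map_smul, smul_eq_mul]
  have hb := dual_bound (fun ε : Fin m → ZMod 2 => ∑ j, e (ε j) • ξ j) (2 ^ m) h2m.le (by
    intro Φ
    rw [hrep]
    exact mul_le_mul_of_nonneg_left (by rw [hLa]; exact hL Φ) h2m.le)
  have hξb : ∑ j, ‖ξ j‖ ^ 2 ≤ κ ^ 2 * (9 / 4 * 2 ^ m) := by
    refine (hcot ξ).trans (mul_le_mul_of_nonneg_left ?_ (sq_nonneg κ))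
    unfold avg
    rw [hcard, inv_mul_le_iff₀ h2m]
    nlinarith
  set n₀ := ‖(Submodule.Quotient.mk (Rd v) : Z X m ⧸ K)‖ with hn₀
  have hn0 : 0 ≤ n₀ := norm_nonneg _
  have hn1 : n₀ ≤ ∑ j, ‖ξ j‖ * ‖v j‖ := by
    have : n₀ = ∑ j, ξ j (v j) := by
      rw [← hRd, hLa, hg2]; simp
    rw [this]
    exact sum_le_sum fun j _ => (le_abs_self _).trans ((ξ j).le_opNorm (v j))
  have hn2 : n₀ ^ 2 ≤ κ ^ 2 * (9 / 4 * 2 ^ m) * S := by
    have h1 := sum_mul_sq_le_sq_mul_sq univ (fun j => ‖ξ j‖) (fun j => ‖v j‖)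
    have h2 := pow_le_pow_left₀ hn0 hn1 2
    have h3 := mul_le_mul_of_nonneg_right hξb hS0
    linarith
  set T := √(κ ^ 2 * 2 ^ m * S) with hT
  have hT0 : 0 < T := Real.sqrt_pos.2 (by positivity)
  have hT2 : T ^ 2 = κ ^ 2 * 2 ^ m * S := Real.sq_sqrt (by positivity)
  have hn3 : n₀ ≤ 3 / 2 * T := by
    refine (pow_le_pow_iff_left₀ hn0 (by positivity) two_ne_zero).1 ?_
    nlinarith
  obtain ⟨Φ, hΦ1, hΦ2⟩ := Submodule.Quotient.norm_mk_lt
    (Submodule.Quotient.mk (p := K) (Rd v)) (ε := T / 2) (by positivity)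
  have hΦ3 : ‖Φ‖ ≤ 2 * T := by linarith
  refine ⟨fun ε => Φ ε, fun j => ?_, ?_⟩
  · have h1 : Φ - Rd v ∈ K := (Submodule.Quotient.eq K).1 hΦ1
    rw [hK, LinearMap.mem_ker, map_sub, Q_Rd, sub_eq_zero] at h1
    exact congrFun h1 j
  · unfold avg
    rw [hcard, inv_mul_le_iff₀ h2m, ← PiLp.norm_sq_eq_of_L2]
    have := pow_le_pow_left₀ (norm_nonneg Φ) hΦ3 2
    nlinarith

end Crest.Agent.R118
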