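import Crest.Agent.R118.Defs

set_option autoImplicit false

namespace Crest.Agent.R118

open Finset Complex
open scoped Real

namespace LIP

theorem sq_geom (r : ℂ) (hr : ‖r‖ < 1) :
    HasSum (fun n : ℕ => (n : ℂ) ^ 2 * r ^ n) (r * (1 + r) / (1 - r) ^ 3) := by
  have h2 := hasSum_choose_mul_geometric_of_norm_lt_one 2 hr
  have h1 := hasSum_choose_mul_geometric_of_norm_lt_one 1 hr
  have h0 := hasSum_choose_mul_geometric_of_norm_lt_one 0 hr
  have hne : (1 - r) ≠ 0 := by
    intro h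
    have : r = 1 := by linear_combination -h
    rw [this] at hr
    simp at hr
  have h := ((h2.mul_left 2).sub (h1.mul_left 3)).add h0
  convert! h using 1
  · funext n
    have e2 : (((n + 2).choose 2 : ℕ) : ℂ) = ((n : ℂ) + 2) * (n + 1) / 2 := by
      rw [Nat.cast_choose_two]
      push_cast
      ring
    rw [e2]
    simp only [Nat.choose_one_right, Nat.choose_zero_right]
    push_cast
    ring
  · field_simp
    ring

theorem im_term (a n : ℝ) (ha : 0 < a) :
    (1 / ((a : ℂ) * I + n) ^ 3).im = (a ^ 3 - 3 * a * n ^ 2) / (a ^ 2 + n ^ 2) ^ 3 := by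
  have hpos : 0 < a ^ 2 + n ^ 2 := by positivity
  have hne : ((a : ℂ) * I + n) ≠ 0 := by
    intro h
    have := congrArg Complex.im h
    simp at this
    exact ha.ne' this
  have hc : ((a : ℂ) ^ 2 + (n : ℂ) ^ 2) ≠ 0 := by
    exact_mod_cast hpos.ne'
  have key : 1 / ((a : ℂ) * I + n) ^ 3 =
      (((n ^ 3 - 3 * n * a ^ 2) / (a ^ 2 + n ^ 2) ^ 3 : ℝ) : ℂ) +
        (((a ^ 3 - 3 * a * n ^ 2) / (a ^ 2 + n ^ 2) ^ 3 : ℝ) : ℂ) * I := by
    push_cast
    have e : ((a : ℂ) * I + n) * (n - a * I) = a ^ 2 + n ^ 2 := by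
      ring_nf
      rw [I_sq]
      ring
    have e3 : ((n : ℂ) - a * I) ^ 3 = (n ^ 3 - 3 * n * a ^ 2) + (a ^ 3 - 3 * a * n ^ 2) * I := by
      have i2 : I ^ 2 = -1 := I_sq
      have i3 : I ^ 3 = -I := I_pow_three
      linear_combination (3 * (n : ℂ) * a ^ 2) * i2 - (a : ℂ) ^ 3 * i3
    rw [div_mul_eq_mul_div, ← add_div, ← e3, ← e, mul_pow]
    have hne2 : ((n : ℂ) - a * I) ≠ 0 := by
      intro h
      rw [h, mul_zero] at e
      exact hc e.symm
    field_simp
  rw [key]
  simp only [add_im, ofReal_im, mul_im, ofReal_re, I_im, I_re, mul_one, mul_zero, zero_add,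
    add_zero]

end LIP

open LIP in
theorem LIP_proof : LipStmt := by
  intro x T hx hT
  set a : ℝ := x * T / (2 * π) with ha
  have hπ := Real.pi_pos
  have ha0 : 0 < a := by positivity
  let z : UpperHalfPlane := ⟨(a : ℂ) * I, by simpa using ha0⟩
  have hz : (z : ℂ) = (a : ℂ) * I := rfl
  have hid := EisensteinSeries.qExpansion_identity (k := 2) (by norm_num) z
  set q : ℝ := Real.exp (-(T * x)) with hq
  have hq0 : 0 < q := Real.exp_pos _
  have hq1 : q < 1 := by
    rw [hq, Real.exp_lt_one_iff]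
    have := mul_pos hT hx
    linarith
  have hexp : cexp (2 * π * I * z) = (q : ℂ) := by
    rw [hq, ofReal_exp, hz]
    congr 1
    have hπc : (π : ℂ) ≠ 0 := by exact_mod_cast hπ.ne'
    rw [ha]
    push_cast
    field_simp
    rw [I_sq]
    ring
  have hn : ‖(q : ℂ)‖ < 1 := by
    rw [Complex.norm_real, Real.norm_eq_abs, abs_of_pos hq0]; exact hq1
  rw [hexp, (sq_geom _ hn).tsum_eq] at hid
  have hs : Summable fun n : ℤ => 1 / ((z : ℂ) + n) ^ (2 + 1) := by
    have := EisensteinSeries.linear_right_summable (z : ℂ) 1 (k := 3) (by norm_num)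
    refine this.congr (fun n => ?_)
    simp only [Int.cast_one, one_mul, one_div]
    norm_cast
  have h1 := hs.hasSum
  rw [hid] at h1
  have h2 := (Complex.imCLM.hasSum h1).mul_left ((T / (2 * π)) ^ 3)
  convert! h2 using 1
  · funext n
    have := im_term a (n : ℝ) ha0
    simp only [imCLM_apply, hz]
    have e : (1 / ((a : ℂ) * I + (n : ℂ)) ^ (2 + 1)) = 1 / ((a : ℂ) * I + ((n : ℝ) : ℂ)) ^ 3 := by
      norm_num
    rw [e, this]
    have hx' : x = 2 * π * a / T := by
      rw [ha]; field_simp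
    have hpos : 0 < a ^ 2 + (n : ℝ) ^ 2 := by positivity
    rw [hx']
    field_simp
  · have e : (-2 * (π : ℂ) * I) ^ (2 + 1) / ((Nat.factorial 2 : ℕ) : ℂ) *
        ((q : ℂ) * (1 + q) / (1 - q) ^ 3) =
        ((4 * π ^ 3 * (q * (1 + q) / (1 - q) ^ 3) : ℝ) : ℂ) * I := by
      have i3 : I ^ 3 = -I := I_pow_three
      push_cast
      simp only [Nat.factorial, Nat.succ_eq_add_one]
      push_cast
      linear_combination (-4 * (π : ℂ) ^ 3 * ((q : ℂ) * (1 + q) / (1 - q) ^ 3)) * i3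
    rw [e]
    simp only [imCLM_apply, mul_im, ofReal_re, I_im, mul_one, ofReal_im, I_re, mul_zero, add_zero]
    field_simp
    ring

end Crest.Agent.R118
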