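import Crest.Agent.R118.Defs

set_option autoImplicit false

namespace Crest.Agent.R118

open Finset Crest.AnalysisR

universe u

namespace MONO

theorem mono_shift {m : ℕ} (A S D : Mat m) (ε ε' : Fin m → ZMod 2) :
    mono A (fun i j => S i j + D i j) ε ε' = e (∑ i, ∑ j, A i j * D i j) * mono A S ε ε' := by
  unfold mono
  rw [← e_add]
  congr 1
  simp only [dot, mul_add, sum_add_distrib]
  ring

theorem avg_abs_mono {m : ℕ} (A : Mat m) (ε ε' : Fin m → ZMod 2) :
    avg (fun S : Mat m => |mono A S ε ε'|) ≤ 1 := by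
  simp only [mono, abs_e, avg_const, le_refl]

theorem dot_zero_left {ι : Type*} [Fintype ι] (y : ι → ZMod 2) : dot 0 y = 0 := by simp [dot]

theorem dot_zero_right {ι : Type*} [Fintype ι] (y : ι → ZMod 2) : dot y 0 = 0 := by simp [dot]

theorem dot_smul_right {ι : Type*} [Fintype ι] (c : ZMod 2) (x y : ι → ZMod 2) :
    dot x (c • y) = c * dot x y := by
  simp only [dot, Pi.smul_apply, smul_eq_mul, mul_sum]
  exact sum_congr rfl fun _ _ => by ring

theorem dot_single_left {m : ℕ} {ι : Type*} [Fintype ι] (j₀ j : Fin m) (h y : ι → ZMod 2) :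
    dot ((Pi.single j₀ h : Fin m → ι → ZMod 2) j) y = if j = j₀ then dot h y else 0 := by
  rw [Pi.single_apply]
  split_ifs
  · rfl
  · exact dot_zero_left _

theorem dot_single_right {m : ℕ} {ι : Type*} [Fintype ι] (i₀ i : Fin m) (h y : ι → ZMod 2) :
    dot y ((Pi.single i₀ h : Fin m → ι → ZMod 2) i) = if i = i₀ then dot y h else 0 := by
  rw [Pi.single_apply]
  split_ifs
  · rfl
  · exact dot_zero_right _

theorem sum_single {m : ℕ} {ι : Type*} [Fintype ι] (A : Mat m) (i₀ j₀ : Fin m)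
    (h h' : ι → ZMod 2) :
    ∑ i, ∑ j, A i j * dot ((Pi.single j₀ h : Fin m → ι → ZMod 2) j)
      ((Pi.single i₀ h' : Fin m → ι → ZMod 2) i) = A i₀ j₀ * dot h h' := by
  rw [Finset.sum_eq_single i₀, Finset.sum_eq_single j₀]
  · simp
  · intro j _ hj
    rw [dot_single_left, if_neg hj, mul_zero]
  · simp
  · intro i _ hi
    refine Finset.sum_eq_zero fun j _ => ?_
    rw [dot_single_right, if_neg hi, mul_zero]
  · simp

theorem dot_sum_type {ι : Type*} [Fintype ι] (h h' : ι ⊕ ι → ZMod 2) :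
    dot h h' = dot (h ∘ Sum.inl) (h' ∘ Sum.inl) + dot (h ∘ Sum.inr) (h' ∘ Sum.inr) := by
  simp [dot, Fintype.sum_sum_type]

end MONO

open MONO in
theorem MONO_proof (hGen : GenStmt.{u}) : MonoStmt.{u} := by
  intro E₁ E₂ _ _ _ _ B m ι _ _ V a ha Ft Gt hF A
  refine ⟨fun hH hA => ?_, fun hH hA => ?_⟩
  · obtain ⟨i₀, hi₀⟩ := Function.ne_iff.1 hA
    obtain ⟨j₀, hj₀⟩ := Function.ne_iff.1 hi₀
    have h1 : A i₀ j₀ = 1 := (z2_cases _).resolve_left hj₀
    have := hGen E₁ E₂ B m ι ι V a 1 1 ha one_pos hH (fun h => Pi.single j₀ h)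
      (fun h' => Pi.single i₀ h') (mono A) (fun h h' S ε ε' => by
        rw [mono_shift, sum_single, h1, one_mul]) (avg_abs_mono A) Ft Gt hF
    simpa using this
  · unfold IsRect at hA
    push Not at hA
    obtain ⟨i₁, j₁, i₂, j₂, h11, h22, h12⟩ := hA
    have e11 : A i₁ j₁ = 1 := (z2_cases _).resolve_left h11
    have e22 : A i₂ j₂ = 1 := (z2_cases _).resolve_left h22
    have := hGen E₁ E₂ B m ι (ι ⊕ ι) V a 1 1 ha one_pos hH
      (fun h => Pi.single j₁ (h ∘ Sum.inl) + Pi.single j₂ (h ∘ Sum.inr))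
      (fun h' => Pi.single i₁ (h' ∘ Sum.inl + A i₂ j₁ • (h' ∘ Sum.inr)) +
        Pi.single i₂ (h' ∘ Sum.inr)) (mono A) (fun h h' S ε ε' => by
        rw [mono_shift]
        congr 2
        simp only [Pi.add_apply, dot_add_left, dot_add_right, mul_add, sum_add_distrib,
          sum_single]
        rw [e11, e22, h12, dot_smul_right, dot_sum_type]
        have h2 := z2_add_self (A i₂ j₁ * dot (h ∘ Sum.inl) (h' ∘ Sum.inr))
        linear_combination h2) (avg_abs_mono A) Ft Gt hF
    simpa using this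

end Crest.Agent.R118
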