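import Crest.Agent.R118.Defs

/-! Row 118, task ONE. -/

set_option autoImplicit false

namespace Crest.Agent.R118

open Finset Crest.AnalysisR

universe u

namespace ONE

theorem avg_side {m : ℕ} {ι : Type} [Fintype ι] [DecidableEq ι] (j : Fin m)
    (φ : (Fin m → ZMod 2) × (ι → ZMod 2) → ℝ) :
    avg (fun s : Side m ι => φ (s.1 j, s.2.1 j)) = avg φ := by
  rw [avg_prod, avg_prod φ]
  have h1 : ∀ p : Mat m, avg (fun b : (Fin m → ι → ZMod 2) × (Fin m → ZMod 2) => φ (p j, b.1 j)) =
      avg fun b => φ (p j, b) := by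
    intro p
    rw [avg_prod]
    simp only [avg_const]
    exact avg_eval j (fun b => φ (p j, b))
  simp only [h1]
  exact avg_eval j (fun a => avg fun b => φ (a, b))

theorem wt_single {ι : Type*} [Fintype ι] [DecidableEq ι] (i : ι) :
    wt (Pi.single i (1 : ZMod 2) : ι → ZMod 2) = 1 := by
  unfold wt
  rw [Finset.card_eq_one]
  refine ⟨i, ?_⟩
  ext i'
  by_cases h : i' = i
  · subst h; simp
  · simp [h]

theorem eq_single_of_wt {ι : Type*} [Fintype ι] [DecidableEq ι] (x : ι → ZMod 2) (h : wt x = 1) :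
    ∃ i, x = Pi.single i 1 := by
  unfold wt at h
  obtain ⟨i, hi⟩ := Finset.card_eq_one.1 h
  refine ⟨i, funext fun i' => ?_⟩
  have h1 : i' ∈ univ.filter (fun i => x i ≠ 0) ↔ i' = i := by rw [hi, mem_singleton]
  simp only [mem_filter, mem_univ, true_and] at h1
  by_cases h2 : i' = i
  · rw [h2, Pi.single_eq_same]
    exact (z2_cases _).resolve_left (h2 ▸ h1.2 h2)
  · rw [Pi.single_eq_of_ne h2]
    by_contra h3
    exact h2 (h1.1 h3)

/-- the matrix unit -/
def EE {m : ℕ} (i j : Fin m) : Mat m := Pi.single i (Pi.single j 1)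

theorem EE_apply {m : ℕ} (i j i' j' : Fin m) :
    EE i j i' j' = if i' = i ∧ j' = j then 1 else 0 := by
  unfold EE
  by_cases h : i' = i
  · subst h
    by_cases h' : j' = j
    · subst h'; simp
    · simp [h']
  · simp [h]

theorem rowp_EE {m : ℕ} (i j : Fin m) : rowp (EE i j) = Pi.single i 1 := by
  funext i'
  unfold rowp
  simp only [EE_apply]
  by_cases h : i' = i
  · subst h; simp
  · simp [h]

theorem colp_EE {m : ℕ} (i j : Fin m) : colp (EE i j) = Pi.single j 1 := by
  funext j'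
  unfold colp
  simp only [EE_apply]
  by_cases h : j' = j
  · subst h; simp
  · simp [h]

theorem wt2_EE {m : ℕ} (i j : Fin m) : wt2 (EE i j) = 1 := by
  unfold wt2
  rw [Finset.sum_eq_single i]
  · unfold EE; rw [Pi.single_eq_same, wt_single]
  · intro i' _ h
    unfold EE; rw [Pi.single_eq_of_ne h]; simp [wt]
  · intro h; exact absurd (mem_univ i) h

theorem dot_single {ι : Type*} [Fintype ι] [DecidableEq ι] (i : ι) (y : ι → ZMod 2) :
    dot (Pi.single i 1) y = y i := by
  simp [dot, Pi.single_apply]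

theorem mono_EE {m : ℕ} (i j : Fin m) (S : Mat m) (ε ε' : Fin m → ZMod 2) :
    mono (EE i j) S ε ε' = e (S i j + ε i + ε' j) := by
  unfold mono
  rw [rowp_EE, colp_EE, dot_single, dot_single, Finset.sum_eq_single i]
  · unfold EE; rw [Pi.single_eq_same, dot_single]
  · intro i' _ h
    unfold EE; rw [Pi.single_eq_of_ne h]; simp [dot]
  · intro h; exact absurd (mem_univ i) h

theorem EE_inj {m : ℕ} : Function.Injective (fun p : Fin m × Fin m => EE p.1 p.2) := by
  rintro ⟨i, j⟩ ⟨i', j'⟩ h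
  have h1 := congrFun (congrFun h i) j
  simp only [EE_apply, and_self, if_true] at h1
  by_contra hne
  rw [if_neg] at h1
  · exact absurd h1 (by decide)
  · rintro ⟨h2, h3⟩
    exact hne (by rw [h2, h3])

end ONE

theorem ONE_proof (h1 : Red1Stmt.{u}) (h2 : Red2Stmt.{u}) : OneStmt.{u} := by
  intro E₁ E₂ _ _ _ _ B m ι _ _ τ L N w σ hlam Φ Ψ f g hΦ hΨ
  have hsub : univ.image (fun p : Fin m × Fin m => ONE.EE p.1 p.2) ⊆
      univ.filter (fun A : Mat m => wt (rowp A) = 1 ∧ wt (colp A) = 1) := by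
    intro A hA
    obtain ⟨p, -, rfl⟩ := mem_image.1 hA
    rw [mem_filter, ONE.rowp_EE, ONE.colp_EE, ONE.wt_single, ONE.wt_single]
    exact ⟨mem_univ _, rfl, rfl⟩
  rw [← Finset.sum_subset hsub, Finset.sum_image (fun p _ q _ h => ONE.EE_inj h),
    Fintype.sum_prod_type, Finset.mul_sum]
  · refine Finset.sum_congr rfl fun i _ => ?_
    rw [Finset.mul_sum]
    refine Finset.sum_congr rfl fun j _ => ?_
    have hc : coef τ w σ (ONE.EE i j) = τ := by
      unfold coef
      rw [ONE.wt2_EE, ONE.rowp_EE, ONE.colp_EE, ONE.wt_single, ONE.wt_single, hlam.2.1]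
      ring
    rw [hc]
    congr 1
    rw [h1 E₁ E₂ B m ι (lifted Φ f) Ψ g hΨ (ONE.EE i j) i (ONE.rowp_EE i j),
      if_pos (fun i' h => by unfold ONE.EE; rw [Pi.single_eq_of_ne h])]
    have e1 : TT B (fun S _ ε' => e (dot (ONE.EE i j i) (S i + ε'))) (lifted Φ f)
          (fun s : Side m ι => g i (s.1 i, s.2.1 i)) =
        TT B (mono (ONE.EE i j)) (lifted Φ f)
          (fun s : Side m ι => e (s.2.2 i) • g i (s.1 i, s.2.1 i)) := by
      unfold TT
      congr 1; funext s₁; congr 1; funext s₂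
      rw [ONE.mono_EE, map_smul, smul_eq_mul]
      have : ONE.EE i j i = Pi.single j 1 := by unfold ONE.EE; rw [Pi.single_eq_same]
      rw [this]
      beta_reduce
      rw [ONE.dot_single, Pi.add_apply, e_add, e_add, e_add]
      have := e_mul_self (s₂.2.2 i)
      linear_combination (-(e (SS s₁ s₂ i j) * e (s₁.2.2 j) *
        B (lifted Φ f s₁) (g i (s₂.1 i, s₂.2.1 i)))) * this
    rw [e1, h2 E₁ E₂ B m ι _ Φ f hΦ (ONE.EE i j) j (ONE.colp_EE i j),
      if_pos (fun j' h i' => by rw [ONE.EE_apply, if_neg (fun h' => h h'.2)])]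
    unfold TT
    rw [← ONE.avg_side j (fun u => avg fun v : (Fin m → ZMod 2) × (ι → ZMod 2) =>
      e (v.1 j + u.1 i + dot u.2 v.2) * B (f j u) (g i v))]
    congr 1; funext s₁
    rw [← ONE.avg_side i (fun v : (Fin m → ZMod 2) × (ι → ZMod 2) =>
      e (v.1 j + s₁.1 j i + dot (s₁.2.1 j) v.2) * B (f j (s₁.1 j, s₁.2.1 j)) (g i v))]
    congr 1; funext s₂
    have hcol : (fun i' => ONE.EE i j i' j) = Pi.single i 1 := by
      funext i'
      rw [ONE.EE_apply]
      by_cases h : i' = i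
      · subst h; simp
      · simp [h]
    simp only [hcol, ONE.dot_single, map_smul, smul_eq_mul]
    rw [e_add]
    have := e_mul_self (s₂.2.2 i)
    have hS : SS s₁ s₂ i j = s₂.1 i j + s₁.1 j i + dot (s₁.2.1 j) (s₂.2.1 i) := rfl
    rw [hS]
    linear_combination (e (s₂.1 i j + s₁.1 j i + dot (s₁.2.1 j) (s₂.2.1 i)) *
      B (f j (s₁.1 j, s₁.2.1 j)) (g i (s₂.1 i, s₂.2.1 i))) * this
  · intro A hA hn
    rw [mem_filter] at hA
    obtain ⟨i, hi⟩ := ONE.eq_single_of_wt _ hA.2.1
    rw [h1 E₁ E₂ B m ι (lifted Φ f) Ψ g hΨ A i hi]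
    split_ifs with h
    · exfalso
      have hcol : colp A = A i := by
        funext j
        unfold colp
        rw [Finset.sum_eq_single i]
        · intro i' _ hi'
          rw [h i' hi']; rfl
        · intro h'; exact absurd (mem_univ i) h'
      obtain ⟨j, hj⟩ := ONE.eq_single_of_wt _ hA.2.2
      refine hn (mem_image.2 ⟨(i, j), mem_univ _, ?_⟩)
      funext i'
      unfold ONE.EE
      by_cases h' : i' = i
      · rw [h', Pi.single_eq_same, ← hcol, hj]
      · rw [Pi.single_eq_of_ne h', h i' h']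
    · rw [mul_zero]

end Crest.Agent.R118
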