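import Crest.Agent.R118.Defs

set_option autoImplicit false

namespace Crest.Agent.R118

open Finset

namespace PAR

lemma pow_bd (t : ℝ) (ℓ : ℕ) (q : ℝ) (ht : 1 ≤ t) (hq : 2 ≤ q) (hl : 2 * q ≤ ℓ) :
    (t ^ ℓ) ^ (1 / 2 - 1 / q) ≤ Real.sqrt (t ^ ℓ) / t ^ 2 := by
  have h0 : 0 < t := by linarith
  have hM : 0 < t ^ ℓ := by positivity
  rw [Real.rpow_sub hM, Real.sqrt_eq_rpow]
  refine div_le_div_of_nonneg_left (by positivity) (by positivity) ?_
  rw [← Real.rpow_natCast t ℓ, ← Real.rpow_mul h0.le, ← Real.rpow_natCast t 2]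
  refine Real.rpow_le_rpow_of_exponent_le ht ?_
  rw [mul_one_div, le_div_iff₀ (by linarith)]
  exact_mod_cast hl

end PAR

open PAR in
theorem PAR_proof (hL : LamStmt) : ParStmt := by
  intro q r C D hq hr
  set ℓ : ℕ := ⌈2 * max q r⌉₊ with hℓ
  have hl : 2 * max q r ≤ ℓ := Nat.le_ceil _
  have hlq : 2 * q ≤ ℓ := by linarith [le_max_left q r]
  have hlr : 2 * r ≤ ℓ := by linarith [le_max_right q r]
  obtain ⟨N, w, σ, hw⟩ := hL (2 * ℓ)
  set c : ℝ := |C| + |D| + 1 with hc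
  have hc0 : 0 < c := by positivity
  set W := tv w with hW
  have hW0 : 0 ≤ W := sum_nonneg fun _ _ => abs_nonneg _
  set n : ℕ := ⌈640 * W ^ 2 * c ^ 2 + 64 * W * c + 1⌉₊ with hn
  set t : ℝ := (n : ℝ) with ht
  have ht1 : 640 * W ^ 2 * c ^ 2 + 64 * W * c + 1 ≤ t := Nat.le_ceil _
  have ha : 0 ≤ 640 * W ^ 2 * c ^ 2 := by positivity
  have hb : 0 ≤ 64 * W * c := by positivity
  have ht2 : 1 ≤ t := by linarith
  have ht0 : 0 < t := by linarith
  have hm : ((n ^ ℓ : ℕ) : ℝ) = t ^ ℓ := by push_cast; rfl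
  have hM : 0 < t ^ ℓ := by positivity
  have hs : 0 < Real.sqrt (t ^ ℓ) := Real.sqrt_pos.2 hM
  refine ⟨n ^ ℓ, ℓ, N, 1 / t, c * (Real.sqrt (t ^ ℓ) / t ^ 2), 2 * c * t ^ ℓ / t ^ 2, w, σ,
    ?_, ?_, by positivity, ?_, ?_, hw, by positivity, by positivity, ?_, ?_, ?_, ?_⟩
  · have : 1 ≤ n := by rw [ht] at ht2; exact_mod_cast ht2
    exact Nat.one_le_pow _ _ this
  · have : (1 : ℝ) ≤ ℓ := by linarith
    exact_mod_cast this
  · rw [div_le_one ht0]; exact ht2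
  · rw [hm, one_div, inv_pow, inv_mul_cancel₀ hM.ne']
  · rw [hm]
    refine le_of_eq ?_
    have := Real.sq_sqrt hM.le
    simp only [mul_pow, div_pow, this]
    ring
  · rw [hm]
    generalize t ^ ℓ = M at hM
    have h1 : 16 * (10 * W ^ 2 * (2 * c * M / t ^ 2) ^ 2 + 2 * M * W * (2 * c * M / t ^ 2)) =
        (640 * W ^ 2 * c ^ 2 / t ^ 2 + 64 * W * c) / t * (1 / t * M ^ 2) := by
      field_simp; ring
    rw [h1]
    refine mul_le_of_le_one_left (by positivity) ?_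
    rw [div_le_one ht0]
    have : 640 * W ^ 2 * c ^ 2 / t ^ 2 ≤ 640 * W ^ 2 * c ^ 2 := div_le_self ha (one_le_pow₀ ht2)
    linarith
  · rw [hm]
    exact mul_le_mul (by linarith [abs_nonneg D]) (pow_bd t ℓ q ht2 hq hlq) (by positivity) hc0.le
  · rw [hm]
    exact mul_le_mul (by linarith [abs_nonneg C]) (pow_bd t ℓ r ht2 hr hlr) (by positivity) hc0.le

end Crest.Agent.R118
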