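import Crest.Agent.R118.Defs

/-! Row 118: RED1. -/

set_option autoImplicit false

namespace Crest.Agent.R118

open Finset Crest.AnalysisR

universe u

namespace RED1

theorem dot_single {m : ℕ} (i : Fin m) (ε : Fin m → ZMod 2) : dot (Pi.single i 1) ε = ε i := by
  simp [dot, Pi.single_apply]

theorem avg_lift {E₂ : Type*} [NormedAddCommGroup E₂] [NormedSpace ℝ E₂] (φ : E₂ →ₗ[ℝ] ℝ) {m : ℕ}
    (Ψ : (Fin m → ZMod 2) → E₂) (i : Fin m) (v : E₂)
    (h : ∑ ε, e (ε i) • Ψ ε = (2 : ℝ) ^ m • v) :
    avg (fun ε : Fin m → ZMod 2 => e (ε i) * φ (Ψ ε)) = φ v := by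
  have h1 : ∑ ε : Fin m → ZMod 2, e (ε i) * φ (Ψ ε) = (2 : ℝ) ^ m * φ v := by
    have := congrArg φ h
    simpa [map_sum] using this
  unfold avg
  rw [h1]
  simp

/-- a function that changes sign under a shift has average zero -/
theorem avg_zero {α : Type*} [Fintype α] [AddGroup α] (δ : α) (f : α → ℝ)
    (h : ∀ a, f (a + δ) = -1 * f a) : avg f = 0 := by
  have h1 : avg (fun a => f (a + δ)) = avg f := avg_bij (fun a => a + δ) (add_left_injective δ) f
  simp only [h, avg_mul_left] at h1
  linarith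

end RED1

theorem RED1_proof : Red1Stmt.{u} := by
  intro E₁ E₂ _ _ _ _ B m ι _ _ Ft Ψ g hR A i hA
  have key : ∀ (s₁ : Side m ι) (q : Mat m) (η : Fin m → ι → ZMod 2),
      avg (fun ε : Fin m → ZMod 2 => mono A (SS s₁ (q, η, ε)) ε s₁.2.2 *
        B (Ft s₁) (lifted Ψ g (q, η, ε))) =
      e ((∑ i', dot (A i') (SS s₁ (q, η, 0) i')) + dot (colp A) s₁.2.2) *
        B (Ft s₁) (g i (q i, η i)) := by
    intro s₁ q η
    rw [← RED1.avg_lift (B (Ft s₁)) _ i _ (hR (fun j => (q j, η j)) i), ← avg_mul_left]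
    congr 1
    funext ε
    have h1 : SS s₁ (q, η, ε) = SS s₁ (q, η, 0) := rfl
    simp only [mono, hA, RED1.dot_single, e_add, h1, lifted]
    ring
  have h0 : TT B (mono A) Ft (lifted Ψ g) = avg fun s₁ : Side m ι => avg fun q : Mat m =>
      avg fun η : Fin m → ι → ZMod 2 =>
        e ((∑ i', dot (A i') (SS s₁ (q, η, 0) i')) + dot (colp A) s₁.2.2) *
          B (Ft s₁) (g i (q i, η i)) := by
    unfold TT
    congr 1
    funext s₁
    rw [avg_prod]
    congr 1
    funext q
    rw [avg_prod]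
    congr 1
    funext η
    exact key s₁ q η
  rw [h0]
  split_ifs with h
  · unfold TT
    congr 1
    funext s₁
    rw [avg_prod (α := Mat m)]
    congr 1
    funext q
    rw [avg_prod (α := Fin m → ι → ZMod 2)]
    congr 1
    funext η
    have h1 : colp A = A i := by
      funext j
      exact Finset.sum_eq_single i (fun i' _ hi' => by rw [h i' hi']; rfl) (by simp)
    have h2 : ∑ i', dot (A i') (SS s₁ (q, η, 0) i') = dot (A i) (SS s₁ (q, η, 0) i) :=
      Finset.sum_eq_single i (fun i' _ hi' => by rw [h i' hi']; simp [dot]) (by simp)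
    rw [h1, h2, ← dot_add_right]
    exact (avg_const (α := Fin m → ZMod 2) _).symm
  · obtain ⟨i', hi'⟩ := not_forall.1 h
    obtain ⟨hne, hA'⟩ := Classical.not_imp.1 hi'
    obtain ⟨j, hj⟩ := Function.ne_iff.1 hA'
    have hj1 : A i' j = 1 := (z2_cases (A i' j)).resolve_left hj
    rw [← avg_const (α := Side m ι) 0]
    congr 1
    funext s₁
    refine RED1.avg_zero (Pi.single i' (Pi.single j 1)) _ fun q => ?_
    rw [← avg_mul_left]
    congr 1
    funext η
    have h1 : (q + Pi.single i' (Pi.single j 1) : Mat m) i = q i := by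
      simp [hne.symm]
    have h2 : ∀ i'', SS s₁ (q + Pi.single i' (Pi.single j 1), η, 0) i'' =
        SS s₁ (q, η, 0) i'' + (Pi.single i' (Pi.single j 1) : Mat m) i'' := by
      intro i''
      funext j'
      simp only [SS, Pi.add_apply]
      ring
    have h3 : ∑ i'', dot (A i'') ((Pi.single i' (Pi.single j 1) : Mat m) i'') = 1 := by
      rw [Finset.sum_eq_single i' (fun b _ hb => by simp [hb, dot]) (by simp),
        Pi.single_eq_same, dot_comm, RED1.dot_single, hj1]
    simp only [h1, h2, dot_add_right, Finset.sum_add_distrib, h3, e_add, e_one]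
    ring

end Crest.Agent.R118
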