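import Crest.Agent.R118.Defs

/-! Row 118, task RED2 (column reduction). -/

set_option autoImplicit false

namespace Crest.Agent.R118

open Finset Crest.AnalysisR

universe u

namespace RED2

theorem dot_single {m : ℕ} (j : Fin m) (ε : Fin m → ZMod 2) : dot (Pi.single j 1) ε = ε j := by
  simp [dot, Pi.single_apply]

theorem avg_lift {E₁ E₂ : Type u} [NormedAddCommGroup E₁] [NormedSpace ℝ E₁] [NormedAddCommGroup E₂]
    [NormedSpace ℝ E₂] (B : E₁ →ₗ[ℝ] E₂ →ₗ[ℝ] ℝ) {m : ℕ} (Ψ : (Fin m → ZMod 2) → E₁) (j : Fin m)
    (v : E₁) (h : ∑ ε, e (ε j) • Ψ ε = (2 : ℝ) ^ m • v) (ξ : E₂) :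
    avg (fun ε : Fin m → ZMod 2 => e (ε j) * B (Ψ ε) ξ) = B v ξ := by
  unfold avg
  have h1 : ∑ ε : Fin m → ZMod 2, e (ε j) * B (Ψ ε) ξ = B (∑ ε, e (ε j) • Ψ ε) ξ := by
    rw [map_sum, LinearMap.sum_apply]
    refine sum_congr rfl fun ε _ => ?_
    rw [map_smul, LinearMap.smul_apply, smul_eq_mul]
  have h2 : (Fintype.card (Fin m → ZMod 2) : ℝ) = 2 ^ m := by simp
  rw [h1, h, h2, map_smul, LinearMap.smul_apply, smul_eq_mul]
  field_simp

end RED2

theorem RED2_proof : Red2Stmt.{u} := by
  intro E₁ E₂ _ _ _ _ B m ι _ _ Gt Φ f hR A j hA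
  -- the reduced integrand
  set H : Mat m → (Fin m → ι → ZMod 2) → ℝ := fun p y => avg fun s₂ : Side m ι =>
    e ((∑ i, dot (A i) (SS (p, y, 0) s₂ i)) + dot (rowp A) s₂.2.2) * B (f j (p j, y j)) (Gt s₂)
    with hH
  have h1 : TT B (mono A) (lifted Φ f) Gt = avg fun p => avg fun y => H p y := by
    unfold TT
    rw [avg_prod]
    refine congrArg avg (funext fun p => ?_)
    rw [avg_prod]
    refine congrArg avg (funext fun y => ?_)
    rw [avg_comm]
    refine congrArg avg (funext fun s₂ => ?_)
    have h2 := RED2.avg_lift B (Φ fun j => f j (p j, y j)) j (f j (p j, y j))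
      (hR (fun j => (p j, y j)) j) (Gt s₂)
    rw [← h2, ← avg_mul_left]
    refine congrArg avg (funext fun ε' => ?_)
    unfold mono lifted
    rw [hA, RED2.dot_single, e_add, mul_assoc]
    rfl
  rw [h1]
  split_ifs with hc
  · unfold TT
    rw [avg_prod]
    refine congrArg avg (funext fun p => ?_)
    rw [avg_prod]
    refine congrArg avg (funext fun y => ?_)
    rw [← avg_const (α := Fin m → ZMod 2) (H p y)]
    refine congrArg avg (funext fun ε' => ?_)
    refine congrArg avg (funext fun s₂ => ?_)
    have h3 : ∀ i, dot (A i) (SS (p, y, 0) s₂ i) = A i j * SS (p, y, ε') s₂ i j := by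
      intro i
      unfold dot
      rw [sum_eq_single j]
      · rfl
      · intro j' _ hj'
        rw [hc j' hj' i, zero_mul]
      · intro h; exact absurd (mem_univ j) h
    have h4 : ∀ i, rowp A i = A i j := by
      intro i
      unfold rowp
      rw [sum_eq_single j]
      · intro j' _ hj'
        exact hc j' hj' i
      · intro h; exact absurd (mem_univ j) h
    have h5 : (∑ i, dot (A i) (SS (p, y, 0) s₂ i)) + dot (rowp A) s₂.2.2 =
        dot (fun i => A i j) (fun i => SS (p, y, ε') s₂ i j + s₂.2.2 i) := by
      rw [sum_congr rfl fun i _ => h3 i]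
      unfold dot
      rw [← sum_add_distrib]
      refine sum_congr rfl fun i _ => ?_
      rw [h4 i, mul_add]
    simp only [h5]
  · push Not at hc
    obtain ⟨j', hj', i₀, hi₀⟩ := hc
    have hA1 : A i₀ j' = 1 := (z2_cases _).resolve_left hi₀
    set δ : Mat m := Pi.single j' (Pi.single i₀ 1) with hδ
    have h2 : ∀ p y, H (p + δ) y = -H p y := by
      intro p y
      rw [hH]
      simp only
      rw [← neg_one_mul, ← avg_mul_left]
      refine congrArg avg (funext fun s₂ => ?_)
      have h3 : (p + δ) j = p j := by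
        rw [Pi.add_apply, hδ, Pi.single_eq_of_ne (Ne.symm hj'), add_zero]
      have h4 : ∀ i, SS (p + δ, y, (0 : Fin m → ZMod 2)) s₂ i =
          SS (p, y, (0 : Fin m → ZMod 2)) s₂ i + fun jj => δ jj i := by
        intro i
        funext jj
        simp only [SS, Pi.add_apply]
        ring
      have h5 : ∑ i, dot (A i) (fun jj => δ jj i) = 1 := by
        rw [sum_eq_single i₀]
        · unfold dot
          rw [sum_eq_single j']
          · simp [hδ, hA1]
          · intro jj _ hjj
            simp [hδ, Pi.single_eq_of_ne hjj]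
          · intro h; exact absurd (mem_univ _) h
        · intro i _ hi
          unfold dot
          refine sum_eq_zero fun jj _ => ?_
          by_cases hjj : jj = j'
          · subst hjj
            simp [hδ, Pi.single_eq_of_ne hi]
          · simp [hδ, Pi.single_eq_of_ne hjj]
        · intro h; exact absurd (mem_univ _) h
      rw [h3]
      simp only [h4, dot_add_right, sum_add_distrib, h5, e_add, e_one]
      ring
    have h6 : avg (fun p => avg fun y => H (p + δ) y) = avg fun p => avg fun y => H p y :=
      avg_bij (fun p => p + δ) (add_left_injective _) (fun p => avg fun y => H p y)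
    have h7 : avg (fun p => avg fun y => H (p + δ) y) = -1 * avg fun p => avg fun y => H p y := by
      rw [← avg_mul_left]
      refine congrArg avg (funext fun p => ?_)
      rw [← avg_mul_left]
      refine congrArg avg (funext fun y => ?_)
      rw [h2, neg_one_mul]
    linarith

end Crest.Agent.R118
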