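import Crest.Agent.R118.Defs

/-! Row 118, task REST. -/

set_option autoImplicit false

namespace Crest.Agent.R118

open Finset Crest.AnalysisR

universe u

namespace REST

theorem abs_lam_le {N : ℕ} (w σ : Fin N → ℝ) (hσ : ∀ l, |σ l| ≤ 1) (a : ℕ) :
    |lam w σ a| ≤ tv w := by
  unfold lam tv
  refine le_trans (abs_sum_le_sum_abs _ _) (sum_le_sum fun l _ => ?_)
  rw [abs_mul, abs_pow]
  exact mul_le_of_le_one_right (abs_nonneg _) (pow_le_one₀ (abs_nonneg _) (hσ l))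

theorem abs_coef_le {m N : ℕ} (τ : ℝ) (hτ : 0 ≤ τ) (w σ : Fin N → ℝ) (hσ : ∀ l, |σ l| ≤ 1)
    (A : Mat m) : |coef τ w σ A| ≤ τ ^ wt2 A * tv w ^ 2 := by
  unfold coef
  have h0 : 0 ≤ tv w := sum_nonneg fun l _ => abs_nonneg _
  rw [abs_mul, abs_mul, abs_of_nonneg (pow_nonneg hτ _), mul_assoc, sq]
  exact mul_le_mul_of_nonneg_left
    (mul_le_mul (abs_lam_le w σ hσ _) (abs_lam_le w σ hσ _) (abs_nonneg _) h0) (pow_nonneg hτ _)

end REST

open Classical in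
theorem REST_proof (hM : MonoStmt.{u}) (hC : CntStmt) : RestStmt.{u} := by
  intro E₁ E₂ _ _ _ _ B m ℓ ι _ _ V a₁ a₂ τ N w σ ha₁ ha₂ hH₁ hH₂ hτ0 hτ1 hτm hσ Ft Gt hF
  set Q := avg (fun s => ‖Ft s‖ ^ 2) + avg fun s => ‖Gt s‖ ^ 2 with hQ
  have hQ0 : 0 ≤ Q := add_nonneg (avg_nonneg fun _ => sq_nonneg _) (avg_nonneg fun _ => sq_nonneg _)
  have ht0 : 0 ≤ tv w ^ 2 := sq_nonneg _
  have hcnt := hC m ℓ τ hτ0 hτ1 hτm
  have hpt : ∀ A ∈ univ.filter (fun A : Mat m => 2 * ℓ < wt (rowp A) ∧ 2 * ℓ < wt (colp A)),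
      |coef τ w σ A * TT B (mono A) Ft Gt| ≤
        (if IsRect A then τ ^ wt2 A else 0) * (tv w ^ 2 * (a₁ / 2 * Q)) +
          tv w ^ 2 * (a₂ / 2 * Q) := by
    intro A hA
    have hA' := (mem_filter.1 hA).2
    have hc := REST.abs_coef_le τ hτ0 w σ hσ A
    have hp0 : 0 ≤ τ ^ wt2 A := pow_nonneg hτ0 _
    have hp1 : τ ^ wt2 A ≤ 1 := pow_le_one₀ hτ0 hτ1
    rw [abs_mul]
    by_cases hr : IsRect A
    · have hne : A ≠ 0 := by
        intro h0
        have h1 : rowp A = 0 := by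
          funext i
          simp [rowp, h0]
        have h2 : wt (rowp A) = 0 := by
          rw [h1]; simp [wt]
        omega
      have h3 := (hM E₁ E₂ B m ι V a₁ ha₁ Ft Gt hF A).1 hH₁ hne
      have h4 := mul_le_mul hc h3 (abs_nonneg _) (mul_nonneg hp0 ht0)
      have h5 : 0 ≤ tv w ^ 2 * (a₂ / 2 * Q) := by positivity
      rw [if_pos hr]
      linarith
    · have h3 := (hM E₁ E₂ B m ι V a₂ ha₂ Ft Gt hF A).2 hH₂ hr
      have hc' : |coef τ w σ A| ≤ tv w ^ 2 := le_trans hc (mul_le_of_le_one_left ht0 hp1)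
      have h4 := mul_le_mul hc' h3 (abs_nonneg _) ht0
      rw [if_neg hr]
      linarith
  refine le_trans (abs_sum_le_sum_abs _ _) (le_trans (sum_le_sum hpt) ?_)
  rw [sum_add_distrib, ← sum_mul, sum_const, nsmul_eq_mul, ← sum_filter, filter_filter]
  have h1 : ∑ A ∈ univ.filter (fun A : Mat m =>
      (2 * ℓ < wt (rowp A) ∧ 2 * ℓ < wt (colp A)) ∧ IsRect A), τ ^ wt2 A ≤ 9 := by
    refine le_trans (le_of_eq (sum_congr ?_ fun _ _ => rfl)) hcnt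
    ext A
    simp only [mem_filter, mem_univ, true_and]
    tauto
  have h2 : (((univ.filter (fun A : Mat m => 2 * ℓ < wt (rowp A) ∧ 2 * ℓ < wt (colp A))).card : ℕ) : ℝ)
      ≤ 2 ^ (m * m) := by
    have h3 := card_le_univ (univ.filter (fun A : Mat m => 2 * ℓ < wt (rowp A) ∧ 2 * ℓ < wt (colp A)))
    have h4 : Fintype.card (Mat m) = 2 ^ (m * m) := by
      simp [Mat, pow_mul]
    rw [h4] at h3
    exact_mod_cast h3
  have h5 := mul_le_mul_of_nonneg_right h1 (show 0 ≤ tv w ^ 2 * (a₁ / 2 * Q) by positivity)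
  have h6 := mul_le_mul_of_nonneg_right h2 (show 0 ≤ tv w ^ 2 * (a₂ / 2 * Q) by positivity)
  calc _ ≤ 9 * (tv w ^ 2 * (a₁ / 2 * Q)) + 2 ^ (m * m) * (tv w ^ 2 * (a₂ / 2 * Q)) :=
        add_le_add h5 h6
    _ = _ := by ring

end Crest.Agent.R118
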