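import Crest.Agent.R118.Defs

set_option autoImplicit false

namespace Crest.Agent.R118

open Finset Crest.AnalysisR

universe u

namespace ROW

lemma wt_cast {m : ℕ} (α : Fin m → ZMod 2) : ((wt α : ℕ) : ZMod 2) = ∑ j, α j := by
  unfold wt
  rw [Finset.card_filter]
  push_cast
  refine sum_congr rfl fun j _ => ?_
  rcases z2_cases (α j) with h | h <;> simp [h]

lemma even_wt {m : ℕ} (α : Fin m → ZMod 2) (h : ∑ j, α j = 0) : Even (wt α) := by
  rw [← wt_cast] at h
  exact (ZMod.natCast_eq_zero_iff_even).1 h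

lemma wt_single {m : ℕ} (i : Fin m) : wt (Pi.single i 1 : Fin m → ZMod 2) = 1 := by
  unfold wt
  rw [Finset.card_eq_one]
  refine ⟨i, ?_⟩
  ext j
  by_cases h : j = i <;> simp [h]

lemma single_of_wt {m : ℕ} (x : Fin m → ZMod 2) (h : wt x = 1) : ∃ i, x = Pi.single i 1 := by
  unfold wt at h
  obtain ⟨i, hi⟩ := Finset.card_eq_one.1 h
  refine ⟨i, funext fun j => ?_⟩
  have h1 : x j ≠ 0 ↔ j = i := by
    have : j ∈ univ.filter (fun i => x i ≠ 0) ↔ j ∈ ({i} : Finset (Fin m)) := by rw [hi]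
    simpa using this
  by_cases hj : j = i
  · subst hj
    simpa using (z2_cases (x j)).resolve_left (h1.2 rfl)
  · have : x j = 0 := by by_contra h0; exact hj (h1.1 h0)
    simp [this, hj]

lemma sum_ite_single {m : ℕ} (x : Fin m → ZMod 2) (r : ℝ) :
    (if wt x = 1 then r else 0) = ∑ i, if x = Pi.single i 1 then r else 0 := by
  split_ifs with h
  · obtain ⟨i, rfl⟩ := single_of_wt x h
    rw [Finset.sum_eq_single i]
    · simp
    · intro j _ hj
      rw [if_neg]
      intro h'
      have := congrFun h' i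
      simp [hj.symm] at this
    · simp
  · symm
    refine sum_eq_zero fun i _ => ?_
    rw [if_neg]
    rintro rfl
    exact h (wt_single i)

lemma prod_eq {m : ℕ} (x : ℝ) (z : Fin m → ZMod 2) :
    ∏ j, (1 + x * e (z j)) = ∑ α : Fin m → ZMod 2, x ^ wt α * e (dot α z) := by
  have h1 : ∀ j, 1 + x * e (z j) = ∑ b : ZMod 2, (if b ≠ 0 then x else 1) * e (b * z j) := by
    intro j
    have : (univ : Finset (ZMod 2)) = {0, 1} := by decide
    rw [this, sum_pair (by decide)]
    simp
  simp only [h1]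
  rw [Finset.prod_univ_sum, Fintype.piFinset_univ]
  refine sum_congr rfl fun α _ => ?_
  rw [prod_mul_distrib, dot, e_sum, prod_ite]
  simp [wt]

lemma avg_ker {m : ℕ} (x : ℝ) (i : Fin m) (ε' : Fin m → ZMod 2) :
    avg (fun S : Mat m => ∑ α : Fin m → ZMod 2, x ^ wt α * e (dot α (S i + ε'))) = 1 := by
  rw [avg_sum]
  have h1 : ∀ α : Fin m → ZMod 2, avg (fun S : Mat m => x ^ wt α * e (dot α (S i + ε'))) =
      x ^ wt α * ((if α = 0 then 1 else 0) * e (dot α ε')) := by
    intro α
    simp only [dot_add_right, e_add]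
    rw [avg_mul_left, avg_mul_right, avg_eval i (fun y => e (dot α y)), avg_e_dot]
  simp only [h1]
  rw [Finset.sum_eq_single 0]
  · simp [wt, dot]
  · intro b _ hb; simp [hb]
  · simp

lemma rowp_single {m : ℕ} (i : Fin m) (α : Fin m → ZMod 2) :
    rowp (Pi.single i α : Mat m) = Pi.single i (∑ j, α j) := by
  funext i'
  by_cases h : i' = i
  · subst h; simp [rowp]
  · simp [rowp, h]

lemma colp_single {m : ℕ} (i : Fin m) (α : Fin m → ZMod 2) :
    colp (Pi.single i α : Mat m) = α := by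
  funext j
  unfold colp
  rw [Finset.sum_eq_single i]
  · simp
  · intro b _ hb; simp [hb]
  · simp

lemma wt2_single {m : ℕ} (i : Fin m) (α : Fin m → ZMod 2) :
    wt2 (Pi.single i α : Mat m) = wt α := by
  unfold wt2
  rw [Finset.sum_eq_single i]
  · simp
  · intro b _ hb; simp [hb, wt]
  · simp

lemma avg_side {m : ℕ} {ι : Type} [Fintype ι] [DecidableEq ι] (i : Fin m)
    (φ : (Fin m → ZMod 2) × (ι → ZMod 2) → ℝ) :
    avg (fun s : Side m ι => φ (s.1 i, s.2.1 i)) = avg φ := by
  rw [avg_prod, avg_prod φ]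
  simp only [avg_prod (α := Fin m → ι → ZMod 2), avg_const]
  have h1 : ∀ a : Mat m, avg (fun y : Fin m → ι → ZMod 2 => φ (a i, y i)) = avg fun b => φ (a i, b) :=
    fun a => avg_eval i (fun b => φ (a i, b))
  simp only [h1]
  exact avg_eval i (fun a => avg fun b => φ (a, b))

lemma TT_sum {E₁ E₂ : Type u} [NormedAddCommGroup E₁] [NormedSpace ℝ E₁] [NormedAddCommGroup E₂]
    [NormedSpace ℝ E₂] (B : E₁ →ₗ[ℝ] E₂ →ₗ[ℝ] ℝ) {m : ℕ} {ι : Type} [Fintype ι] [DecidableEq ι]
    {β : Type} [Fintype β] (c : β → ℝ)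
    (K : β → Mat m → (Fin m → ZMod 2) → (Fin m → ZMod 2) → ℝ)
    (Ft : Side m ι → E₁) (Gt : Side m ι → E₂) :
    ∑ b, c b * TT B (K b) Ft Gt = TT B (fun S ε ε' => ∑ b, c b * K b S ε ε') Ft Gt := by
  unfold TT
  simp only [sum_mul, mul_assoc]
  simp only [avg_sum, avg_mul_left]

end ROW

open ROW in
theorem ROW_proof (hGen : GenStmt.{u}) (hR : Red1Stmt.{u}) : RowStmt.{u} := by
  intro E₁ E₂ _ _ _ _ B m ι _ _ V a τ c L N w σ ha hc hH hτ hL Ft Ψ g hFt hΨ
  obtain ⟨hσ, hl1, hle, -⟩ := hL
  have h1 : ∑ A ∈ univ.filter (fun A : Mat m => wt (rowp A) = 1),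
      coef τ w σ A * TT B (mono A) Ft (lifted Ψ g) =
      ∑ i, ∑ α : Fin m → ZMod 2, (τ ^ wt α * lam w σ (wt α)) *
        TT B (fun S _ ε' => e (dot α (S i + ε'))) Ft (fun s => g i (s.1 i, s.2.1 i)) := by
    rw [sum_filter]
    simp only [sum_ite_single]
    rw [sum_comm]
    refine sum_congr rfl fun i _ => ?_
    symm
    refine Fintype.sum_of_injective (fun α => (Pi.single i α : Mat m)) ?_ _ _ ?_ ?_
    · intro α β h
      simpa using congrFun h i
    · intro A hA
      split_ifs with h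
      · rw [hR E₁ E₂ B m ι Ft Ψ g hΨ A i h, if_neg, mul_zero]
        intro h'
        refine hA ⟨A i, funext fun i' => ?_⟩
        by_cases hi : i' = i
        · subst hi; simp
        · simp [hi, h' i' hi]
      · rfl
    · intro α
      rcases z2_cases (∑ j, α j) with h | h
      · rw [hle _ (even_wt α h), if_neg]
        · simp
        · rw [rowp_single, h]
          intro h'
          simpa using congrFun h' i
      · have h2 : rowp (Pi.single i α : Mat m) = Pi.single i 1 := by rw [rowp_single, h]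
        rw [if_pos h2, hR E₁ E₂ B m ι Ft Ψ g hΨ _ i h2, if_pos (fun i' hi => by simp [hi])]
        simp only [coef, h2, wt_single, hl1, colp_single, wt2_single, Pi.single_eq_same, mul_one]
  rw [h1]
  refine (abs_sum_le_sum_abs _ _).trans (sum_le_sum fun i _ => ?_)
  rw [TT_sum, ← avg_side i (fun v => ‖g i v‖ ^ 2)]
  refine hGen E₁ E₂ B m ι ι V a (tv w) c ha hc hH (fun h _ => h) (fun h' _ => h') _ ?_ ?_ Ft _ hFt
  · intro h h' S ε ε'
    rw [mul_sum]
    refine sum_congr rfl fun α _ => ?_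
    rcases z2_cases (∑ j, α j) with h0 | h0
    · rw [hle _ (even_wt α h0)]; simp
    · have h3 : dot α ((fun j => S i j + dot h h') + ε') = dot h h' + dot α (S i + ε') := by
        have h4 : dot h h' = ∑ j, α j * dot h h' := by rw [← sum_mul, h0, one_mul]
        conv_rhs => rw [h4]
        simp only [dot, Pi.add_apply]
        rw [← sum_add_distrib]
        refine sum_congr rfl fun j _ => by ring
      rw [h3, e_add]; ring
  · intro ε ε'
    have h5 : ∀ S : Mat m, |∑ α : Fin m → ZMod 2, τ ^ wt α * lam w σ (wt α) * e (dot α (S i + ε'))| ≤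
        ∑ l, |w l| * ∑ α : Fin m → ZMod 2, (τ * σ l) ^ wt α * e (dot α (S i + ε')) := by
      intro S
      have h6 : ∑ α : Fin m → ZMod 2, τ ^ wt α * lam w σ (wt α) * e (dot α (S i + ε')) =
          ∑ l, w l * ∑ α : Fin m → ZMod 2, (τ * σ l) ^ wt α * e (dot α (S i + ε')) := by
        simp only [lam, mul_sum, sum_mul]
        rw [sum_comm]
        refine sum_congr rfl fun l _ => sum_congr rfl fun α _ => ?_
        rw [mul_pow]; ring
      rw [h6]
      refine (abs_sum_le_sum_abs _ _).trans (sum_le_sum fun l _ => ?_)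
      rw [abs_mul, abs_of_nonneg (a := ∑ α : Fin m → ZMod 2, _)]
      rw [← prod_eq]
      refine prod_nonneg fun j _ => ?_
      have h7 : |τ * σ l * e ((S i + ε') j)| ≤ 1 := by
        rw [abs_mul, abs_mul, abs_e, mul_one]
        exact mul_le_one₀ hτ (abs_nonneg _) (hσ l)
      linarith [(abs_le.1 h7).1]
    refine (avg_le_avg h5).trans (le_of_eq ?_)
    rw [avg_sum]
    refine sum_congr rfl fun l _ => ?_
    rw [avg_mul_left, avg_ker, mul_one]

end Crest.Agent.R118
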