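import Crest.Agent.R118.Defs

/-! Row 118, task TRIV: easy facts on `Had`. -/

set_option autoImplicit false

namespace Crest.Agent.R118

open Finset Crest.AnalysisR

universe u

theorem TRIV_proof : TrivStmt.{u} := by
  intro E₁ E₂ _ _ _ _ ι _ _ V
  have hN : ∀ (F : (ι → ZMod 2) → E₁) (G : (ι → ZMod 2) → E₂),
      0 ≤ avg (fun x => ‖F x‖ ^ 2) + avg fun ξ => ‖G ξ‖ ^ 2 := fun F G =>
    add_nonneg (avg_nonneg fun _ => by positivity) (avg_nonneg fun _ => by positivity)
  refine ⟨?_, ?_, ?_, ?_, ?_⟩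
  · intro B a b h hab F G hF
    exact (h F G hF).trans (mul_le_mul_of_nonneg_right (by linarith) (hN F G))
  · intro B a h F G hF
    apply le_of_forall_pos_le_add
    intro ε hε
    have h0 := hN F G
    set N := avg (fun x => ‖F x‖ ^ 2) + avg fun ξ => ‖G ξ‖ ^ 2 with hNdef
    have h1 := h (ε / (N + 1)) (by positivity) F G hF
    have h2 : ε / (N + 1) * N ≤ ε := by
      rw [div_mul_eq_mul_div, div_le_iff₀ (by positivity)]
      nlinarith
    have h3 : 0 ≤ ε / (N + 1) * N := by positivity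
    rw [← hNdef] at h1
    linarith
  · intro B a ha h F G hF
    calc _ ≤ avg fun x => |avg fun ξ => e (dot x ξ) * B (F x) (G ξ)| := abs_avg_le _
      _ ≤ avg fun x => avg fun ξ => a / 2 * (‖F x‖ ^ 2 + ‖G ξ‖ ^ 2) := by
          refine avg_le_avg fun x => (abs_avg_le _).trans (avg_le_avg fun ξ => ?_)
          rw [abs_mul, abs_e, one_mul]
          refine (h _ (hF x) _).trans ?_
          nlinarith [mul_nonneg ha (sq_nonneg (‖F x‖ - ‖G ξ‖))]
      _ = _ := by simp only [avg_mul_left, avg_add, avg_const]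
  · intro B B' a b h h' F G hF
    have h1 := h F G hF
    have h2 := h' F G hF
    simp only [LinearMap.add_apply, mul_add, avg_add]
    refine (abs_add_le _ _).trans ?_
    linarith
  · intro B a ι' _ _ hc h F G hF
    let σ : ι ≃ ι' := Fintype.equivOfCardEq hc
    let τ : (ι → ZMod 2) ≃ (ι' → ZMod 2) := Equiv.arrowCongr σ (Equiv.refl _)
    have hd : ∀ x ξ, dot (τ x) (τ ξ) = dot x ξ := by
      intro x ξ
      unfold dot
      rw [← Equiv.sum_comp σ]
      simp [τ]
    have h1 := h (fun x => F (τ x)) (fun ξ => G (τ ξ)) (fun x => hF _)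
    rw [avg_equiv τ (fun x => ‖F x‖ ^ 2), avg_equiv τ (fun ξ => ‖G ξ‖ ^ 2)] at h1
    rw [← avg_equiv τ (fun x => avg fun ξ => e (dot x ξ) * B (F x) (G ξ))]
    have h2 : ∀ x, (avg fun ξ => e (dot (τ x) ξ) * B (F (τ x)) (G ξ)) =
        avg fun ξ => e (dot x ξ) * B (F (τ x)) (G (τ ξ)) := by
      intro x
      rw [← avg_equiv τ (fun ξ => e (dot (τ x) ξ) * B (F (τ x)) (G ξ))]
      simp only [hd]
    simp only [h2]
    exact h1

end Crest.Agent.R118
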