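import Crest.Agent.R118.Defs

/-! Row 118, task WALH. -/

set_option autoImplicit false

namespace Crest.Agent.R118

open Finset Crest.AnalysisR

universe u

namespace WALH

/-- the symbol attached to `S` -/
noncomputable def gs {s n : ℕ} (Bs : Fin n → Finset (Fin s)) (S : Fin n → ZMod 2)
    (A : Fin s → ZMod 2) : ℝ := ∏ j, if S j = 0 then 1 else ind (Bs j) A

theorem gs_eq {s n : ℕ} (Bs : Fin n → Finset (Fin s)) (S : Fin n → ZMod 2) :
    gs Bs S = ind ((univ.filter fun j => S j ≠ 0).biUnion Bs) := by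
  funext A
  unfold gs
  by_cases h : ∀ i ∈ (univ.filter fun j => S j ≠ 0).biUnion Bs, A i = 0
  · have : ind ((univ.filter fun j => S j ≠ 0).biUnion Bs) A = 1 := by unfold ind; rw [if_pos h]
    rw [this]
    refine prod_eq_one fun j _ => ?_
    split_ifs with hj
    · rfl
    · unfold ind
      rw [if_pos]
      intro i hi
      exact h i (mem_biUnion.2 ⟨j, mem_filter.2 ⟨mem_univ _, hj⟩, hi⟩)
  · have : ind ((univ.filter fun j => S j ≠ 0).biUnion Bs) A = 0 := by unfold ind; rw [if_neg h]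
    rw [this]
    push Not at h
    obtain ⟨i, hi, hA⟩ := h
    obtain ⟨j, hj, hij⟩ := mem_biUnion.1 hi
    refine prod_eq_zero (mem_univ j) ?_
    rw [if_neg (mem_filter.1 hj).2]
    unfold ind
    rw [if_neg]
    intro hh
    exact hA (hh i hij)

theorem sum_z2 (f : ZMod 2 → ℝ) : ∑ a, f a = f 0 + f 1 := by
  have : (univ : Finset (ZMod 2)) = {0, 1} := by decide
  rw [this, sum_pair (by decide)]

theorem scalar {s n : ℕ} (Bs : Fin n → Finset (Fin s)) (A : Fin s → ZMod 2) :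
    avg (fun S : Fin n → ZMod 2 => avg fun T : Fin n → ZMod 2 =>
      e (dot S T) * e (∑ j, S j) * e (∑ j, T j) * (gs Bs T A * gs Bs S A)) =
      ((4 : ℝ) ^ n)⁻¹ * ∏ j, (1 - 3 * ind (Bs j) A) := by
  let ψ : Fin n → ZMod 2 → ZMod 2 → ℝ := fun j a b =>
    e (a * b) * e a * e b * ((if b = 0 then 1 else ind (Bs j) A) * (if a = 0 then 1 else ind (Bs j) A))
  have h1 : ∀ S T : Fin n → ZMod 2,
      e (dot S T) * e (∑ j, S j) * e (∑ j, T j) * (gs Bs T A * gs Bs S A) =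
        ∏ j, ψ j (S j) (T j) := by
    intro S T
    simp only [ψ, prod_mul_distrib, dot, e_sum, gs]
  have h2 : ∀ S : Fin n → ZMod 2, ∑ T : Fin n → ZMod 2, ∏ j, ψ j (S j) (T j) =
      ∏ j, ∑ b, ψ j (S j) b := by
    intro S
    rw [Finset.prod_univ_sum, Fintype.piFinset_univ]
  have h3 : ∑ S : Fin n → ZMod 2, ∏ j, ∑ b, ψ j (S j) b = ∏ j, ∑ a, ∑ b, ψ j a b := by
    rw [Finset.prod_univ_sum, Fintype.piFinset_univ]
  have h4 : ∀ j, ∑ a, ∑ b, ψ j a b = 1 - 3 * ind (Bs j) A := by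
    intro j
    have hx : ind (Bs j) A * ind (Bs j) A = ind (Bs j) A := by
      unfold ind; split_ifs <;> norm_num
    rw [sum_z2, sum_z2, sum_z2]
    simp only [ψ, mul_zero, mul_one, e_zero, e_one, if_true, one_ne_zero, if_false, hx]
    ring
  simp only [h1, avg, h2, ← mul_sum]
  rw [h3, prod_congr rfl fun j _ => h4 j]
  have : (Fintype.card (Fin n → ZMod 2) : ℝ) = 2 ^ n := by simp
  rw [this, show (4 : ℝ) ^ n = 2 ^ n * 2 ^ n by rw [← mul_pow]; norm_num, mul_inv, mul_assoc]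

theorem lin {X : Type u} [NormedAddCommGroup X] [NormedSpace ℝ X] {s : ℕ}
    (f : (Fin s → ZMod 2) → X) (φ : (Fin s → ZMod 2) → StrongDual ℝ X) :
    ∃ c : (Fin s → ZMod 2) → ℝ, ∀ g : (Fin s → ZMod 2) → ℝ,
      ∑ ω, φ ω (kop g f ω) = ∑ A, g A * c A := by
  refine ⟨fun A => ∑ ω, ∑ η, ((2 : ℝ) ^ s)⁻¹ * (e (dot A (ω + η)) * φ ω (f η)), fun g => ?_⟩
  simp only [kop, map_smul, map_sum, smul_eq_mul, mul_sum, sum_mul]
  rw [Finset.sum_congr rfl fun ω _ => Finset.sum_comm, Finset.sum_comm]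
  refine sum_congr rfl fun A _ => sum_congr rfl fun ω _ => sum_congr rfl fun η _ => by ring

end WALH

open WALH in
theorem WALH_proof (hK : WalkStmt.{u}) (hT : WaltStmt.{u}) : WalhStmt.{u} := by
  intro X _ _ s n a ha hH Bs f
  set h := kop (fun A => ∏ j, (1 - 3 * ind (Bs j) A)) f with hh
  set v : ℝ := ((4 : ℝ) ^ n)⁻¹ with hv
  have hv0 : 0 < v := by positivity
  set r : ℝ := v / a with hr
  have hr0 : 0 < r := div_pos hv0 ha
  choose ψ hψ1 hψ2 using fun ω => exists_dual_vector'' ℝ (h ω)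
  let φ : (Fin s → ZMod 2) → StrongDual ℝ X := fun ω => (‖h ω‖ * r) • ψ ω
  have hφ1 : ∀ ω, φ ω (h ω) = r * ‖h ω‖ ^ 2 := by
    intro ω
    simp only [φ, smul_apply, smul_eq_mul, hψ2 ω, RCLike.ofReal_real_eq_id, id]
    ring
  have hφ2 : ∀ ω, ‖φ ω‖ ^ 2 ≤ r ^ 2 * ‖h ω‖ ^ 2 := by
    intro ω
    have h0 : 0 ≤ ‖h ω‖ * r := mul_nonneg (norm_nonneg _) hr0.le
    have : ‖φ ω‖ ≤ ‖h ω‖ * r := by
      simp only [φ, norm_smul, Real.norm_eq_abs, abs_of_nonneg h0]
      exact mul_le_of_le_one_right h0 (hψ1 ω)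
    have := pow_le_pow_left₀ (norm_nonneg _) this 2
    linarith [mul_pow ‖h ω‖ r 2]
  obtain ⟨c, hc⟩ := lin f φ
  obtain ⟨hK1, -, hK3⟩ := hK X s
  -- the pairing at one point
  have key : ∀ ω, avg (fun S : Fin n → ZMod 2 => avg fun T : Fin n → ZMod 2 =>
      e (dot S T) * e (∑ j, S j) * e (∑ j, T j) * (kop (gs Bs T) φ ω) (kop (gs Bs S) f ω)) ≤
      a / 2 * (avg (fun S : Fin n → ZMod 2 => ‖kop (gs Bs S) f ω‖ ^ 2) +
        avg fun T : Fin n → ZMod 2 => ‖kop (gs Bs T) φ ω‖ ^ 2) := by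
    intro ω
    have := hH (fun S => e (∑ j, S j) • kop (gs Bs S) f ω)
      (fun T => e (∑ j, T j) • kop (gs Bs T) φ ω) (fun _ => Set.mem_univ _)
    simp only [map_smul, LinearMap.smul_apply, pairB_apply, ContinuousLinearMap.id_apply,
      smul_eq_mul, norm_smul, Real.norm_eq_abs, abs_e, one_mul] at this
    refine le_trans (le_of_eq ?_) ((le_abs_self _).trans this)
    congr 1
    funext S
    congr 1
    funext T
    ring
  have hsum := Finset.sum_le_sum fun ω (_ : ω ∈ (univ : Finset (Fin s → ZMod 2))) => key ω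
  have hL : ∑ ω, avg (fun S : Fin n → ZMod 2 => avg fun T : Fin n → ZMod 2 =>
      e (dot S T) * e (∑ j, S j) * e (∑ j, T j) * (kop (gs Bs T) φ ω) (kop (gs Bs S) f ω)) =
      v * (r * ∑ ω, ‖h ω‖ ^ 2) := by
    rw [← avg_sum]
    simp only [← avg_sum, ← mul_sum, hK3, hK1, hc]
    have e1 : ∀ S T : Fin n → ZMod 2, e (dot S T) * e (∑ j, S j) * e (∑ j, T j) *
        ∑ A, gs Bs T A * gs Bs S A * c A =
        ∑ A, e (dot S T) * e (∑ j, S j) * e (∑ j, T j) * (gs Bs T A * gs Bs S A) * c A := by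
      intro S T
      rw [mul_sum]
      exact sum_congr rfl fun A _ => by ring
    simp only [e1, avg_sum, avg_mul_right, scalar]
    have e2 := hc (fun A => ∏ j, (1 - 3 * ind (Bs j) A))
    rw [← hh, sum_congr rfl fun ω _ => hφ1 ω, ← mul_sum] at e2
    rw [e2, mul_sum]
    exact sum_congr rfl fun A _ => by rw [hv]; ring
  have hR1 : ∑ ω, avg (fun S : Fin n → ZMod 2 => ‖kop (gs Bs S) f ω‖ ^ 2) ≤ ∑ ω, ‖f ω‖ ^ 2 := by
    rw [← avg_sum]
    refine (avg_le_avg fun S => ?_).trans (le_of_eq (avg_const _))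
    have := (hT X s).2 ((univ.filter fun j => S j ≠ 0).biUnion Bs) f
    rw [gs_eq]
    simpa using this
  have hR2 : ∑ ω, avg (fun T : Fin n → ZMod 2 => ‖kop (gs Bs T) φ ω‖ ^ 2) ≤
      r ^ 2 * ∑ ω, ‖h ω‖ ^ 2 := by
    rw [← avg_sum]
    refine (avg_le_avg fun S => ?_).trans (le_of_eq (avg_const _))
    have := (hT (StrongDual ℝ X) s).2 ((univ.filter fun j => S j ≠ 0).biUnion Bs) φ
    rw [gs_eq, mul_sum]
    refine this.trans ?_
    rw [one_pow, one_mul]
    exact sum_le_sum fun ω _ => hφ2 ω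
  rw [hL, ← mul_sum, sum_add_distrib] at hsum
  set H := ∑ ω, ‖h ω‖ ^ 2
  set F := ∑ ω, ‖f ω‖ ^ 2
  have h1 : v * (r * H) ≤ a / 2 * (F + r ^ 2 * H) :=
    hsum.trans (mul_le_mul_of_nonneg_left (add_le_add hR1 hR2) (by positivity))
  have h2 : v = r * a := by rw [hr]; field_simp
  have h3 : r ^ 2 * H ≤ F := by
    rw [h2] at h1
    have : a / 2 * (r ^ 2 * H) ≤ a / 2 * F := by nlinarith
    exact le_of_mul_le_mul_left this (by positivity)
  have h4 : (4 ^ n * a) * r = 1 := by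
    rw [hr, hv]; field_simp
  calc H = ((4 ^ n * a) * r) ^ 2 * H := by rw [h4]; ring
    _ = (4 ^ n * a) ^ 2 * (r ^ 2 * H) := by ring
    _ ≤ (4 ^ n * a) ^ 2 * F := mul_le_mul_of_nonneg_left h3 (by positivity)

end Crest.Agent.R118
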