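import Crest.Agent.R118.Defs

/-! Row 118: algebra of Walsh multipliers (task WALK). -/

set_option autoImplicit false

namespace Crest.Agent.R118

open Finset

universe u

namespace WALK

theorem sum_e_dot {s : ℕ} (x : Fin s → ZMod 2) :
    ∑ y : Fin s → ZMod 2, e (dot x y) = if x = 0 then (2 : ℝ) ^ s else 0 := by
  have h := avg_e_dot x
  unfold avg at h
  have hc : (Fintype.card (Fin s → ZMod 2) : ℝ) = 2 ^ s := by simp
  rw [hc] at h
  have h2 : (2 : ℝ) ^ s ≠ 0 := by positivity
  have h3 : ∑ y : Fin s → ZMod 2, e (dot x y) =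
      2 ^ s * (((2 : ℝ) ^ s)⁻¹ * ∑ y : Fin s → ZMod 2, e (dot x y)) := by
    field_simp
  rw [h3, h]
  split_ifs <;> simp

theorem add_eq_zero_iff' {s : ℕ} (x y : Fin s → ZMod 2) : x + y = 0 ↔ y = x := by
  constructor
  · intro h
    funext i
    have h1 := congrFun h i
    have h2 := z2_add_self (x i)
    simp only [Pi.add_apply, Pi.zero_apply] at h1
    exact add_left_cancel (h1.trans h2.symm)
  · rintro rfl
    funext i
    exact z2_add_self _

theorem conv {s : ℕ} (g h : (Fin s → ZMod 2) → ℝ) (ω ζ : Fin s → ZMod 2) :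
    ∑ η, (∑ A, g A * e (dot A (ω + η))) * (∑ B, h B * e (dot B (η + ζ))) =
      2 ^ s * ∑ A, g A * h A * e (dot A (ω + ζ)) := by
  have h1 : ∀ η, (∑ A, g A * e (dot A (ω + η))) * (∑ B, h B * e (dot B (η + ζ))) =
      ∑ A, ∑ B, g A * h B * e (dot A ω) * e (dot B ζ) * e (dot (A + B) η) := by
    intro η
    rw [sum_mul_sum]
    refine sum_congr rfl fun A _ => sum_congr rfl fun B _ => ?_
    simp only [dot_add_right, dot_add_left, e_add]
    ring
  simp only [h1]
  rw [sum_comm, mul_sum]
  refine sum_congr rfl fun A _ => ?_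
  rw [sum_comm]
  simp only [← mul_sum, sum_e_dot, add_eq_zero_iff', mul_ite, mul_zero, sum_ite_eq', mem_univ,
    if_true, dot_add_right, e_add]
  ring

end WALK

open WALK in
theorem WALK_proof : WalkStmt.{u} := by
  intro X _ _ s
  have h2 : (2 : ℝ) ^ s ≠ 0 := by positivity
  refine ⟨fun g h f => ?_, fun f => ?_, fun g f φ => ?_⟩
  · funext ω
    simp only [kop]
    congr 1
    simp only [smul_sum, smul_smul]
    rw [sum_comm]
    refine sum_congr rfl fun ζ _ => ?_
    rw [← sum_smul]
    congr 1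
    have h3 := conv g h ω ζ
    calc ∑ η, (∑ A, g A * e (dot A (ω + η))) *
          (((2 : ℝ) ^ s)⁻¹ * ∑ B, h B * e (dot B (η + ζ)))
        = ((2 : ℝ) ^ s)⁻¹ *
          ∑ η, (∑ A, g A * e (dot A (ω + η))) * (∑ B, h B * e (dot B (η + ζ))) := by
          rw [mul_sum]
          exact sum_congr rfl fun η _ => by ring
      _ = ∑ A, g A * h A * e (dot A (ω + ζ)) := by
          rw [h3]
          field_simp
  · funext ω
    simp only [kop, one_mul]
    have h3 : ∀ η : Fin s → ZMod 2, ∑ A, e (dot A (ω + η)) = if η = ω then (2 : ℝ) ^ s else 0 := by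
      intro η
      simp only [dot_comm _ (ω + η), sum_e_dot, add_eq_zero_iff']
    simp only [h3, ite_smul, zero_smul, sum_ite_eq', mem_univ, if_true, smul_smul]
    rw [inv_mul_cancel₀ h2, one_smul]
  · simp only [kop, ContinuousLinearMap.smul_apply, ContinuousLinearMap.sum_apply, map_smul,
      map_sum, smul_eq_mul, mul_sum]
    rw [sum_comm]
    refine sum_congr rfl fun ω _ => sum_congr rfl fun η _ => ?_
    rw [add_comm η ω]

end Crest.Agent.R118
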