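import Crest.Agent.R118.Defs

/-! Row 118: WALM. -/

set_option autoImplicit false

namespace Crest.Agent.R118

open Finset Crest.AnalysisR

universe u

namespace WALM

variable (X : Type u) [NormedAddCommGroup X] [NormedSpace ℝ X] (s : ℕ)

/-- the multiplier as a continuous linear map -/
noncomputable def KL (g : (Fin s → ZMod 2) → ℝ) :
    (PiLp 2 fun _ : Fin s → ZMod 2 => X) →L[ℝ] (PiLp 2 fun _ : Fin s → ZMod 2 => X) :=
  (PiLp.continuousLinearEquiv 2 ℝ (fun _ : Fin s → ZMod 2 => X)).symm.toContinuousLinearMap ∘L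
    ContinuousLinearMap.pi fun ω => ((2 : ℝ) ^ s)⁻¹ • ∑ η, (∑ A, g A * e (dot A (ω + η))) •
      PiLp.proj (𝕜 := ℝ) 2 (fun _ : Fin s → ZMod 2 => X) η

theorem KL_apply (g : (Fin s → ZMod 2) → ℝ) (f : PiLp 2 fun _ : Fin s → ZMod 2 => X)
    (ω : Fin s → ZMod 2) : KL X s g f ω = kop g (fun η => f η) ω := by
  simp [KL, kop]

theorem KL_fun (g : (Fin s → ZMod 2) → ℝ) (f : PiLp 2 fun _ : Fin s → ZMod 2 => X) :
    (fun ω => KL X s g f ω) = kop g (fun η => f η) := funext (KL_apply X s g f)

/-- linear dependence on the symbol -/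
noncomputable def ML : (ℕ → ℝ) →ₗ[ℝ] ((PiLp 2 fun _ : Fin s → ZMod 2 => X) →L[ℝ]
    (PiLp 2 fun _ : Fin s → ZMod 2 => X)) where
  toFun g := KL X s fun A => g (wt A)
  map_add' g h := by
    ext f ω
    simp only [ContinuousLinearMap.add_apply, PiLp.add_apply, KL_apply, kop, Pi.add_apply, add_mul,
      Finset.sum_add_distrib, add_smul, smul_add]
  map_smul' c g := by
    ext f ω
    simp only [ContinuousLinearMap.smul_apply, PiLp.smul_apply, KL_apply, kop, Pi.smul_apply,
      smul_eq_mul, RingHom.id_apply, mul_assoc, ← Finset.mul_sum, mul_smul, ← Finset.smul_sum]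
    rw [smul_comm]

theorem ML_apply (g : ℕ → ℝ) : ML X s g = KL X s fun A => g (wt A) := rfl

theorem wt_le (A : Fin s → ZMod 2) : wt A ≤ s := by
  unfold wt
  exact (Finset.card_le_univ _).trans (by simp)

end WALM

theorem WALM_proof (hK : WalkStmt.{u}) : WalmStmt.{u} := by
  intro X _ _ s
  obtain ⟨hmul, hone, -⟩ := hK X s
  refine ⟨AlgHom.ofLinearMap (WALM.ML X s) ?_ ?_, ⟨s + 1, fun g => ?_⟩, fun g c hc => ?_⟩
  · ext f ω
    rw [WALM.ML_apply, WALM.KL_apply]
    exact congrFun (hone fun η => f η) ω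
  · intro g h
    ext f ω
    rw [ContinuousLinearMap.mul_apply]
    simp only [WALM.ML_apply]
    rw [WALM.KL_apply, WALM.KL_apply, WALM.KL_fun, hmul]
    rfl
  · simp only [AlgHom.ofLinearMap_apply, ← map_smul, ← map_sum]
    rw [WALM.ML_apply, WALM.ML_apply]
    congr 1
    funext A
    have := WALM.wt_le s A
    simp only [Finset.sum_apply, Pi.smul_apply, Pi.single_apply, smul_eq_mul, mul_ite, mul_one,
      mul_zero, Finset.sum_ite_eq, Finset.mem_range]
    rw [if_pos (by omega)]
  · simp only [AlgHom.ofLinearMap_apply, WALM.ML_apply]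
    constructor
    · intro h
      refine ContinuousLinearMap.opNorm_le_bound _ hc fun f => ?_
      refine le_of_sq_le_sq ?_ (mul_nonneg hc (norm_nonneg _))
      rw [mul_pow, PiLp.norm_sq_eq_of_L2, PiLp.norm_sq_eq_of_L2]
      simp only [WALM.KL_apply]
      exact h fun η => f η
    · intro h f
      have h1 := (WALM.KL X s fun A => g (wt A)).le_of_opNorm_le h (WithLp.toLp 2 f)
      have h2 := pow_le_pow_left₀ (norm_nonneg _) h1 2
      rw [mul_pow, PiLp.norm_sq_eq_of_L2, PiLp.norm_sq_eq_of_L2] at h2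
      simp only [WALM.KL_apply] at h2
      exact h2

end Crest.Agent.R118
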