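import Crest.Agent.R118.Defs

set_option autoImplicit false

namespace Crest.Agent.R118

open Finset

universe u

namespace WALR

theorem sq_le {β : Type*} [Fintype β] (P x : β → ℝ) (hP : ∀ b, 0 ≤ P b) (h1 : ∑ b, P b = 1) :
    (∑ b, P b * x b) ^ 2 ≤ ∑ b, P b * x b ^ 2 := by
  obtain ⟨m, hm⟩ : ∃ m, m = ∑ b, P b * x b := ⟨_, rfl⟩
  have h0 : 0 ≤ ∑ b, P b * (x b - m) ^ 2 :=
    sum_nonneg fun b _ => mul_nonneg (hP b) (sq_nonneg _)
  have e : ∑ b, P b * (x b - m) ^ 2 =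
      ∑ b, P b * x b ^ 2 - 2 * m * ∑ b, P b * x b + m ^ 2 * ∑ b, P b := by
    rw [mul_sum, mul_sum, ← sum_sub_distrib, ← sum_add_distrib]
    exact sum_congr rfl fun b _ => by ring
  rw [e, h1, ← hm] at h0
  rw [← hm]
  nlinarith

theorem mix {X : Type u} [NormedAddCommGroup X] [NormedSpace ℝ X] {s : ℕ} {β : Type*} [Fintype β]
    (P : β → ℝ) (hP : ∀ b, 0 ≤ P b) (h1 : ∑ b, P b = 1) (g : β → (Fin s → ZMod 2) → ℝ) (c : ℝ)
    (hg : ∀ b, KB X (g b) c) : KB X (fun A => ∑ b, P b * g b A) c := by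
  intro f
  have lin : ∀ ω, kop (fun A => ∑ b, P b * g b A) f ω = ∑ b, P b • kop (g b) f ω := by
    intro ω
    unfold kop
    simp only [smul_sum, smul_smul]
    rw [sum_comm]
    refine sum_congr rfl fun η _ => ?_
    rw [← sum_smul]
    congr 1
    simp only [sum_mul, mul_sum]
    rw [sum_comm]
    refine sum_congr rfl fun b _ => sum_congr rfl fun A _ => by ring
  have pt : ∀ ω, ‖kop (fun A => ∑ b, P b * g b A) f ω‖ ^ 2 ≤ ∑ b, P b * ‖kop (g b) f ω‖ ^ 2 := by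
    intro ω
    rw [lin]
    refine le_trans ?_ (sq_le P (fun b => ‖kop (g b) f ω‖) hP h1)
    apply pow_le_pow_left₀ (norm_nonneg _)
    refine (norm_sum_le _ _).trans (le_of_eq ?_)
    refine sum_congr rfl fun b _ => ?_
    rw [norm_smul, Real.norm_of_nonneg (hP b)]
  calc ∑ ω, ‖kop (fun A => ∑ b, P b * g b A) f ω‖ ^ 2
      ≤ ∑ ω, ∑ b, P b * ‖kop (g b) f ω‖ ^ 2 := sum_le_sum fun ω _ => pt ω
    _ = ∑ b, P b * ∑ ω, ‖kop (g b) f ω‖ ^ 2 := by
        rw [sum_comm]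
        exact sum_congr rfl fun b _ => by rw [mul_sum]
    _ ≤ ∑ b, P b * (c ^ 2 * ∑ ω, ‖f ω‖ ^ 2) :=
        sum_le_sum fun b _ => mul_le_mul_of_nonneg_left (hg b f) (hP b)
    _ = c ^ 2 * ∑ ω, ‖f ω‖ ^ 2 := by rw [← sum_mul, h1, one_mul]

noncomputable def p {s : ℕ} (ρ : ℝ) (B : Finset (Fin s)) : ℝ :=
  (∏ _i ∈ B, (1 - ρ)) * ∏ _i ∈ univ \ B, ρ

theorem p_sum {s : ℕ} (ρ : ℝ) : ∑ B : Finset (Fin s), p ρ B = 1 := by
  have := Finset.prod_add (fun _ : Fin s => 1 - ρ) (fun _ => ρ) univ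
  simp only [sub_add_cancel, prod_const_one, powerset_univ] at this
  exact this.symm

theorem p_ind {s : ℕ} (ρ : ℝ) (A : Fin s → ZMod 2) :
    ∑ B : Finset (Fin s), p ρ B * ind B A = ρ ^ wt A := by
  have h := Finset.prod_add (fun i : Fin s => (1 - ρ) * (if A i = 0 then (1 : ℝ) else 0))
    (fun _ => ρ) univ
  rw [powerset_univ] at h
  have e1 : ∏ i : Fin s, ((1 - ρ) * (if A i = 0 then (1 : ℝ) else 0) + ρ) = ρ ^ wt A := by
    unfold wt
    rw [← prod_const, prod_filter]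
    refine prod_congr rfl fun i _ => ?_
    by_cases hi : A i = 0 <;> simp [hi]
  rw [← e1, h]
  refine sum_congr rfl fun B _ => ?_
  have e2 : ind B A = ∏ i ∈ B, (if A i = 0 then (1 : ℝ) else 0) := by
    unfold ind
    rw [prod_boole]
    congr
  rw [prod_mul_distrib, e2, p]
  ring

end WALR

open WALR in
theorem WALR_proof : WalrStmt.{u} := by
  intro X _ _ s n c h ρ h0 h1
  have hp : ∀ B : Finset (Fin s), 0 ≤ p ρ B := fun B =>
    mul_nonneg (prod_nonneg fun _ _ => by linarith) (prod_nonneg fun _ _ => h0)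
  have hs : ∑ Bs : Fin n → Finset (Fin s), ∏ j, p ρ (Bs j) = 1 := by
    have := Finset.prod_univ_sum (fun _ : Fin n => (univ : Finset (Finset (Fin s))))
      (fun _ B => p ρ B)
    rw [Fintype.piFinset_univ] at this
    rw [← this]
    simp [p_sum]
  have key := mix (fun Bs : Fin n → Finset (Fin s) => ∏ j, p ρ (Bs j))
    (fun Bs => prod_nonneg fun j _ => hp _) hs (fun Bs A => ∏ j, (1 - 3 * ind (Bs j) A)) c h
  have e : (fun A : Fin s → ZMod 2 => (1 - 3 * ρ ^ wt A) ^ n) = fun A =>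
      ∑ Bs : Fin n → Finset (Fin s), (∏ j, p ρ (Bs j)) * ∏ j, (1 - 3 * ind (Bs j) A) := by
    funext A
    have := Finset.prod_univ_sum (fun _ : Fin n => (univ : Finset (Finset (Fin s))))
      (fun _ B => p ρ B * (1 - 3 * ind B A))
    rw [Fintype.piFinset_univ] at this
    simp only [← prod_mul_distrib]
    rw [← this]
    have e1 : ∑ B : Finset (Fin s), p ρ B * (1 - 3 * ind B A) = 1 - 3 * ρ ^ wt A := by
      rw [← p_ind, mul_sum]
      conv_rhs => rw [← p_sum (s := s) ρ]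
      rw [← sum_sub_distrib]
      exact sum_congr rfl fun B _ => by ring
    simp [e1]
  rw [e]
  exact key

end Crest.Agent.R118
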