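import Crest.Agent.R118.Defs

/-! Row 118: the task WALT. -/

set_option autoImplicit false

namespace Crest.Agent.R118

open Finset Crest.AnalysisR

universe u

namespace WALT

theorem sum_z2 (F : ZMod 2 → ℝ) : ∑ a, F a = F 0 + F 1 := Fin.sum_univ_two F

theorem pos_kernel (X : Type u) [NormedAddCommGroup X] [NormedSpace ℝ X] {s : ℕ}
    (g k : (Fin s → ZMod 2) → ℝ) (hk : ∀ z, ∑ A, g A * e (dot A z) = k z) (h0 : ∀ z, 0 ≤ k z)
    (h1 : ∑ z, k z = 2 ^ s) : KB X g 1 := by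
  intro f
  have hp : (0 : ℝ) < 2 ^ s := by positivity
  have hl : ∀ ω : Fin s → ZMod 2, ∑ η, k (ω + η) = 2 ^ s := fun ω => by
    rw [← h1]; exact Equiv.sum_comp (Equiv.addLeft ω) k
  have hr : ∀ η : Fin s → ZMod 2, ∑ ω, k (ω + η) = 2 ^ s := fun η => by
    rw [← h1]; exact Equiv.sum_comp (Equiv.addRight η) k
  have hω : ∀ ω, ‖kop g f ω‖ ^ 2 ≤ ((2 : ℝ) ^ s)⁻¹ * ∑ η, k (ω + η) * ‖f η‖ ^ 2 := by
    intro ω
    have a1 : ‖kop g f ω‖ ≤ ((2 : ℝ) ^ s)⁻¹ * ∑ η, k (ω + η) * ‖f η‖ := by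
      unfold kop
      rw [norm_smul, Real.norm_eq_abs, abs_of_pos (inv_pos.2 hp)]
      refine mul_le_mul_of_nonneg_left ((norm_sum_le _ _).trans (le_of_eq ?_)) (inv_pos.2 hp).le
      refine sum_congr rfl fun η _ => ?_
      rw [hk, norm_smul, Real.norm_eq_abs, abs_of_nonneg (h0 _)]
    have a2 : (∑ η, k (ω + η) * ‖f η‖) ^ 2 ≤
        (∑ η, k (ω + η)) * ∑ η, k (ω + η) * ‖f η‖ ^ 2 :=
      Finset.sum_sq_le_sum_mul_sum_of_sq_le_mul _ (fun η _ => h0 _)
        (fun η _ => mul_nonneg (h0 _) (sq_nonneg _)) (fun η _ => le_of_eq (by ring))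
    rw [hl] at a2
    calc ‖kop g f ω‖ ^ 2 ≤ (((2 : ℝ) ^ s)⁻¹ * ∑ η, k (ω + η) * ‖f η‖) ^ 2 :=
          pow_le_pow_left₀ (norm_nonneg _) a1 2
      _ = ((2 : ℝ) ^ s)⁻¹ ^ 2 * (∑ η, k (ω + η) * ‖f η‖) ^ 2 := by ring
      _ ≤ ((2 : ℝ) ^ s)⁻¹ ^ 2 * (2 ^ s * ∑ η, k (ω + η) * ‖f η‖ ^ 2) :=
          mul_le_mul_of_nonneg_left a2 (by positivity)
      _ = _ := by field_simp
  refine (sum_le_sum fun ω _ => hω ω).trans (le_of_eq ?_)
  rw [← mul_sum, sum_comm]
  simp only [← sum_mul, hr]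
  rw [← mul_sum]
  field_simp

theorem prod_kernel (X : Type u) [NormedAddCommGroup X] [NormedSpace ℝ X] {s : ℕ}
    (c : Fin s → ℝ) (hc : ∀ i, |c i| ≤ 1) :
    KB X (fun A : Fin s → ZMod 2 => ∏ i, if A i = 0 then 1 else c i) 1 := by
  refine pos_kernel X _ (fun z => ∏ i, (1 + c i * e (z i))) (fun z => ?_) (fun z => ?_) ?_
  · have e1 : ∀ i, 1 + c i * e (z i) =
        ∑ a : ZMod 2, (if a = 0 then 1 else c i) * e (a * z i) := by
      intro i
      rw [sum_z2]
      simp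
    simp only [e1]
    rw [prod_univ_sum, Fintype.piFinset_univ]
    refine sum_congr rfl fun A _ => ?_
    rw [dot, e_sum, prod_mul_distrib]
  · refine prod_nonneg fun i _ => ?_
    have h1 : |c i * e (z i)| ≤ 1 := by rw [abs_mul, abs_e, mul_one]; exact hc i
    linarith [(abs_le.1 h1).1]
  · rw [← Fintype.piFinset_univ, ← prod_univ_sum (fun _ => univ) (fun i a => 1 + c i * e a)]
    have e1 : ∀ i, ∑ a : ZMod 2, (1 + c i * e a) = 2 := by
      intro i
      rw [sum_z2]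
      simp
      ring
    simp [e1]

end WALT

theorem WALT_proof : WaltStmt.{u} := by
  intro X _ _ s
  refine ⟨fun ρ h0 h1 => ?_, fun B => ?_⟩
  · have h := WALT.prod_kernel X (fun _ : Fin s => ρ) (fun _ => by rw [abs_of_nonneg h0]; exact h1)
    have e1 : (fun A : Fin s → ZMod 2 => ρ ^ wt A) =
        fun A => ∏ i, if A i = 0 then 1 else ρ := by
      funext A
      rw [prod_ite, prod_const_one, one_mul, prod_const, wt]
    rw [e1]
    exact h
  · have h := WALT.prod_kernel X (fun i : Fin s => if i ∈ B then (0 : ℝ) else 1)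
      (fun i => by split_ifs <;> simp)
    have e1 : ind B = fun A : Fin s → ZMod 2 =>
        ∏ i, if A i = 0 then (1 : ℝ) else if i ∈ B then 0 else 1 := by
      funext A
      unfold ind
      split_ifs with hA
      · symm
        refine prod_eq_one fun i _ => ?_
        by_cases hi : i ∈ B
        · rw [if_pos (hA i hi)]
        · rw [if_neg hi, ite_self]
      · symm
        push Not at hA
        obtain ⟨i, hi, hA⟩ := hA
        exact prod_eq_zero (mem_univ i) (by rw [if_neg hA, if_pos hi])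
    rw [e1]
    exact h

end Crest.Agent.R118
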